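import Mathlib

/-!
Symmetric expectation threshold versus symmetric spread, abstract form.

A finite group `G` acts on a finite set `X`.  If every subset `U` of `H` has
orbit size times `q ^ |U|` at least one half, then a uniformly random translate of a fixed set `F`
lies in `H` with probability at most `(C q (1 + log (|H| / |F|))) ^ |F|`.

Proof: take independent uniform copies of `F` inside `H` until their union has at least
`|H| / 64` elements, and count the possible unions in two ways.
-/

open scoped Pointwise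
open Finset

namespace Vale.Agent.P064

section
variable {G X : Type*} [Group G] [Fintype G] [DecidableEq X] [MulAction G X]

/-- number of group elements moving `F` into `H` -/
noncomputable def cnt (H F : Finset X) : ℕ := #{g : G | g • F ⊆ H}

/-- the orbit of a finite set -/
noncomputable def orbitF (U : Finset X) : Finset (Finset X) := univ.image fun g : G => g • U

lemma cnt_smul (h : G) (H F : Finset X) : cnt (G := G) (h • H) F = cnt (G := G) H F := by
  unfold cnt
  refine Finset.card_equiv (Equiv.mulLeft h⁻¹) ?_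
  intro g
  simp only [mem_filter, mem_univ, true_and, Equiv.coe_mulLeft, mul_smul]
  rw [← Finset.smul_finset_subset_smul_finset_iff (a := h⁻¹), inv_smul_smul]

lemma cnt_mono {H H' : Finset X} (F : Finset X) (h : H ⊆ H') :
    cnt (G := G) H F ≤ cnt (G := G) H' F := by
  unfold cnt
  apply card_le_card
  intro g
  simp only [mem_filter, mem_univ, true_and]
  exact fun hg => hg.trans h

lemma mem_orbitF {U W : Finset X} : W ∈ orbitF (G := G) U ↔ ∃ g : G, g • U = W := by
  simp [orbitF]

/-- iterated sum over sequences of copies -/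
noncomputable def wsum (F : Finset X) (Ω : Finset G) :
    ℕ → (Finset X → ℝ) → Finset X → ℝ
  | 0, f, U => f U
  | k + 1, f, U => wsum F Ω k (fun V => ∑ g ∈ Ω, f (V ∪ g • F)) U

lemma wsum_congr (F : Finset X) (Ω : Finset G) (k : ℕ) {f f' : Finset X → ℝ}
    (h : ∀ V, f V = f' V) (U : Finset X) : wsum F Ω k f U = wsum F Ω k f' U := by
  rw [funext h]

lemma wsum_sum {ι : Type*} (s : Finset ι) (F : Finset X) (Ω : Finset G) :
    ∀ (k : ℕ) (f : ι → Finset X → ℝ) (U : Finset X),
      wsum F Ω k (fun V => ∑ i ∈ s, f i V) U = ∑ i ∈ s, wsum F Ω k (f i) U := by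
  intro k
  induction k with
  | zero => intro f U; simp [wsum]
  | succ k ih =>
    intro f U
    simp only [wsum]
    rw [← ih]
    refine wsum_congr F Ω k (fun V => ?_) U
    rw [Finset.sum_comm]

lemma wsum_smulR (F : Finset X) (Ω : Finset G) :
    ∀ (k : ℕ) (c : ℝ) (f : Finset X → ℝ) (U : Finset X),
      wsum F Ω k (fun V => c * f V) U = c * wsum F Ω k f U := by
  intro k
  induction k with
  | zero => intro c f U; simp [wsum]
  | succ k ih =>
    intro c f U
    simp only [wsum]
    rw [← ih]
    refine wsum_congr F Ω k (fun V => ?_) U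
    rw [Finset.mul_sum]

lemma wsum_sub (F : Finset X) (Ω : Finset G) :
    ∀ (k : ℕ) (f f' : Finset X → ℝ) (U : Finset X),
      wsum F Ω k (fun V => f V - f' V) U = wsum F Ω k f U - wsum F Ω k f' U := by
  intro k
  induction k with
  | zero => intro f f' U; simp [wsum]
  | succ k ih =>
    intro f f' U
    simp only [wsum]
    rw [← ih]
    refine wsum_congr F Ω k (fun V => ?_) U
    rw [Finset.sum_sub_distrib]

lemma wsum_mono (F : Finset X) {Ω Ω' : Finset G} (hΩ : Ω ⊆ Ω') (P : Finset X → Prop)
    (hP : ∀ V, P V → ∀ g ∈ Ω, P (V ∪ g • F)) :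
    ∀ (k : ℕ) (f f' : Finset X → ℝ) (U : Finset X), (∀ V, 0 ≤ f' V) →
      (∀ V, P V → f V ≤ f' V) → P U → wsum F Ω k f U ≤ wsum F Ω' k f' U := by
  intro k
  induction k with
  | zero => intro f f' U _ h hU; exact h U hU
  | succ k ih =>
    intro f f' U h0 h hU
    simp only [wsum]
    refine ih _ _ U (fun V => Finset.sum_nonneg fun g _ => h0 _) (fun V hV => ?_) hU
    calc ∑ g ∈ Ω, f (V ∪ g • F) ≤ ∑ g ∈ Ω, f' (V ∪ g • F) :=
          Finset.sum_le_sum fun g hg => h _ (hP V hV g hg)
      _ ≤ ∑ g ∈ Ω', f' (V ∪ g • F) :=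
          Finset.sum_le_sum_of_subset_of_nonneg hΩ fun g _ _ => h0 _

lemma wsum_smul_set (F : Finset X) :
    ∀ (k : ℕ) (h : G) (f : Finset X → ℝ) (U : Finset X),
      wsum F (univ : Finset G) k (fun V => f (h • V)) U = wsum F (univ : Finset G) k f (h • U) := by
  intro k
  induction k with
  | zero => intro h f U; simp [wsum]
  | succ k ih =>
    intro h f U
    simp only [wsum]
    rw [← ih h (fun V => ∑ g : G, f (V ∪ g • F)) U]
    refine wsum_congr F univ k (fun V => ?_) U
    refine Fintype.sum_equiv (Equiv.mulLeft h) _ _ (fun g => ?_)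
    simp [Finset.smul_finset_union, mul_smul]

lemma wsum_eq_zero_of_small (F : Finset X) (Ω : Finset G) :
    ∀ (k : ℕ) (f : Finset X → ℝ) (U : Finset X),
      (∀ V : Finset X, V.card ≤ U.card + k * F.card → f V = 0) → wsum F Ω k f U = 0 := by
  intro k
  induction k with
  | zero => intro f U h; exact h U (by omega)
  | succ k ih =>
    intro f U h
    simp only [wsum]
    refine ih _ U (fun V hV => Finset.sum_eq_zero fun g _ => h _ ?_)
    calc (V ∪ g • F).card ≤ V.card + (g • F).card := card_union_le _ _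
      _ ≤ U.card + k * F.card + F.card := by rw [Finset.card_smul_finset]; omega
      _ = U.card + (k + 1) * F.card := by ring

lemma wsum_avoid (F : Finset X) (Ω : Finset G) (x : X) :
    ∀ k : ℕ, wsum F Ω k (fun V => if x ∉ V then (1 : ℝ) else 0) ∅
      = (#{g ∈ Ω | x ∉ g • F} : ℝ) ^ k := by
  intro k
  induction k with
  | zero => simp [wsum]
  | succ k ih =>
    have h : ∀ V : Finset X, (∑ g ∈ Ω, if x ∉ V ∪ g • F then (1 : ℝ) else 0)
        = (#{g ∈ Ω | x ∉ g • F} : ℝ) * (if x ∉ V then (1 : ℝ) else 0) := by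
      intro V
      by_cases hx : x ∈ V
      · simp [hx]
      · simp [hx, Finset.sum_ite]
    simp only [wsum]
    rw [wsum_congr F Ω k h, wsum_smulR, ih]
    ring

/-- the orbit expectation hypothesis -/
def Good (G : Type*) [Group G] [Fintype G] [MulAction G X] (q : ℝ) (H : Finset X) : Prop :=
  ∀ U ⊆ H, (1 / 2 : ℝ) ≤ ((orbitF (G := G) U).card : ℝ) * q ^ U.card

lemma choose_le_pow (m e : ℕ) (he : 0 < e) :
    (m.choose e : ℝ) ≤ (3 * m / e) ^ e := by
  have h1 : (m.choose e : ℝ) ≤ (m : ℝ) ^ e / (e.factorial : ℝ) :=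
    Nat.choose_le_pow_div (α := ℝ) e m
  have h2 : (e : ℝ) ^ e / (e.factorial : ℝ) ≤ Real.exp e :=
    Real.pow_div_factorial_le_exp _ (by positivity) e
  have h3 : Real.exp (e : ℝ) ≤ (3 : ℝ) ^ e := by
    rw [show (e : ℝ) = (e : ℝ) * 1 by ring, Real.exp_nat_mul]
    gcongr
    exact Real.exp_one_lt_three.le
  have he' : (0 : ℝ) < (e : ℝ) ^ e := by positivity
  calc (m.choose e : ℝ) ≤ (m : ℝ) ^ e / (e.factorial : ℝ) := h1
    _ = ((e : ℝ) ^ e / (e.factorial : ℝ)) * ((m : ℝ) / e) ^ e := by
        rw [div_pow]; field_simp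
    _ ≤ 3 ^ e * ((m : ℝ) / e) ^ e := by
        gcongr; exact h2.trans h3
    _ = (3 * m / e) ^ e := by rw [← mul_pow]; ring_nf

lemma cnt_le_choose (q : ℝ) (hq : 0 < q) (H F : Finset X) (hH : Good G q H) :
    (cnt (G := G) H F : ℝ) ≤
      2 * (H.card.choose F.card : ℝ) * q ^ F.card * (Fintype.card G : ℝ) := by
  classical
  have hsum : cnt (G := G) H F = ∑ W ∈ H.powersetCard F.card, #{g : G | g • F = W} := by
    unfold cnt
    rw [Finset.card_eq_sum_card_fiberwise (f := fun g : G => g • F) (t := H.powersetCard F.card)]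
    · refine Finset.sum_congr rfl fun W hW => ?_
      rw [Finset.filter_filter]
      congr 1
      ext g
      simp only [mem_filter, mem_univ, true_and]
      constructor
      · exact fun h => h.2
      · intro h
        exact ⟨h ▸ (mem_powersetCard.1 hW).1, h⟩
    · intro g hg
      simp only [coe_filter, mem_univ, true_and, Set.mem_ofPred_eq] at hg
      simp [mem_powersetCard, hg, Finset.card_smul_finset]
  have hfib : ∀ W ∈ H.powersetCard F.card,
      (#{g : G | g • F = W} : ℝ) ≤ 2 * q ^ F.card * (Fintype.card G : ℝ) := by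
    intro W hW
    obtain ⟨hWH, hWc⟩ := mem_powersetCard.1 hW
    have h1 : ∀ W' ∈ orbitF (G := G) W, #{g : G | g • F = W'} = #{g : G | g • F = W} := by
      intro W' hW'
      obtain ⟨a, rfl⟩ := mem_orbitF.1 hW'
      refine Finset.card_equiv (Equiv.mulLeft a⁻¹) ?_
      intro g
      simp [mul_smul, inv_smul_eq_iff]
    have h2 : (orbitF (G := G) W).card * #{g : G | g • F = W} ≤ Fintype.card G := by
      calc (orbitF (G := G) W).card * #{g : G | g • F = W}
          = ∑ W' ∈ orbitF (G := G) W, #{g : G | g • F = W'} := by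
            rw [Finset.sum_congr rfl h1, Finset.sum_const, smul_eq_mul]
        _ = #((univ : Finset G).filter fun g => g • F ∈ orbitF (G := G) W) := by
            rw [Finset.card_eq_sum_card_fiberwise (f := fun g : G => g • F)
              (t := orbitF (G := G) W) (fun g hg => by simpa using hg)]
            refine Finset.sum_congr rfl fun W' hW' => ?_
            rw [Finset.filter_filter]
            congr 1
            ext g
            simp only [mem_filter, mem_univ, true_and]
            exact ⟨fun h => ⟨h ▸ hW', h⟩, fun h => h.2⟩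
        _ ≤ Fintype.card G := Finset.card_le_univ _
    have h3 := hH W hWH
    rw [hWc] at h3
    have h2' : ((orbitF (G := G) W).card : ℝ) * (#{g : G | g • F = W} : ℝ) ≤ Fintype.card G := by
      exact_mod_cast h2
    calc (#{g : G | g • F = W} : ℝ)
        ≤ 2 * (((orbitF (G := G) W).card : ℝ) * q ^ F.card) * (#{g : G | g • F = W} : ℝ) := by
          exact le_mul_of_one_le_left (by positivity) (by linarith)
      _ = 2 * q ^ F.card * (((orbitF (G := G) W).card : ℝ) * (#{g : G | g • F = W} : ℝ)) := by ring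
      _ ≤ 2 * q ^ F.card * (Fintype.card G : ℝ) := by gcongr
  rw [hsum]
  push_cast
  calc ∑ W ∈ H.powersetCard F.card, (#{g : G | g • F = W} : ℝ)
      ≤ ∑ _W ∈ H.powersetCard F.card, 2 * q ^ F.card * (Fintype.card G : ℝ) :=
        Finset.sum_le_sum hfib
    _ = 2 * (H.card.choose F.card : ℝ) * q ^ F.card * (Fintype.card G : ℝ) := by
        rw [Finset.sum_const, card_powersetCard, nsmul_eq_mul]; ring

/-- the logarithmic factor -/
noncomputable def lfac (m e : ℕ) : ℝ := 1 + Real.log (max 1 ((m : ℝ) / e))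

lemma one_le_lfac (m e : ℕ) : 1 ≤ lfac m e := by
  unfold lfac
  linarith [Real.log_nonneg (le_max_left (1 : ℝ) ((m : ℝ) / e))]

lemma lfac_mono {m m' : ℕ} (e : ℕ) (h : m ≤ m') : lfac m e ≤ lfac m' e := by
  unfold lfac
  gcongr

/-- the constant -/
noncomputable def Acst : ℝ := 300000000

lemma shrink_bound {s e : ℕ} (hs : 0 < s) (hse : s ≤ e) {a : ℝ} (ha : 1 ≤ a) :
    (a + Real.log ((e : ℝ) / s)) ^ s ≤ a ^ s * Real.exp ((e : ℝ) / a) := by
  have hs' : (0 : ℝ) < s := by exact_mod_cast hs
  have hse' : (s : ℝ) ≤ e := by exact_mod_cast hse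
  have hl : 0 ≤ Real.log ((e : ℝ) / s) := Real.log_nonneg (by rw [le_div_iff₀ hs']; linarith)
  have hl2 : Real.log ((e : ℝ) / s) ≤ (e : ℝ) / s - 1 :=
    Real.log_le_sub_one_of_pos (by have : (0:ℝ) < e := lt_of_lt_of_le hs' hse'; positivity)
  calc (a + Real.log ((e : ℝ) / s)) ^ s = a ^ s * (1 + Real.log ((e : ℝ) / s) / a) ^ s := by
        rw [← mul_pow]
        congr 1
        field_simp
    _ ≤ a ^ s * (Real.exp (Real.log ((e : ℝ) / s) / a)) ^ s := by
        gcongr
        linarith [Real.add_one_le_exp (Real.log ((e : ℝ) / s) / a)]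
    _ = a ^ s * Real.exp ((s : ℝ) * Real.log ((e : ℝ) / s) / a) := by
        rw [← Real.exp_nat_mul]; ring_nf
    _ ≤ a ^ s * Real.exp ((e : ℝ) / a) := by
        gcongr
        calc (s : ℝ) * Real.log ((e : ℝ) / s) ≤ s * ((e : ℝ) / s - 1) := by gcongr
          _ ≤ e := by rw [mul_sub, mul_div_cancel₀ _ hs'.ne']; linarith

lemma exp_inv_le {a : ℝ} (ha : 2 ≤ a) : Real.exp (1 / a) ≤ 1 + 2 / a := by
  have hx : 1 / a ≤ 1 / 2 := by gcongr
  have hx0 : 0 < 1 / a := by positivity
  have h := Real.add_one_le_exp (-(1 / a))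
  have hp := Real.exp_pos (1 / a)
  have hprod : Real.exp (1 / a) * Real.exp (-(1 / a)) = 1 := by
    rw [← Real.exp_add, add_neg_cancel, Real.exp_zero]
  have h2a : 2 / a = 2 * (1 / a) := by ring
  nlinarith

lemma large_ratio {r : ℝ} (hr : 40000000 ≤ r) :
    6 ≤ 1 + Real.log r ∧
      128 * (1 + Real.log r) * (1 + Real.log r + 4) ≤ r := by
  have hr0 : 0 < r := by linarith
  constructor
  · have h5 : Real.exp 5 ≤ r := by
      have : Real.exp 5 ≤ (3 : ℝ) ^ 5 := by
        rw [show (5 : ℝ) = ((5 : ℕ) : ℝ) * 1 by norm_num, Real.exp_nat_mul]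
        gcongr
        exact Real.exp_one_lt_three.le
      norm_num at this ⊢
      linarith
    have := (Real.le_log_iff_exp_le hr0).2 h5
    linarith
  · set t := Real.sqrt (Real.sqrt r) with ht
    have hsq : t * t = Real.sqrt r := Real.mul_self_sqrt (Real.sqrt_nonneg r)
    have hrr : Real.sqrt r * Real.sqrt r = r := Real.mul_self_sqrt hr0.le
    have hs : 6000 ≤ Real.sqrt r := by
      rw [Real.le_sqrt (by norm_num) hr0.le]
      linarith
    have ht1 : 1 ≤ t := by
      rw [ht, Real.le_sqrt (by norm_num) (Real.sqrt_nonneg r)]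
      linarith
    have hlog : Real.log r ≤ 4 * t := by
      have h1 : Real.log r = 4 * Real.log t := by
        conv_lhs => rw [← hrr, ← hsq]
        rw [show t * t * (t * t) = t ^ 4 by ring, Real.log_pow]
        norm_num
      have := Real.log_le_sub_one_of_pos (show 0 < t by linarith)
      linarith
    have hlog0 : 0 ≤ Real.log r := Real.log_nonneg (by linarith)
    calc 128 * (1 + Real.log r) * (1 + Real.log r + 4)
        ≤ 128 * (5 * t) * (9 * t) := by gcongr <;> linarith
      _ = 5760 * Real.sqrt r := by rw [← hsq]; ring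
      _ ≤ Real.sqrt r * Real.sqrt r := by gcongr; linarith
      _ = r := hrr

set_option maxHeartbeats 800000 in
lemma step_bound (q : ℝ) (hq : 0 < q) (H F : Finset X) (r gg a θ : ℝ)
    (hind : ∀ H' : Finset X, H' ⊂ H → ∀ S : Finset X, S.Nonempty →
      (cnt (G := G) H' S : ℝ) ≤
        (Fintype.card G : ℝ) * (Acst * lfac H'.card S.card * q) ^ S.card)
    (he : 0 < F.card) (hm0 : (0 : ℝ) < H.card) (hr_def : r = (H.card : ℝ) / F.card)
    (hgg : gg = 1 + Real.log r) (hθ_def : θ = (H.card : ℝ) / 64)
    (ha_def : a = gg - 4) (ha : 2 ≤ a) (hθe : (F.card : ℝ) ≤ θ)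
    (U : Finset X) (hUθ : (U.card : ℝ) < θ) (h : G) (hUH : h • U ⊆ H) :
    ∑ g : G, (192 * q) ^ (U ∪ g • F).card ≤ (192 * q) ^ U.card *
      ((Fintype.card G : ℝ) * (Acst * (gg - 1) * q) ^ F.card) := by
  have hA : Acst = 300000000 := rfl
  have hA0 : 0 < Acst := by rw [hA]; norm_num
  set e := F.card with he_def
  set m := H.card with hm_def
  have he' : (0 : ℝ) < e := by exact_mod_cast he
  set N : ℝ := (Fintype.card G : ℝ) with hN
  have hN0 : 0 < N := by rw [hN]; exact_mod_cast Fintype.card_pos
  have hθ0 : 0 < θ := by rw [hθ_def]; positivity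
  have hθm : θ ≤ m := by rw [hθ_def]; linarith
  set z : ℝ := 192 * q with hz
  have hz0 : 0 < z := by positivity
  set B : ℝ := N * (Acst * (gg - 1) * q) ^ e with hB
  have h1 : ∀ g : G, z ^ (U ∪ g • F).card ≤
      z ^ U.card * ∑ S ∈ F.powerset, (if g • S ⊆ U then z ^ (e - S.card) else 0) := by
    intro g
    set S0 := F.filter (fun x => g • x ∈ U) with hS0
    have hcard : (U ∪ g • F).card = U.card + (e - S0.card) := by
      have : U ∪ g • F = U ∪ g • (F \ S0) := by
        ext y
        simp only [mem_union, Finset.mem_smul_finset, mem_sdiff, hS0, mem_filter]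
        constructor
        · rintro (hy | ⟨x, hx, rfl⟩)
          · exact Or.inl hy
          · by_cases hy : g • x ∈ U
            · exact Or.inl hy
            · exact Or.inr ⟨x, ⟨hx, fun hh => hy hh.2⟩, rfl⟩
        · rintro (hy | ⟨x, ⟨hx, _⟩, rfl⟩)
          · exact Or.inl hy
          · exact Or.inr ⟨x, hx, rfl⟩
      rw [this, card_union_of_disjoint, Finset.card_smul_finset,
        card_sdiff_of_subset (filter_subset _ _)]
      rw [disjoint_left]
      intro y hy hy'
      obtain ⟨x, hx, rfl⟩ := Finset.mem_smul_finset.1 hy'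
      simp only [mem_sdiff, hS0, mem_filter] at hx
      exact hx.2 ⟨hx.1, hy⟩
    rw [hcard, pow_add]
    gcongr
    have hsub : g • S0 ⊆ U := by
      intro y hy
      obtain ⟨x, hx, rfl⟩ := Finset.mem_smul_finset.1 hy
      exact (mem_filter.1 hx).2
    refine le_trans (le_of_eq ?_) (Finset.single_le_sum
      (f := fun S => if g • S ⊆ U then z ^ (e - S.card) else 0)
      (fun S _ => by positivity) (mem_powerset.2 (filter_subset _ _ : S0 ⊆ F)))
    exact (if_pos hsub).symm
  have h2 : ∀ S ∈ F.powerset, (cnt (G := G) U S : ℝ) * z ^ (e - S.card) ≤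
      N * q ^ e * Real.exp ((e : ℝ) / a) * ((Acst * a) ^ S.card * 192 ^ (e - S.card)) := by
    intro S hS
    rw [mem_powerset] at hS
    have hse : S.card ≤ e := card_le_card hS
    have hc : (cnt (G := G) U S : ℝ) ≤
        N * (Real.exp ((e : ℝ) / a) * ((Acst * a) * q) ^ S.card) := by
      rcases S.eq_empty_or_nonempty with hS0 | hS0
      · subst hS0
        have : (cnt (G := G) U (∅ : Finset X) : ℝ) ≤ N := by
          rw [hN]; exact_mod_cast Finset.card_le_univ _
        simp only [card_empty, pow_zero, mul_one]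
        exact this.trans (le_mul_of_one_le_right hN0.le (Real.one_le_exp (by positivity)))
      · rw [← cnt_smul h U S]
        have hc1 : (h • U).card = U.card := Finset.card_smul_finset _ _
        have hlt' : h • U ⊂ H := by
          refine ⟨hUH, fun hh => ?_⟩
          have hle := card_le_card hh
          rw [hc1] at hle
          have : (m : ℝ) ≤ U.card := by exact_mod_cast hle
          linarith
        refine (hind _ hlt' S hS0).trans ?_
        rw [hc1]
        have hs : (0 : ℝ) < S.card := by exact_mod_cast hS0.card_pos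
        have hle : lfac U.card S.card ≤ a + Real.log ((e : ℝ) / S.card) := by
          have hmax : max 1 ((U.card : ℝ) / S.card) ≤ θ / S.card := by
            apply max_le
            · rw [le_div_iff₀ hs]
              have : (S.card : ℝ) ≤ e := by exact_mod_cast hse
              linarith
            · gcongr
          have hlog64 : 4 ≤ Real.log 64 := by
            rw [show (64 : ℝ) = 2 ^ 6 by norm_num, Real.log_pow]
            have := Real.log_two_gt_d9
            norm_num
            linarith
          have : Real.log (θ / S.card) = Real.log r - Real.log 64 + Real.log ((e : ℝ) / S.card) := by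
            rw [hθ_def, hr_def, Real.log_div (by positivity) hs.ne',
              Real.log_div hm0.ne' (by norm_num), Real.log_div hm0.ne' he'.ne',
              Real.log_div he'.ne' hs.ne']
            ring
          unfold lfac
          calc 1 + Real.log (max 1 ((U.card : ℝ) / S.card))
              ≤ 1 + Real.log (θ / S.card) := by gcongr
            _ ≤ a + Real.log ((e : ℝ) / S.card) := by rw [this, ha_def, hgg]; linarith
        have hl1 := one_le_lfac U.card S.card
        calc N * (Acst * lfac U.card S.card * q) ^ S.card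
            ≤ N * (Acst * (a + Real.log ((e : ℝ) / S.card)) * q) ^ S.card := by gcongr
          _ = N * ((Acst * q) ^ S.card * (a + Real.log ((e : ℝ) / S.card)) ^ S.card) := by
              rw [← mul_pow]; ring_nf
          _ ≤ N * ((Acst * q) ^ S.card * (a ^ S.card * Real.exp ((e : ℝ) / a))) := by
              gcongr
              exact shrink_bound hS0.card_pos hse (by linarith)
          _ = _ := by rw [mul_pow, mul_pow, mul_pow]; ring
    calc (cnt (G := G) U S : ℝ) * z ^ (e - S.card)
        ≤ N * (Real.exp ((e : ℝ) / a) * ((Acst * a) * q) ^ S.card) * z ^ (e - S.card) := by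
          gcongr
      _ = _ := by
          have : q ^ e = q ^ S.card * q ^ (e - S.card) := by
            rw [← pow_add, Nat.add_sub_cancel' hse]
          rw [this, hz, mul_pow, mul_pow]; ring
  have hexp : Real.exp ((e : ℝ) / a) = Real.exp (1 / a) ^ e := by
    rw [← Real.exp_nat_mul]; ring_nf
  calc ∑ g : G, z ^ (U ∪ g • F).card
      ≤ ∑ g : G, z ^ U.card * ∑ S ∈ F.powerset,
          (if g • S ⊆ U then z ^ (e - S.card) else 0) := Finset.sum_le_sum fun g _ => h1 g
    _ = z ^ U.card * ∑ S ∈ F.powerset, (cnt (G := G) U S : ℝ) * z ^ (e - S.card) := by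
        rw [← Finset.mul_sum, Finset.sum_comm]
        congr 1
        refine Finset.sum_congr rfl fun S _ => ?_
        rw [← Finset.sum_filter, Finset.sum_const, nsmul_eq_mul]
        rfl
    _ ≤ z ^ U.card * ∑ S ∈ F.powerset,
          N * q ^ e * Real.exp ((e : ℝ) / a) * ((Acst * a) ^ S.card * 192 ^ (e - S.card)) := by
        exact mul_le_mul_of_nonneg_left (Finset.sum_le_sum h2) (by positivity)
    _ = z ^ U.card * (N * q ^ e * (Real.exp (1 / a) * (Acst * a + 192)) ^ e) := by
        rw [← Finset.mul_sum, Finset.sum_pow_mul_eq_add_pow (Acst * a) 192 F,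
          hexp, mul_pow (Real.exp (1 / a)), ← he_def]
        ring
    _ ≤ z ^ U.card * B := by
        rw [hB, show N * (Acst * (gg - 1) * q) ^ e = N * q ^ e * (Acst * (gg - 1)) ^ e by
          rw [mul_pow _ q]; ring]
        refine mul_le_mul_of_nonneg_left (mul_le_mul_of_nonneg_left
          (pow_le_pow_left₀ (by positivity) ?_ _) (by positivity)) (by positivity)
        calc Real.exp (1 / a) * (Acst * a + 192) ≤ (1 + 2 / a) * (Acst * a + 192) := by
              gcongr; exact exp_inv_le ha
          _ = Acst * a + 2 * Acst + 192 + 384 / a := by field_simp; ring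
          _ ≤ Acst * (gg - 1) := by
              have : 384 / a ≤ 384 / 2 := by gcongr
              rw [ha_def] at *
              rw [hA]; linarith

set_option maxHeartbeats 800000 in
lemma orbit_union_bound (q : ℝ) (hq : 0 < q) (H F : Finset X) (hH : Good G q H) (θ B : ℝ)
    (hB0 : 0 ≤ B) (wt : Finset X → ℝ) (hwt0 : ∀ V, 0 ≤ wt V)
    (fW : Finset X → Finset X → ℝ)
    (hfW : ∀ W V, fW W V = if (V.card : ℝ) < θ then (#{g : G | V ∪ g • F = W} : ℝ) else 0)
    (hwt : ∀ (h : G) (V : Finset X), (V.card : ℝ) < θ → h • V ⊆ H →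
      ∑ g : G, (192 * q) ^ (V ∪ g • F).card ≤ B * wt V)
    (hZ : ∀ k, wsum F (univ : Finset G) k wt ∅ ≤ B ^ k)
    (k : ℕ) (W : Finset X) (hWH : W ⊆ H) :
    wsum F (univ : Finset G) k (fW W) ∅ ≤ 2 * (1 / 192 : ℝ) ^ W.card * B ^ (k + 1) := by
  set z : ℝ := 192 * q with hz
  have hz0 : 0 < z := by positivity
  have hfW0 : ∀ W V, 0 ≤ fW W V := fun W V => by rw [hfW]; split_ifs <;> positivity
  have hfW_inv : ∀ (h : G) (W V : Finset X), fW (h • W) (h • V) = fW W V := by
    intro h W V
    simp only [hfW, Finset.card_smul_finset]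
    congr 1
    norm_cast
    refine Finset.card_equiv (Equiv.mulLeft h⁻¹) ?_
    intro g
    simp only [mem_filter, mem_univ, true_and, Equiv.coe_mulLeft, mul_smul]
    rw [← smul_left_cancel_iff h⁻¹, Finset.smul_finset_union, inv_smul_smul, inv_smul_smul]
  have hinv : ∀ W' ∈ orbitF (G := G) W,
      wsum F (univ : Finset G) k (fW W') ∅ = wsum F (univ : Finset G) k (fW W) ∅ := by
    intro W' hW'
    obtain ⟨h, rfl⟩ := mem_orbitF.1 hW'
    calc wsum F (univ : Finset G) k (fW (h • W)) ∅
        = wsum F univ k (fW (h • W)) (h • ∅) := by simp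
      _ = wsum F univ k (fun V => fW (h • W) (h • V)) ∅ := (wsum_smul_set F k h _ ∅).symm
      _ = _ := wsum_congr F univ k (hfW_inv h W) ∅
  have hsum : ∀ V, ∑ W' ∈ orbitF (G := G) W, fW W' V ≤ z⁻¹ ^ W.card * (B * wt V) := by
    intro V
    by_cases hV : (V.card : ℝ) < θ
    swap
    · simp only [hfW, if_neg hV, Finset.sum_const_zero]
      have := hwt0 V; positivity
    set S := (univ : Finset G).filter (fun g => V ∪ g • F ∈ orbitF (G := G) W) with hS
    have hl : ∑ W' ∈ orbitF (G := G) W, fW W' V = (S.card : ℝ) := by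
      simp only [hfW, if_pos hV]
      rw [Finset.card_eq_sum_card_fiberwise (f := fun g : G => V ∪ g • F)
            (t := orbitF (G := G) W) (fun g hg => by simpa [hS] using hg)]
      push_cast
      refine Finset.sum_congr rfl fun W' hW' => ?_
      congr 2
      rw [hS, Finset.filter_filter]
      ext g
      simp only [mem_filter, mem_univ, true_and]
      exact ⟨fun h => ⟨h ▸ hW', h⟩, fun h => h.2⟩
    rw [hl]
    rcases S.eq_empty_or_nonempty with hS0 | ⟨g0, hg0⟩
    · rw [hS0]; simp; have := hwt0 V; positivity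
    obtain ⟨h, hh⟩ := mem_orbitF.1 (mem_filter.1 hg0).2
    have hVe : h⁻¹ • V ⊆ H := by
      calc h⁻¹ • V ⊆ h⁻¹ • (V ∪ g0 • F) :=
            Finset.smul_finset_subset_smul_finset subset_union_left
        _ = W := by rw [← hh, inv_smul_smul]
        _ ⊆ H := hWH
    calc (S.card : ℝ) = ∑ _g ∈ S, (1 : ℝ) := by simp
      _ = ∑ g ∈ S, z⁻¹ ^ W.card * z ^ (V ∪ g • F).card := by
          refine Finset.sum_congr rfl fun g hg => ?_
          obtain ⟨h, hh⟩ := mem_orbitF.1 (mem_filter.1 hg).2
          rw [← hh, Finset.card_smul_finset, ← mul_pow, inv_mul_cancel₀ hz0.ne', one_pow]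
      _ ≤ ∑ g : G, z⁻¹ ^ W.card * z ^ (V ∪ g • F).card :=
          Finset.sum_le_sum_of_subset_of_nonneg (filter_subset _ _) fun g _ _ => by positivity
      _ = z⁻¹ ^ W.card * ∑ g : G, z ^ (V ∪ g • F).card := by rw [Finset.mul_sum]
      _ ≤ z⁻¹ ^ W.card * (B * wt V) := by
          gcongr
          exact hwt h⁻¹ V hV hVe
  have h1 : ((orbitF (G := G) W).card : ℝ) * wsum F (univ : Finset G) k (fW W) ∅
      ≤ z⁻¹ ^ W.card * B ^ (k + 1) := by
    calc ((orbitF (G := G) W).card : ℝ) * wsum F (univ : Finset G) k (fW W) ∅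
        = ∑ W' ∈ orbitF (G := G) W, wsum F (univ : Finset G) k (fW W') ∅ := by
          rw [Finset.sum_congr rfl hinv, Finset.sum_const, nsmul_eq_mul]
      _ = wsum F (univ : Finset G) k (fun V => ∑ W' ∈ orbitF (G := G) W, fW W' V) ∅ :=
          (wsum_sum _ F univ k _ ∅).symm
      _ ≤ wsum F (univ : Finset G) k (fun V => z⁻¹ ^ W.card * (B * wt V)) ∅ :=
          wsum_mono F subset_rfl (fun _ => True) (fun _ _ _ _ => trivial) k _ _ ∅
            (fun V => by have := hwt0 V; positivity) (fun V _ => hsum V) trivial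
      _ ≤ z⁻¹ ^ W.card * B ^ (k + 1) := by
          rw [wsum_smulR, wsum_smulR, pow_succ' B k]
          gcongr
          exact hZ k
  have h2 := hH W hWH
  have hnn : 0 ≤ wsum F (univ : Finset G) k (fW W) ∅ := by
    have := wsum_mono F (subset_refl (univ : Finset G)) (fun _ => True)
      (fun _ _ _ _ => trivial) k (fun _ => (0 : ℝ) * 0) (fW W) ∅ (hfW0 W)
      (fun V _ => by rw [zero_mul]; exact hfW0 W V) trivial
    rw [wsum_smulR F univ k 0 (fun _ => (0:ℝ)) ∅, zero_mul] at this
    exact this
  calc wsum F (univ : Finset G) k (fW W) ∅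
      ≤ 2 * (((orbitF (G := G) W).card : ℝ) * q ^ W.card) *
          wsum F (univ : Finset G) k (fW W) ∅ :=
        le_mul_of_one_le_left hnn (by linarith)
    _ = 2 * q ^ W.card *
          (((orbitF (G := G) W).card : ℝ) * wsum F (univ : Finset G) k (fW W) ∅) := by ring
    _ ≤ 2 * q ^ W.card * (z⁻¹ ^ W.card * B ^ (k + 1)) := by gcongr
    _ = 2 * (1 / 192 : ℝ) ^ W.card * B ^ (k + 1) := by
        rw [show (1 / 192 : ℝ) = q * z⁻¹ by rw [hz]; field_simp, mul_pow]
        ring

lemma exp_big {e m : ℕ} {r gg θ : ℝ} (he : 0 < e) (hgg0 : 0 < gg)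
    (hX : 128 * gg * (gg + 4) ≤ r) (hθ_def : θ = (m : ℝ) / 64) (hr_def : r = (m : ℝ) / e) :
    8 * ((e : ℝ) + 1) * gg < Real.exp (θ / (2 * gg)) := by
  have hX' : gg + 4 ≤ r / (128 * gg) := by
    rw [le_div_iff₀ (by positivity)]
    linarith
  have heq : θ / (2 * gg) = (e : ℝ) * (r / (128 * gg)) := by
    rw [hθ_def, hr_def]; field_simp; ring
  have he1 : (1 : ℝ) ≤ e := by exact_mod_cast he
  have h8 : (8 : ℝ) ≤ Real.exp 3 := by
    rw [show (3 : ℝ) = ((3 : ℕ) : ℝ) * 1 by norm_num, Real.exp_nat_mul]
    have h27 : (2 : ℝ) ≤ Real.exp 1 := by linarith [Real.add_one_le_exp (1 : ℝ)]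
    calc (8 : ℝ) = 2 ^ 3 := by norm_num
      _ ≤ _ := by gcongr
  have hge : gg < Real.exp gg := by linarith [Real.add_one_le_exp gg]
  calc 8 * ((e : ℝ) + 1) * gg < Real.exp 3 * Real.exp e * Real.exp gg := by
        apply mul_lt_mul' _ hge hgg0.le (by positivity)
        gcongr
        exact Real.add_one_le_exp _
    _ = Real.exp ((3 : ℝ) + e + gg) := by rw [Real.exp_add, Real.exp_add]
    _ ≤ Real.exp ((e : ℝ) * (r / (128 * gg))) := by
        gcongr
        calc (3 : ℝ) + e + gg ≤ e * (gg + 4) := by nlinarith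
          _ ≤ _ := by gcongr
    _ = _ := by rw [heq]

set_option maxHeartbeats 1600000 in
/-- Main abstract bound. -/
theorem cnt_le (q : ℝ) (hq : 0 < q) (H : Finset X) (hH : Good G q H) :
    ∀ F : Finset X, F.Nonempty →
      (cnt (G := G) H F : ℝ) ≤
        (Fintype.card G : ℝ) * (Acst * lfac H.card F.card * q) ^ F.card := by
  classical
  induction H using Finset.strongInductionOn with
  | _ H hind =>
  intro F hF
  have hA : Acst = 300000000 := rfl
  set e := F.card with he_def
  have he : 0 < e := hF.card_pos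
  set m := H.card with hm_def
  set Ω : Finset G := univ.filter (fun g : G => g • F ⊆ H) with hΩ
  have hΩc : cnt (G := G) H F = Ω.card := rfl
  by_cases h0 : Ω = ∅
  · rw [hΩc, h0]
    have := one_le_lfac m e
    simp
    have : 0 ≤ Acst := by rw [hA]; norm_num
    positivity
  -- reduce to the union of all copies
  set H' := Ω.biUnion (fun g => g • F) with hH'
  have hH'sub : H' ⊆ H := by
    intro x hx
    obtain ⟨g, hg, hxg⟩ := mem_biUnion.1 hx
    exact (mem_filter.1 hg).2 hxg
  by_cases hlt : H' ⊂ H
  · have h1 := hind H' hlt (fun U hU => hH U (hU.trans hH'sub)) F hF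
    have h2 : cnt (G := G) H F ≤ cnt (G := G) H' F := by
      apply card_le_card
      intro g hg
      simp only [mem_filter, mem_univ, true_and] at hg ⊢
      exact fun x hx => mem_biUnion.2 ⟨g, by simp [hΩ, hg], hx⟩
    refine le_trans (by exact_mod_cast h2) (h1.trans ?_)
    have := one_le_lfac H'.card e
    have hl := lfac_mono e (card_le_card hH'sub)
    have : 0 ≤ Acst := by rw [hA]; norm_num
    gcongr
  have hHeq : H' = H := (eq_or_ssubset_of_subset hH'sub).resolve_right hlt
  -- small ratio
  by_cases hsmall : (m : ℝ) < 40000000 * e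
  · refine (cnt_le_choose q hq H F hH).trans ?_
    have he' : (0 : ℝ) < e := by exact_mod_cast he
    have h1 := choose_le_pow m e he
    have hl := one_le_lfac m e
    have h2 : (3 * (m : ℝ) / e) ≤ 120000000 := by
      rw [div_le_iff₀ he']; linarith
    have h3 : (2 : ℝ) ≤ 2 ^ e := le_self_pow₀ (by norm_num) he.ne'
    calc 2 * (m.choose e : ℝ) * q ^ e * (Fintype.card G : ℝ)
        ≤ 2 ^ e * (120000000 : ℝ) ^ e * q ^ e * (Fintype.card G : ℝ) := by
          gcongr
          exact h1.trans (pow_le_pow_left₀ (by positivity) h2 e)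
      _ = (Fintype.card G : ℝ) * (240000000 * q) ^ e := by
          rw [← mul_pow, ← mul_pow]; ring_nf
      _ ≤ (Fintype.card G : ℝ) * (Acst * lfac m e * q) ^ e := by
          gcongr
          rw [hA]; nlinarith
  rw [not_lt] at hsmall
  -- large ratio
  have he' : (0 : ℝ) < e := by exact_mod_cast he
  set r : ℝ := (m : ℝ) / e with hr_def
  have hr : 40000000 ≤ r := by rw [hr_def, le_div_iff₀ he']; exact hsmall
  obtain ⟨hg6, hX⟩ := large_ratio hr
  have hlf : lfac m e = 1 + Real.log r := by
    unfold lfac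
    rw [max_eq_right]
    linarith
  rw [hlf]
  set gg : ℝ := 1 + Real.log r with hgg
  set θ : ℝ := (m : ℝ) / 64 with hθ_def
  have hm0 : (0 : ℝ) < m := by nlinarith
  have hθ0 : 0 < θ := by positivity
  have hθm : θ ≤ m := by rw [hθ_def]; linarith
  have hθe : (e : ℝ) ≤ θ := by rw [hθ_def]; linarith
  have hA0 : 0 < Acst := by rw [hA]; norm_num
  set a : ℝ := gg - 4 with ha_def
  have ha : 2 ≤ a := by linarith
  set N : ℝ := (Fintype.card G : ℝ) with hN
  have hN0 : 0 < N := by
    rw [hN]; exact_mod_cast Fintype.card_pos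
  set z : ℝ := 192 * q with hz
  have hz0 : 0 < z := by positivity
  -- growth of one step
  set B : ℝ := N * (Acst * (gg - 1) * q) ^ e with hB
  have hB0 : 0 < B := by
    have : 0 < gg - 1 := by linarith
    positivity
  let emb : Finset X → Prop := fun U => (U.card : ℝ) < θ ∧ ∃ h : G, h • U ⊆ H
  have hstep : ∀ U : Finset X, emb U →
      ∑ g : G, z ^ (U ∪ g • F).card ≤ z ^ U.card * B := by
    rintro U ⟨hUθ, h, hUH⟩
    exact step_bound q hq H F r gg a θ
      (fun H' hss S hS => hind H' hss (fun W hW => hH W (hW.trans hss.1)) S hS)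
      he hm0 hr_def hgg hθ_def ha_def ha hθe U hUθ h hUH
  -- the weighted count of sequences
  let wt : Finset X → ℝ := fun U => if emb U then z ^ U.card else 0
  have hwt0 : ∀ U, 0 ≤ wt U := fun U => by simp only [wt]; split_ifs <;> positivity
  have hstepwt : ∀ V : Finset X, ∑ g : G, wt (V ∪ g • F) ≤ B * wt V := by
    intro V
    by_cases hV : emb V
    · have : wt V = z ^ V.card := by simp [wt, hV]
      rw [this, mul_comm]
      refine le_trans (Finset.sum_le_sum fun g _ => ?_) (hstep V hV)
      simp only [wt]; split_ifs <;> first | exact le_rfl | positivity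
    · have h1 : wt V = 0 := by simp [wt, hV]
      rw [h1, mul_zero]
      refine le_of_eq (Finset.sum_eq_zero fun g _ => ?_)
      have : ¬ emb (V ∪ g • F) := by
        rintro ⟨hc, h, hh⟩
        refine hV ⟨lt_of_le_of_lt ?_ hc, h, ?_⟩
        · exact_mod_cast card_le_card subset_union_left
        · exact (Finset.smul_finset_subset_smul_finset subset_union_left).trans hh
      simp [wt, this]
  have hZ : ∀ k, wsum F (univ : Finset G) k wt ∅ ≤ B ^ k := by
    intro k
    induction k with
    | zero =>
      simp only [wsum, pow_zero, wt]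
      split_ifs <;> simp
    | succ k ih =>
      simp only [wsum]
      refine (wsum_mono F subset_rfl (fun _ => True) (fun _ _ _ _ => trivial) k _
        (fun V => B * wt V) ∅ (fun V => mul_nonneg hB0.le (hwt0 V))
        (fun V _ => hstepwt V) trivial).trans ?_
      rw [wsum_smulR, pow_succ']
      gcongr
  -- sequences stopping at length `k + 1`
  let ind : Finset X → ℝ := fun V => if (V.card : ℝ) < θ then 1 else 0
  let aS : ℕ → ℝ := fun k => wsum F Ω k ind ∅
  let fT : Finset X → ℝ := fun V => (Ω.card : ℝ) * ind V - ∑ g ∈ Ω, ind (V ∪ g • F)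
  have hfT : ∀ V, fT V =
      if (V.card : ℝ) < θ then (#{g ∈ Ω | θ ≤ ((V ∪ g • F).card : ℝ)} : ℝ) else 0 := by
    intro V
    simp only [fT, ind]
    split_ifs with hV
    · rw [Finset.sum_boole, mul_one, sub_eq_iff_eq_add,
        ← Finset.card_filter_add_card_filter_not (s := Ω)
          (fun g => θ ≤ ((V ∪ g • F).card : ℝ))]
      push_cast
      simp only [not_le]
    · rw [mul_zero, zero_sub, neg_eq_zero]
      refine Finset.sum_eq_zero fun g _ => if_neg ?_
      intro hh
      refine hV (lt_of_le_of_lt ?_ hh)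
      exact_mod_cast card_le_card subset_union_left
  have hTrec : ∀ k, wsum F Ω k fT ∅ = (Ω.card : ℝ) * aS k - aS (k + 1) := by
    intro k
    simp only [fT, aS]
    rw [wsum_sub, wsum_smulR]
    rfl
  let fW : Finset X → Finset X → ℝ := fun W V =>
    if (V.card : ℝ) < θ then (#{g : G | V ∪ g • F = W} : ℝ) else 0
  have hfW0 : ∀ W V, 0 ≤ fW W V := fun W V => by simp only [fW]; split_ifs <;> positivity
  have haW : ∀ (k : ℕ) (W : Finset X), W ⊆ H →
      wsum F (univ : Finset G) k (fW W) ∅ ≤ 2 * (1 / 192 : ℝ) ^ W.card * B ^ (k + 1) := by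
    refine orbit_union_bound q hq H F hH θ B hB0.le wt hwt0 fW (fun W V => rfl) ?_ hZ
    intro h V hV hVH
    have he : emb V := ⟨hV, h, hVH⟩
    rw [show wt V = z ^ V.card by simp [wt, he], mul_comm B]
    exact hstep V he
  set u0 := ⌈θ⌉₊ with hu0
  have hT : ∀ k, wsum F Ω k fT ∅ ≤ 2 * ((e : ℝ) + 1) * B ^ (k + 1) := by
    intro k
    set P := H.powerset.filter (fun W => θ ≤ (W.card : ℝ) ∧ W.card ≤ u0 + e) with hP
    have h1 : ∀ V, V ⊆ H → fT V ≤ ∑ W ∈ P, fW W V := by
      intro V hV
      rw [hfT]
      split_ifs with hVθ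
      swap
      · exact Finset.sum_nonneg fun W _ => hfW0 W V
      simp only [fW, if_pos hVθ]
      have hnat : #{g ∈ Ω | θ ≤ ((V ∪ g • F).card : ℝ)} ≤
          ∑ W ∈ P, #{g : G | V ∪ g • F = W} := by
        rw [Finset.card_eq_sum_card_fiberwise (f := fun g : G => V ∪ g • F) (t := P)]
        · refine Finset.sum_le_sum fun W _ => card_le_card ?_
          intro g hg
          simp only [mem_filter, mem_univ, true_and] at hg ⊢
          exact hg.2
        · intro g hg
          simp only [coe_filter, Set.mem_ofPred_eq] at hg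
          simp only [hP, coe_filter, mem_powerset, Set.mem_ofPred_eq]
          refine ⟨union_subset hV (mem_filter.1 hg.1).2, hg.2, ?_⟩
          refine (card_union_le _ _).trans ?_
          rw [Finset.card_smul_finset]
          have : V.card ≤ u0 := by
            have := hVθ.le.trans (Nat.le_ceil θ)
            exact_mod_cast this
          omega
      exact_mod_cast hnat
    calc wsum F Ω k fT ∅ ≤ wsum F (univ : Finset G) k (fun V => ∑ W ∈ P, fW W V) ∅ :=
          wsum_mono F (subset_univ Ω) (fun V => V ⊆ H)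
            (fun V hV g hg => union_subset hV (mem_filter.1 hg).2) k _ _ ∅
            (fun V => Finset.sum_nonneg fun W _ => hfW0 W V) h1 (empty_subset _)
      _ = ∑ W ∈ P, wsum F (univ : Finset G) k (fW W) ∅ := wsum_sum _ F univ k _ ∅
      _ ≤ ∑ W ∈ P, 2 * (1 / 192 : ℝ) ^ W.card * B ^ (k + 1) := by
          refine Finset.sum_le_sum fun W hW => ?_
          simp only [hP, mem_filter, mem_powerset] at hW
          exact haW k W hW.1
      _ = 2 * B ^ (k + 1) * ∑ W ∈ P, (1 / 192 : ℝ) ^ W.card := by
          rw [Finset.mul_sum]; exact Finset.sum_congr rfl fun W _ => by ring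
      _ ≤ 2 * B ^ (k + 1) * ((e : ℝ) + 1) := by
          gcongr
          calc ∑ W ∈ P, (1 / 192 : ℝ) ^ W.card
              = ∑ u ∈ Finset.Icc u0 (u0 + e), ∑ W ∈ P with W.card = u, (1 / 192 : ℝ) ^ W.card := by
                refine (Finset.sum_fiberwise_of_maps_to (fun W hW => ?_) _).symm
                simp only [hP, mem_filter, mem_powerset] at hW
                exact mem_Icc.2 ⟨Nat.ceil_le.2 hW.2.1, hW.2.2⟩
            _ ≤ ∑ _u ∈ Finset.Icc u0 (u0 + e), (1 : ℝ) := by
                refine Finset.sum_le_sum fun u hu => ?_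
                have hu' := (mem_Icc.1 hu).1
                have hθu : θ ≤ (u : ℝ) := (Nat.le_ceil θ).trans (by exact_mod_cast hu')
                have hupos : 0 < u := by
                  have : (0 : ℝ) < u := lt_of_lt_of_le hθ0 hθu
                  exact_mod_cast this
                calc ∑ W ∈ P with W.card = u, (1 / 192 : ℝ) ^ W.card
                    = ∑ W ∈ P with W.card = u, (1 / 192 : ℝ) ^ u :=
                      Finset.sum_congr rfl fun W hW => by rw [(mem_filter.1 hW).2]
                  _ = (#{W ∈ P | W.card = u} : ℝ) * (1 / 192 : ℝ) ^ u := by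
                      rw [Finset.sum_const, nsmul_eq_mul]
                  _ ≤ (m.choose u : ℝ) * (1 / 192 : ℝ) ^ u := by
                      gcongr
                      rw [hm_def, ← card_powersetCard]
                      apply card_le_card
                      intro W hW
                      simp only [hP, mem_filter, mem_powerset] at hW
                      exact mem_powersetCard.2 ⟨hW.1.1, hW.2⟩
                  _ ≤ (3 * (m : ℝ) / u) ^ u * (1 / 192 : ℝ) ^ u := by
                      gcongr; exact choose_le_pow m u hupos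
                  _ ≤ 1 := by
                      rw [← mul_pow]
                      apply pow_le_one₀ (by positivity)
                      rw [div_mul_div_comm, div_le_one (by positivity)]
                      rw [hθ_def] at hθu
                      linarith
            _ = (e : ℝ) + 1 := by
                rw [Finset.sum_const, Nat.card_Icc, nsmul_eq_mul, mul_one]
                have : u0 + e + 1 - u0 = e + 1 := by omega
                rw [this]; push_cast; ring
      _ = _ := by ring
  have hT0 : ∀ k : ℕ, ((k : ℝ) + 1) * e < θ → wsum F Ω k fT ∅ = 0 := by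
    intro k hk
    refine wsum_eq_zero_of_small F Ω k fT ∅ (fun V hV => ?_)
    simp only [card_empty, zero_add] at hV
    rw [hfT]
    split_ifs
    swap
    · rfl
    norm_cast
    rw [card_eq_zero, filter_eq_empty_iff]
    intro g _ hg
    have : (V ∪ g • F).card ≤ (k + 1) * e := by
      refine (card_union_le _ _).trans ?_
      rw [Finset.card_smul_finset, add_mul, one_mul, ← he_def]
      rw [← he_def] at hV
      omega
    have : ((V ∪ g • F).card : ℝ) ≤ ((k : ℝ) + 1) * e := by exact_mod_cast this
    linarith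
  -- conclude
  have hgg0' : 0 < gg := by linarith
  rw [hΩc]
  by_contra hcon
  rw [not_le] at hcon
  set c : ℝ := (Ω.card : ℝ) with hc
  have hc0 : 0 < c := by
    rw [hc]
    exact_mod_cast card_pos.2 (nonempty_iff_ne_empty.2 h0)
  have hρ : B / c ≤ Real.exp (-(e : ℝ) / gg) := by
    have hgg0 : 0 < gg := by linarith
    have h1 : B / c ≤ B / (N * (Acst * gg * q) ^ e) := by gcongr
    have h2 : B / (N * (Acst * gg * q) ^ e) = (1 - 1 / gg) ^ e := by
      rw [hB, mul_div_mul_left _ _ hN0.ne', ← div_pow]
      congr 1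
      field_simp
    refine (h1.trans h2.le).trans ?_
    rw [show -(e : ℝ) / gg = (e : ℝ) * (-(1 / gg)) by ring, Real.exp_nat_mul]
    gcongr
    · have : 1 / gg ≤ 1 := by rw [div_le_one hgg0]; linarith
      linarith
    linarith [Real.add_one_le_exp (-(1 / gg))]
  -- eventually the threshold is reached
  obtain ⟨K, hK⟩ := exists_pow_lt_of_lt_one (show (0 : ℝ) < 1 / (2 * m) by positivity)
    (show 1 - 1 / c < 1 by have : 0 < 1 / c := (by positivity); linarith)
  have haK : aS K / c ^ K ≤ 1 / 2 := by
    have h1 : aS K ≤ (m : ℝ) * (c - 1) ^ K := by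
      calc aS K ≤ wsum F Ω K (fun V => ∑ x ∈ H, if x ∉ V then (1 : ℝ) else 0) ∅ := by
            refine wsum_mono F subset_rfl (fun V => V ⊆ H)
              (fun V hV g hg => union_subset hV (mem_filter.1 hg).2) K _ _ ∅
              (fun V => Finset.sum_nonneg fun x _ => by positivity) (fun V hV => ?_) (empty_subset _)
            simp only [ind]
            split_ifs with hVθ
            · have hne : ¬ H ⊆ V := fun hh => by
                have := card_le_card hh
                have : (m : ℝ) ≤ V.card := by exact_mod_cast this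
                linarith
              obtain ⟨x, hxH, hxV⟩ := not_subset.1 hne
              refine le_trans (le_of_eq ?_) (Finset.single_le_sum
                (f := fun x => if x ∉ V then (1 : ℝ) else 0) (fun x _ => by positivity) hxH)
              simp [hxV]
            · exact Finset.sum_nonneg fun x _ => by positivity
        _ = ∑ x ∈ H, (#{g ∈ Ω | x ∉ g • F} : ℝ) ^ K := by
            rw [wsum_sum]
            exact Finset.sum_congr rfl fun x _ => wsum_avoid F Ω x K
        _ ≤ ∑ _x ∈ H, (c - 1) ^ K := by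
            refine Finset.sum_le_sum fun x hx => ?_
            gcongr
            rw [← hHeq] at hx
            obtain ⟨g, hg, hxg⟩ := mem_biUnion.1 hx
            have : {g ∈ Ω | x ∉ g • F} ⊆ Ω.erase g := by
              intro g' hg'
              simp only [mem_filter] at hg'
              exact mem_erase.2 ⟨fun hh => hg'.2 (hh ▸ hxg), hg'.1⟩
            have h' := card_le_card this
            rw [card_erase_of_mem hg] at h'
            have hpos : 1 ≤ Ω.card := card_pos.2 ⟨g, hg⟩
            have : #{g ∈ Ω | x ∉ g • F} + 1 ≤ Ω.card := by omega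
            have : ((#{g ∈ Ω | x ∉ g • F} : ℕ) : ℝ) + 1 ≤ c := by rw [hc]; exact_mod_cast this
            linarith
        _ = (m : ℝ) * (c - 1) ^ K := by rw [Finset.sum_const, nsmul_eq_mul]
    calc aS K / c ^ K ≤ (m : ℝ) * (c - 1) ^ K / c ^ K := by gcongr
      _ = (m : ℝ) * (1 - 1 / c) ^ K := by
          rw [mul_div_assoc, ← div_pow]; congr 2; field_simp
      _ ≤ (m : ℝ) * (1 / (2 * m)) := by gcongr
      _ = 1 / 2 := by field_simp
  have htel : ∀ k, ∑ i ∈ range k, wsum F Ω i fT ∅ / c ^ (i + 1) = 1 - aS k / c ^ k := by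
    intro k
    induction k with
    | zero => simp [aS, wsum, ind, hθ0]
    | succ k ih =>
      rw [Finset.sum_range_succ, ih, hTrec]
      field_simp
      ring
  set σ : ℝ := Real.exp (-(e : ℝ) / (2 * gg)) with hσ
  have hterm : ∀ i : ℕ, wsum F Ω i fT ∅ / c ^ (i + 1) ≤
      2 * ((e : ℝ) + 1) * Real.exp (-θ / (2 * gg)) * σ ^ (i + 1) := by
    intro i
    by_cases hi : ((i : ℝ) + 1) * e < θ
    · rw [hT0 i hi, zero_div]; positivity
    rw [not_lt] at hi
    calc wsum F Ω i fT ∅ / c ^ (i + 1) ≤ 2 * ((e : ℝ) + 1) * B ^ (i + 1) / c ^ (i + 1) := by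
          gcongr; exact hT i
      _ = 2 * ((e : ℝ) + 1) * (B / c) ^ (i + 1) := by rw [div_pow]; ring
      _ ≤ 2 * ((e : ℝ) + 1) * Real.exp (-(e : ℝ) / gg) ^ (i + 1) := by gcongr
      _ = 2 * ((e : ℝ) + 1) * Real.exp (-(((i : ℝ) + 1) * e) / (2 * gg)) * σ ^ (i + 1) := by
          rw [hσ, ← Real.exp_nat_mul, ← Real.exp_nat_mul, mul_assoc (2 * ((e : ℝ) + 1)),
            ← Real.exp_add]
          congr 2
          push_cast
          field_simp
          ring
      _ ≤ _ := by
          have hgg0 : 0 < gg := by linarith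
          gcongr
  have hgeo : ∀ k, ∑ i ∈ range k, σ ^ (i + 1) ≤ 2 * gg := by
    intro k
    have hgg0 : 0 < gg := by linarith
    have hσ0 : 0 < σ := Real.exp_pos _
    have hinv : σ * (1 + (e : ℝ) / (2 * gg)) ≤ 1 := by
      have h1 : σ * Real.exp ((e : ℝ) / (2 * gg)) = 1 := by
        rw [hσ, ← Real.exp_add, neg_div, neg_add_cancel, Real.exp_zero]
      have h2 := Real.add_one_le_exp ((e : ℝ) / (2 * gg))
      nlinarith
    have hd : 1 / (2 * gg) ≤ (e : ℝ) / (2 * gg) := by
      gcongr; exact_mod_cast he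
    have hkey : σ ≤ 2 * gg * (1 - σ) := by
      have h3 : σ * (1 + 1 / (2 * gg)) ≤ 1 := le_trans (by gcongr) hinv
      have h4 : σ * (2 * gg + 1) ≤ 2 * gg := by
        calc σ * (2 * gg + 1) = σ * (1 + 1 / (2 * gg)) * (2 * gg) := by field_simp
          _ ≤ 1 * (2 * gg) := by gcongr
          _ = 2 * gg := one_mul _
      linarith
    induction k with
    | zero => simp; positivity
    | succ k ih =>
      rw [Finset.sum_range_succ']
      simp only [pow_succ σ, ← Finset.sum_mul]
      have : ∑ i ∈ range k, σ ^ (i + 1) * σ + σ ^ 0 * σ ≤ 2 * gg * σ + σ := by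
        rw [← Finset.sum_mul, pow_zero, one_mul]
        gcongr
      simp only [pow_succ σ, ← Finset.sum_mul] at this ⊢
      linarith
  have hbig : 8 * ((e : ℝ) + 1) * gg < Real.exp (θ / (2 * gg)) :=
    exp_big he hgg0' hX hθ_def hr_def
  have hfin : (1 / 2 : ℝ) ≤ 4 * ((e : ℝ) + 1) * gg * Real.exp (-θ / (2 * gg)) := by
    calc (1 / 2 : ℝ) ≤ 1 - aS K / c ^ K := by linarith
      _ = ∑ i ∈ range K, wsum F Ω i fT ∅ / c ^ (i + 1) := (htel K).symm
      _ ≤ ∑ i ∈ range K, 2 * ((e : ℝ) + 1) * Real.exp (-θ / (2 * gg)) * σ ^ (i + 1) :=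
          Finset.sum_le_sum fun i _ => hterm i
      _ ≤ 2 * ((e : ℝ) + 1) * Real.exp (-θ / (2 * gg)) * (2 * gg) := by
          rw [← Finset.mul_sum]; gcongr; exact hgeo K
      _ = _ := by ring
  rw [neg_div, Real.exp_neg] at hfin
  have hep := Real.exp_pos (θ / (2 * gg))
  have : Real.exp (θ / (2 * gg)) ≤ 8 * ((e : ℝ) + 1) * gg := by
    have h := mul_le_mul_of_nonneg_right hfin hep.le
    rw [mul_assoc (4 * ((e : ℝ) + 1) * gg), inv_mul_cancel₀ hep.ne', mul_one] at h
    linarith
  linarith

end

end Vale.Agent.P064
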