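import Mathlib

/-!
Thresholds of subgraph containment in the binomial random graph, following the problem file.
-/

open MeasureTheory

namespace Vale.Agent.P064

/-- `E N(G(n,p),F)`: the expected number of subgraphs of `G(n,p)` isomorphic to `F`. -/
noncomputable def expCopies (n : ℕ) (p : unitInterval) {α : Type*} (F : SimpleGraph α) : ℝ :=
  ∑ G : SimpleGraph (Fin n),
    (SimpleGraph.binomialRandom (Fin n) p).real {G} * (G.copyCount F : ℝ)

/-- `p_c(n,H)`: the least `p` in `[0,1]` such that `G(n,p)` contains a copy of `H` with probability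
at least `1/2`. -/
noncomputable def pCrit (n : ℕ) {V : Type*} (H : SimpleGraph V) : ℝ :=
  sInf {p : ℝ | ∃ h : p ∈ Set.Icc (0 : ℝ) 1,
    1 / 2 ≤ (SimpleGraph.binomialRandom (Fin n) ⟨p, h⟩).real {G | H.IsContained G}}

/-- `p_E(n,H)`: the least `p` in `[0,1]` such that the expected number of copies in `G(n,p)` of
every subgraph `F` of `H` is at least `1/2`. -/
noncomputable def pExp (n : ℕ) {V : Type*} (H : SimpleGraph V) : ℝ :=
  sInf {p : ℝ | ∃ h : p ∈ Set.Icc (0 : ℝ) 1,
    ∀ F : H.Subgraph, 1 / 2 ≤ expCopies n ⟨p, h⟩ F.coe}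

/-- `p̃_E(n,H)`: the least `p` in `[0,1]` such that the expected number of copies in `G(n,p)` of
every subgraph `F` of `H` is at least half the number of copies of `F` in `H`. -/
noncomputable def pExpTilde (n : ℕ) {V : Type*} [Fintype V] (H : SimpleGraph V) : ℝ :=
  sInf {p : ℝ | ∃ h : p ∈ Set.Icc (0 : ℝ) 1,
    ∀ F : H.Subgraph, (H.copyCount F.coe : ℝ) / 2 ≤ expCopies n ⟨p, h⟩ F.coe}

end Vale.Agent.P064
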