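import Mathlib

/-!
Threshold from spread: iterated minimum fragments, for an indexed family of subsets.
-/

open Finset

namespace Vale.Agent.P064

variable {X : Type*} [DecidableEq X]

/-- product weight of `W` inside the ground set `E` -/
noncomputable def wt (E : Finset X) (p : ℝ) (W : Finset X) : ℝ :=
  p ^ W.card * (1 - p) ^ (E.card - W.card)

lemma wt_nonneg {E : Finset X} {p : ℝ} (h0 : 0 ≤ p) (h1 : p ≤ 1) (W : Finset X) :
    0 ≤ wt E p W := by
  unfold wt
  have : 0 ≤ 1 - p := by linarith
  positivity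

lemma wt_not_insert {E : Finset X} {a : X} (ha : a ∉ E) (p : ℝ) {W : Finset X}
    (hW : W ⊆ E) : wt (insert a E) p W = (1 - p) * wt E p W := by
  unfold wt
  have := card_le_card hW
  rw [card_insert_of_notMem ha, show E.card + 1 - W.card = (E.card - W.card) + 1 by omega,
    pow_succ]
  ring

lemma wt_insert {E : Finset X} {a : X} (ha : a ∉ E) (p : ℝ) {W : Finset X}
    (hW : W ⊆ E) : wt (insert a E) p (insert a W) = p * wt E p W := by
  unfold wt
  rw [card_insert_of_notMem ha, card_insert_of_notMem (fun h => ha (hW h)),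
    Nat.add_sub_add_right, pow_succ]
  ring

lemma sum_wt (E : Finset X) (p : ℝ) : ∑ W ∈ E.powerset, wt E p W = 1 := by
  unfold wt
  rw [Finset.sum_pow_mul_eq_add_pow]
  simp

lemma sum_wt_union : ∀ (E : Finset X) (a b : ℝ) (f : Finset X → ℝ),
    ∑ A ∈ E.powerset, wt E a A * ∑ B ∈ E.powerset, wt E b B * f (A ∪ B)
      = ∑ W ∈ E.powerset, wt E (a + b - a * b) W * f W := by
  intro E
  induction E using Finset.induction_on with
  | empty => intro a b f; simp [wt]
  | @insert x E hx ih =>
    intro a b f
    have h1 : ∀ (g : Finset X → ℝ) (p : ℝ),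
        ∑ W ∈ (insert x E).powerset, wt (insert x E) p W * g W =
          (1 - p) * ∑ W ∈ E.powerset, wt E p W * g W +
            p * ∑ W ∈ E.powerset, wt E p W * g (insert x W) := by
      intro g p
      rw [Finset.sum_powerset_insert hx, Finset.mul_sum, Finset.mul_sum]
      congr 1
      · refine Finset.sum_congr rfl fun W hW => ?_
        rw [wt_not_insert hx p (mem_powerset.1 hW)]; ring
      · refine Finset.sum_congr rfl fun W hW => ?_
        rw [wt_insert hx p (mem_powerset.1 hW)]; ring
    rw [h1, h1, Finset.mul_sum, Finset.mul_sum]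
    simp only [h1, Finset.insert_union, Finset.union_insert, Finset.insert_idem]
    simp only [← Finset.mul_sum]
    have i1 := ih a b f
    have i2 := ih a b (fun W => f (insert x W))
    simp only [mul_add, Finset.sum_add_distrib]
    have hc : ∀ (g : Finset X → ℝ) (c : ℝ),
        ∑ A ∈ E.powerset, wt E a A * (c * ∑ B ∈ E.powerset, wt E b B * g (A ∪ B)) =
          c * ∑ A ∈ E.powerset, wt E a A * ∑ B ∈ E.powerset, wt E b B * g (A ∪ B) := by
      intro g c
      rw [Finset.mul_sum]
      exact Finset.sum_congr rfl fun A _ => by ring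
    simp only [hc f, hc (fun W => f (insert x W)), i1, i2]
    ring

lemma sum_wt_superset : ∀ (E : Finset X) (p : ℝ) (A : Finset X), A ⊆ E →
    ∑ W ∈ E.powerset, wt E p W * (if A ⊆ W then (1 : ℝ) else 0) = p ^ A.card := by
  intro E p A hA
  have h : ∀ W ∈ E.powerset.filter (fun W => A ⊆ W),
      wt E p W = p ^ A.card * wt (E \ A) p (W \ A) := by
    intro W hW
    obtain ⟨hWE, hAW⟩ := mem_filter.1 hW
    rw [mem_powerset] at hWE
    unfold wt
    have h1 := card_le_card hWE
    have h2 := card_le_card hAW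
    rw [card_sdiff_of_subset hAW, card_sdiff_of_subset hA, ← mul_assoc, ← pow_add,
      Nat.add_sub_cancel' h2]
    congr 2
    omega
  have hsp : ∀ W ∈ E.powerset, wt E p W * (if A ⊆ W then (1 : ℝ) else 0) =
      if A ⊆ W then wt E p W else 0 := by
    intro W _; split_ifs <;> ring
  rw [Finset.sum_congr rfl hsp, ← Finset.sum_filter, Finset.sum_congr rfl h, ← Finset.mul_sum]
  rw [show ∑ W ∈ E.powerset.filter (fun W => A ⊆ W), wt (E \ A) p (W \ A) = 1 from ?_, mul_one]
  rw [← sum_wt (E \ A) p]
  refine Finset.sum_bij' (fun W _ => W \ A) (fun W _ => W ∪ A) ?_ ?_ ?_ ?_ ?_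
  · intro W hW
    obtain ⟨hWE, _⟩ := mem_filter.1 hW
    exact mem_powerset.2 (Finset.sdiff_subset_sdiff (mem_powerset.1 hWE) subset_rfl)
  · intro W hW
    refine mem_filter.2 ⟨mem_powerset.2 (union_subset ?_ hA), subset_union_right⟩
    exact (mem_powerset.1 hW).trans sdiff_subset
  · intro W hW
    exact Finset.sdiff_union_of_subset (mem_filter.1 hW).2
  · intro W hW
    have hd : Disjoint W A := Finset.disjoint_left.2 fun x hx hxA =>
      (mem_sdiff.1 (mem_powerset.1 hW hx)).2 hxA
    rw [Finset.union_sdiff_right]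
    exact Finset.sdiff_eq_self_of_disjoint hd
  · intro W _; rfl

/-- failure probability: no member is contained in the random set -/
noncomputable def fail {ι : Type*} (E : Finset X) (p : ℝ) (I : Finset ι)
    (T : ι → Finset X) : ℝ :=
  ∑ W ∈ E.powerset, wt E p W * (if ∃ g ∈ I, T g ⊆ W then 0 else 1)

lemma fail_le_one {ι : Type*} {E : Finset X} {p : ℝ} (h0 : 0 ≤ p) (h1 : p ≤ 1) (I : Finset ι)
    (T : ι → Finset X) : fail E p I T ≤ 1 := by
  rw [← sum_wt E p]
  refine Finset.sum_le_sum fun W _ => ?_
  refine mul_le_of_le_one_right (wt_nonneg h0 h1 W) ?_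
  split_ifs <;> norm_num

/-- density after `j` rounds -/
noncomputable def dens (p : ℝ) : ℕ → ℝ
  | 0 => 0
  | j + 1 => p + dens p j - p * dens p j

lemma dens_mem {p : ℝ} (h0 : 0 ≤ p) (h1 : p ≤ 1) :
    ∀ j, 0 ≤ dens p j ∧ dens p j ≤ 1 ∧ dens p j ≤ j * p := by
  intro j
  induction j with
  | zero => simp [dens]
  | succ j ih =>
    obtain ⟨a, b, c⟩ := ih
    simp only [dens]
    push_cast
    refine ⟨?_, ?_, ?_⟩ <;> nlinarith

theorem fragment_rounds {ι : Type*} (E : Finset X) (p σ N : ℝ) (hp0 : 0 < p) (hp1 : p ≤ 1)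
    (hσ0 : 0 ≤ σ) (hσ : σ / p ≤ (1 / 2 : ℝ) ^ 14) (hN : 0 ≤ N) :
    ∀ (j : ℕ) (I : Finset ι) (T : ι → Finset X),
      (∀ g ∈ I, T g ⊆ E) → (∀ g ∈ I, (T g).card < 2 ^ j) →
      (∀ S : Finset X, (#{g ∈ I | S ⊆ T g} : ℝ) ≤ N * σ ^ S.card) →
      (I.card : ℝ) * fail E (dens p j) I T ≤ N * ((1 - (1 / 2 : ℝ) ^ j) / 16) := by
  classical
  intro j
  induction j with
  | zero =>
    intro I T _ hsz _
    rcases I.eq_empty_or_nonempty with rfl | ⟨g, hg⟩
    · simp
    have hT : T g = ∅ := by
      have := hsz g hg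
      rw [pow_zero, Nat.lt_one_iff, card_eq_zero] at this
      exact this
    have : fail E (dens p 0) I T = 0 := by
      refine Finset.sum_eq_zero fun W _ => ?_
      rw [if_pos ⟨g, hg, by simp [hT]⟩, mul_zero]
    simp [this]
  | succ j ih =>
    intro I T hTE hsz hspread
    -- the fragment
    have hex : ∀ (g : ι) (W : Finset X), g ∈ I →
        ∃ h ∈ I.filter (fun h => T h ⊆ W ∪ T g),
          ∀ h' ∈ I.filter (fun h => T h ⊆ W ∪ T g), (T h \ W).card ≤ (T h' \ W).card := by
      intro g W hg
      exact Finset.exists_min_image _ _ ⟨g, mem_filter.2 ⟨hg, subset_union_right⟩⟩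
    let T' : Finset X → ι → Finset X := fun W g =>
      if hg : g ∈ I then T (hex g W hg).choose \ W else ∅
    have hT'spec : ∀ W, ∀ g ∈ I, ∃ h ∈ I, T' W g = T h \ W ∧ T h ⊆ W ∪ T g ∧
        ∀ h' ∈ I, T h' ⊆ W ∪ T g → (T' W g).card ≤ (T h' \ W).card := by
      intro W g hg
      obtain ⟨h1, h2⟩ := (hex g W hg).choose_spec
      have heq : T' W g = T (hex g W hg).choose \ W := by simp [T', hg]
      refine ⟨_, (mem_filter.1 h1).1, heq, (mem_filter.1 h1).2, fun h' hh' hh'' => ?_⟩
      rw [heq]
      exact h2 h' (mem_filter.2 ⟨hh', hh''⟩)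
    have hsub : ∀ W, ∀ g ∈ I, T' W g ⊆ T g := by
      intro W g hg x hx
      obtain ⟨h, -, h1, h2, -⟩ := hT'spec W g hg
      rw [h1, mem_sdiff] at hx
      exact (mem_union.1 (h2 hx.1)).resolve_left hx.2
    let bad : Finset X → Finset ι := fun W => I.filter (fun g => 2 ^ j ≤ (T' W g).card)
    -- expected number of large fragments
    have hbad : ∑ W ∈ E.powerset, wt E p W * ((bad W).card : ℝ) ≤
        N * (1 / 2 : ℝ) ^ (12 * 2 ^ j) := by
      let sel : Finset X → Finset X := fun Z =>
        if h : ∃ g ∈ I, T g ⊆ Z then T h.choose else ∅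
      let SS : Finset X → Finset (Finset X) := fun Z =>
        (sel Z).powerset.filter (fun S => 2 ^ j ≤ S.card ∧ S ⊆ Z)
      let src : Finset ((Finset X) × ι) :=
        (E.powerset ×ˢ I).filter (fun x => x.2 ∈ bad x.1)
      let tgt : Finset ((Finset X × Finset X) × ι) :=
        ((E.powerset.biUnion (fun Z => (SS Z).image (fun S => (Z, S)))) ×ˢ I).filter
          (fun x => x.1.2 ⊆ T x.2)
      let enc : (Finset X) × ι → (Finset X × Finset X) × ι := fun x =>
        ((x.1 ∪ T' x.1 x.2, T' x.1 x.2), x.2)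
      have hL : ∑ W ∈ E.powerset, wt E p W * ((bad W).card : ℝ) = ∑ x ∈ src, wt E p x.1 := by
        simp only [src]
        rw [Finset.sum_filter, Finset.sum_product]
        refine Finset.sum_congr rfl fun W _ => ?_
        dsimp only
        rw [← Finset.sum_filter, Finset.sum_const, nsmul_eq_mul, mul_comm]
        congr 2
        congr 1
        ext g
        simp only [bad, mem_filter]
        tauto
      have hdisj : ∀ W, ∀ g ∈ I, Disjoint W (T' W g) := by
        intro W g hg
        obtain ⟨h, -, h1, -, -⟩ := hT'spec W g hg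
        rw [h1]
        exact disjoint_sdiff
      have hmem : ∀ x ∈ src, enc x ∈ tgt := by
        rintro ⟨W, g⟩ hx
        simp only [src, mem_filter, mem_product, mem_powerset] at hx
        obtain ⟨⟨hW, hg⟩, hb⟩ := hx
        obtain ⟨h, hhI, heq, hhsub, hmin⟩ := hT'spec W g hg
        have hZ : ∃ g' ∈ I, T g' ⊆ W ∪ T' W g := by
          refine ⟨h, hhI, ?_⟩
          rw [heq, Finset.union_sdiff_self_eq_union]
          exact subset_union_right
        obtain ⟨hsI, hsZ⟩ := hZ.choose_spec
        have hsel : sel (W ∪ T' W g) = T hZ.choose := by simp [sel, hZ]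
        have hss : T hZ.choose \ W ⊆ T' W g := by
          intro x hx
          rw [mem_sdiff] at hx
          exact (mem_union.1 (hsZ hx.1)).resolve_left hx.2
        have hsW : T hZ.choose ⊆ W ∪ T g :=
          hsZ.trans (union_subset_union subset_rfl (hsub W g hg))
        have heq2 : T hZ.choose \ W = T' W g :=
          Finset.eq_of_subset_of_card_le hss (hmin _ hsI hsW)
        simp only [tgt, enc, mem_filter, mem_product, mem_biUnion, mem_image, mem_powerset,
          Prod.mk.injEq]
        refine ⟨⟨⟨W ∪ T' W g, union_subset hW ((hsub W g hg).trans (hTE g hg)), T' W g, ?_, rfl, rfl⟩,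
          hg⟩, hsub W g hg⟩
        simp only [SS, mem_filter, mem_powerset]
        refine ⟨?_, (mem_filter.1 hb).2, subset_union_right⟩
        rw [hsel]
        exact heq2.symm.subset.trans sdiff_subset
      have hinj : Set.InjOn enc (src : Set ((Finset X) × ι)) := by
        rintro ⟨W, g⟩ hx ⟨W', g'⟩ hy h
        simp only [enc, Prod.mk.injEq] at h
        obtain ⟨⟨h1, h2⟩, rfl⟩ := h
        simp only [src, coe_filter, mem_product, Set.mem_ofPred_eq] at hx hy
        have e1 : (W ∪ T' W g) \ T' W g = W := by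
          rw [Finset.union_sdiff_right]
          exact Finset.sdiff_eq_self_of_disjoint (hdisj W g hx.1.2)
        have e2 : (W' ∪ T' W' g) \ T' W' g = W' := by
          rw [Finset.union_sdiff_right]
          exact Finset.sdiff_eq_self_of_disjoint (hdisj W' g hy.1.2)
        rw [h1, h2, e2] at e1
        simp [e1]
      have hwt : ∀ x ∈ src, wt E p x.1 ≤
          wt E p (enc x).1.1 * (1 / p) ^ (enc x).1.2.card := by
        rintro ⟨W, g⟩ hx
        simp only [src, mem_filter, mem_product, mem_powerset] at hx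
        simp only [enc, wt]
        have hd := hdisj W g hx.1.2
        rw [card_union_of_disjoint hd]
        have hle : W.card + (T' W g).card ≤ E.card := by
          rw [← card_union_of_disjoint hd]
          exact card_le_card (union_subset hx.1.1 ((hsub W g hx.1.2).trans (hTE g hx.1.2)))
        have h1 : E.card - W.card = (E.card - (W.card + (T' W g).card)) + (T' W g).card := by omega
        rw [h1, pow_add, pow_add]
        have hq : 0 ≤ 1 - p := by linarith
        calc p ^ W.card * ((1 - p) ^ (E.card - (W.card + (T' W g).card)) * (1 - p) ^ (T' W g).card)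
            ≤ p ^ W.card * ((1 - p) ^ (E.card - (W.card + (T' W g).card)) * 1) := by
              gcongr
              exact pow_le_one₀ hq (by linarith)
          _ = _ := by
              rw [one_div, inv_pow]
              field_simp
      have hw0 : ∀ x : (Finset X × Finset X) × ι, 0 ≤ wt E p x.1.1 * (1 / p) ^ x.1.2.card :=
        fun x => mul_nonneg (wt_nonneg hp0.le hp1 _) (by positivity)
      have hSS : ∀ Z, ∑ S ∈ SS Z, (σ / p) ^ S.card ≤ (1 / 2 : ℝ) ^ (12 * 2 ^ j) := by
        intro Z
        have hsel : (sel Z).card ≤ 2 * 2 ^ j := by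
          simp only [sel]
          split_ifs with h
          · have := hsz _ h.choose_spec.1
            rw [pow_succ] at this; omega
          · simp
        have hx1 : σ / p ≤ 1 := hσ.trans (by norm_num)
        calc ∑ S ∈ SS Z, (σ / p) ^ S.card ≤ ∑ _S ∈ SS Z, ((1 / 2 : ℝ) ^ 14) ^ (2 ^ j) := by
              refine Finset.sum_le_sum fun S hS => ?_
              simp only [SS, mem_filter] at hS
              calc (σ / p) ^ S.card ≤ (σ / p) ^ (2 ^ j) :=
                    pow_le_pow_of_le_one (by positivity) hx1 hS.2.1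
                _ ≤ _ := by gcongr
          _ ≤ (2 : ℝ) ^ (2 * 2 ^ j) * ((1 / 2 : ℝ) ^ 14) ^ (2 ^ j) := by
              rw [Finset.sum_const, nsmul_eq_mul]
              gcongr
              calc ((SS Z).card : ℝ) ≤ ((sel Z).powerset.card : ℝ) := by
                    exact_mod_cast card_le_card (filter_subset _ _)
                _ ≤ _ := by
                    rw [card_powerset]; push_cast
                    exact pow_le_pow_right₀ (by norm_num) hsel
          _ = (1 / 2 : ℝ) ^ (12 * 2 ^ j) := by
              rw [pow_mul (2 : ℝ), ← mul_pow, pow_mul]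
              norm_num
      calc ∑ W ∈ E.powerset, wt E p W * ((bad W).card : ℝ)
          = ∑ x ∈ src, wt E p x.1 := hL
        _ ≤ ∑ x ∈ src, wt E p (enc x).1.1 * (1 / p) ^ (enc x).1.2.card := Finset.sum_le_sum hwt
        _ = ∑ y ∈ src.image enc, wt E p y.1.1 * (1 / p) ^ y.1.2.card :=
            (Finset.sum_image (f := fun y : (Finset X × Finset X) × ι =>
              wt E p y.1.1 * (1 / p) ^ y.1.2.card) hinj).symm
        _ ≤ ∑ y ∈ tgt, wt E p y.1.1 * (1 / p) ^ y.1.2.card :=
            Finset.sum_le_sum_of_subset_of_nonneg (image_subset_iff.2 hmem) fun y _ _ => hw0 y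
        _ = ∑ Z ∈ E.powerset, ∑ S ∈ SS Z,
              (#{g ∈ I | S ⊆ T g} : ℝ) * (wt E p Z * (1 / p) ^ S.card) := by
            simp only [tgt]
            rw [Finset.sum_filter, Finset.sum_product, Finset.sum_biUnion]
            · refine Finset.sum_congr rfl fun Z _ => ?_
              rw [Finset.sum_image (fun a _ b _ h => (Prod.mk.injEq _ _ _ _ ▸ h).2)]
              refine Finset.sum_congr rfl fun S _ => ?_
              dsimp only
              rw [← Finset.sum_filter, Finset.sum_const, nsmul_eq_mul]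
            · intro Z _ Z' _ hne
              simp only [Function.onFun, disjoint_left, mem_image]
              rintro x ⟨S, -, rfl⟩ ⟨S', -, h⟩
              exact hne (congrArg Prod.fst h).symm
        _ ≤ ∑ Z ∈ E.powerset, ∑ S ∈ SS Z, N * (wt E p Z * (σ / p) ^ S.card) := by
            refine Finset.sum_le_sum fun Z _ => Finset.sum_le_sum fun S _ => ?_
            have h1 := hspread S
            have h2 := wt_nonneg (E := E) hp0.le hp1 Z
            calc (#{g ∈ I | S ⊆ T g} : ℝ) * (wt E p Z * (1 / p) ^ S.card)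
                ≤ N * σ ^ S.card * (wt E p Z * (1 / p) ^ S.card) := by gcongr
              _ = _ := by rw [div_pow, div_pow, one_pow]; ring
        _ ≤ ∑ Z ∈ E.powerset, N * (wt E p Z * (1 / 2 : ℝ) ^ (12 * 2 ^ j)) := by
            refine Finset.sum_le_sum fun Z _ => ?_
            rw [← Finset.mul_sum, ← Finset.mul_sum]
            have h2 := wt_nonneg (E := E) hp0.le hp1 Z
            gcongr
            exact hSS Z
        _ = N * (1 / 2 : ℝ) ^ (12 * 2 ^ j) := by
            rw [← Finset.mul_sum, ← Finset.sum_mul, sum_wt, one_mul]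
    -- recursion
    obtain ⟨hd0, hd1, -⟩ := dens_mem hp0.le hp1 j
    have hstep : ∀ W ∈ E.powerset,
        (I.card : ℝ) * ∑ B ∈ E.powerset,
          wt E (dens p j) B * (if ∃ g ∈ I, T g ⊆ W ∪ B then (0 : ℝ) else 1)
        ≤ ((bad W).card : ℝ) + N * ((1 - (1 / 2 : ℝ) ^ j) / 16) := by
      intro W _
      set I' := I.filter (fun g => ¬ 2 ^ j ≤ (T' W g).card) with hI'
      have hcard : (I.card : ℝ) = ((bad W).card : ℝ) + (I'.card : ℝ) := by
        rw [hI']
        exact_mod_cast (Finset.card_filter_add_card_filter_not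
          (s := I) (fun g => 2 ^ j ≤ (T' W g).card)).symm
      set v := ∑ B ∈ E.powerset,
          wt E (dens p j) B * (if ∃ g ∈ I, T g ⊆ W ∪ B then (0 : ℝ) else 1) with hv
      have hvle : v ≤ fail E (dens p j) I' (T' W) := by
        refine Finset.sum_le_sum fun B _ => ?_
        refine mul_le_mul_of_nonneg_left ?_ (wt_nonneg hd0 hd1 B)
        by_cases h : ∃ g ∈ I', T' W g ⊆ B
        · obtain ⟨g, hg, hgB⟩ := h
          obtain ⟨h', hh', heq, -, -⟩ := hT'spec W g (mem_filter.1 hg).1
          have hcov : T h' ⊆ W ∪ B := by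
            intro x hx
            rw [mem_union]
            by_cases hxW : x ∈ W
            · exact Or.inl hxW
            · exact Or.inr (hgB (heq ▸ mem_sdiff.2 ⟨hx, hxW⟩))
          rw [if_pos ⟨h', hh', hcov⟩, if_pos ⟨g, hg, hgB⟩]
        · rw [if_neg h]
          split_ifs <;> norm_num
      have hv1 : v ≤ 1 := hvle.trans (fail_le_one hd0 hd1 I' (T' W))
      have hih := ih I' (T' W)
        (fun g hg => (hsub W g (mem_filter.1 hg).1).trans (hTE g (mem_filter.1 hg).1))
        (fun g hg => not_le.1 (mem_filter.1 hg).2)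
        (fun S => by
          refine le_trans ?_ (hspread S)
          norm_cast
          apply card_le_card
          intro g hg
          obtain ⟨hgI, hgS⟩ := mem_filter.1 hg
          exact mem_filter.2 ⟨(mem_filter.1 hgI).1, hgS.trans (hsub W g (mem_filter.1 hgI).1)⟩)
      calc (I.card : ℝ) * v = ((bad W).card : ℝ) * v + (I'.card : ℝ) * v := by rw [hcard]; ring
        _ ≤ ((bad W).card : ℝ) * 1 + (I'.card : ℝ) * fail E (dens p j) I' (T' W) := by gcongr
        _ ≤ _ := by linarith
    calc (I.card : ℝ) * fail E (dens p (j + 1)) I T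
        = ∑ W ∈ E.powerset, wt E p W * ((I.card : ℝ) * ∑ B ∈ E.powerset,
            wt E (dens p j) B * (if ∃ g ∈ I, T g ⊆ W ∪ B then (0 : ℝ) else 1)) := by
          unfold fail
          simp only [dens]
          rw [← sum_wt_union E p (dens p j)
            (fun W => if ∃ g ∈ I, T g ⊆ W then (0 : ℝ) else 1), Finset.mul_sum]
          exact Finset.sum_congr rfl fun W _ => by ring
      _ ≤ ∑ W ∈ E.powerset, wt E p W *
            (((bad W).card : ℝ) + N * ((1 - (1 / 2 : ℝ) ^ j) / 16)) :=
          Finset.sum_le_sum fun W hW =>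
            mul_le_mul_of_nonneg_left (hstep W hW) (wt_nonneg hp0.le hp1 W)
      _ ≤ N * (1 / 2 : ℝ) ^ (12 * 2 ^ j) + N * ((1 - (1 / 2 : ℝ) ^ j) / 16) := by
          simp only [mul_add, Finset.sum_add_distrib]
          rw [← Finset.sum_mul, sum_wt, one_mul]
          linarith
      _ ≤ N * ((1 - (1 / 2 : ℝ) ^ (j + 1)) / 16) := by
          have h1 : j + 5 ≤ 12 * 2 ^ j := by
            have := Nat.lt_two_pow_self (n := j)
            omega
          have h2 : (1 / 2 : ℝ) ^ (12 * 2 ^ j) ≤ (1 / 2 : ℝ) ^ (j + 5) :=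
            pow_le_pow_of_le_one (by norm_num) (by norm_num) h1
          rw [← mul_add]
          gcongr
          calc (1 / 2 : ℝ) ^ (12 * 2 ^ j) + (1 - (1 / 2 : ℝ) ^ j) / 16
              ≤ (1 / 2 : ℝ) ^ (j + 5) + (1 - (1 / 2 : ℝ) ^ j) / 16 := by gcongr
            _ = _ := by rw [pow_add, pow_succ]; ring

end Vale.Agent.P064
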