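import Mathlib
import Vale.Agent.P064.Abstract
import Vale.Agent.P064.Threshold
import Vale.Agent.P064.Defs

/-!
Transfer of the abstract bounds to graphs.
-/

open scoped Pointwise
open Finset MeasureTheory

namespace Vale.Agent.P064

variable {n : ℕ}

/-- permutations act on pairs of vertices -/
@[reducible] def pairAction (n : ℕ) : MulAction (Equiv.Perm (Fin n)) (Sym2 (Fin n)) where
  smul g e := e.map g
  one_smul e := by
    show Sym2.map (1 : Equiv.Perm (Fin n)) e = e
    simp
  mul_smul g h e := by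
    show Sym2.map (g * h : Equiv.Perm (Fin n)) e = Sym2.map g (Sym2.map h e)
    rw [Sym2.map_map]
    rfl

attribute [local instance] pairAction

lemma pair_smul_mk (g : Equiv.Perm (Fin n)) (a b : Fin n) :
    g • (s(a, b) : Sym2 (Fin n)) = s(g a, g b) := rfl

/-- the ground set of edges -/
noncomputable def allEdges (n : ℕ) : Finset (Sym2 (Fin n)) :=
  univ.filter (fun e => ¬ e.IsDiag)

lemma allEdges_card (n : ℕ) : (allEdges n).card = n.choose 2 := by
  classical
  have h := Sym2.card_subtype_not_diag (α := Fin n)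
  rw [Fintype.card_subtype, Fintype.card_fin] at h
  exact h

/-- edges of a subgraph of the complete graph -/
noncomputable def subEdges (S : (⊤ : SimpleGraph (Fin n)).Subgraph) : Finset (Sym2 (Fin n)) :=
  S.edgeSet.toFinite.toFinset

lemma mem_subEdges {S : (⊤ : SimpleGraph (Fin n)).Subgraph} {a b : Fin n} :
    s(a, b) ∈ subEdges S ↔ S.Adj a b := by
  simp [subEdges]

lemma subEdges_subset_all (S : (⊤ : SimpleGraph (Fin n)).Subgraph) :
    subEdges S ⊆ allEdges n := by
  intro e
  induction e using Sym2.ind with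
  | _ a b =>
    intro h
    have := S.adj_sub (mem_subEdges.1 h)
    simp [allEdges] at this ⊢
    exact this

/-- the subgraphs of the complete graph isomorphic to `F` -/
noncomputable def topCopies (n : ℕ) {α : Type*} (F : SimpleGraph α) :
    Finset (⊤ : SimpleGraph (Fin n)).Subgraph := by
  classical exact univ.filter (fun S => Nonempty (F ≃g S.coe))

lemma mem_topCopies {α : Type*} {F : SimpleGraph α} {S : (⊤ : SimpleGraph (Fin n)).Subgraph} :
    S ∈ topCopies n F ↔ Nonempty (F ≃g S.coe) := by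
  simp [topCopies]

lemma real_singleton (p : unitInterval) (G : SimpleGraph (Fin n)) [Fintype G.edgeSet] :
    (SimpleGraph.binomialRandom (Fin n) p).real {G} = wt (allEdges n) (p : ℝ) G.edgeFinset := by
  rw [measureReal_def, SimpleGraph.binomialRandom_singleton]
  unfold wt
  rw [allEdges_card, Nat.card_eq_fintype_card, Fintype.card_fin]
  have h : G.edgeSet.ncard = G.edgeFinset.card := by
    rw [Set.ncard_eq_toFinset_card']
    congr
  rw [h, ENNReal.toReal_mul, ENNReal.toReal_pow, ENNReal.toReal_pow]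
  simp

lemma sum_graph_eq (p : unitInterval) (f : SimpleGraph (Fin n) → ℝ) :
    ∑ G : SimpleGraph (Fin n), (SimpleGraph.binomialRandom (Fin n) p).real {G} * f G =
      ∑ W ∈ (allEdges n).powerset,
        wt (allEdges n) (p : ℝ) W * f (SimpleGraph.fromEdgeSet (W : Set (Sym2 (Fin n)))) := by
  classical
  refine Finset.sum_bij' (fun G _ => G.edgeFinset)
    (fun W _ => SimpleGraph.fromEdgeSet (W : Set (Sym2 (Fin n)))) ?_ ?_ ?_ ?_ ?_
  · intro G _
    rw [mem_powerset]
    intro e he
    simp only [allEdges, mem_filter, mem_univ, true_and]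
    exact G.not_isDiag_of_mem_edgeFinset he
  · intro W _; simp
  · intro G _; simp
  · intro W hW
    rw [mem_powerset] at hW
    ext e
    simp only [SimpleGraph.mem_edgeFinset, SimpleGraph.edgeSet_fromEdgeSet, Set.mem_sdiff,
      Finset.mem_coe]
    constructor
    · exact fun h => h.1
    · intro h
      have := hW h
      simp [allEdges] at this
      exact ⟨h, this⟩
  · intro G _
    rw [real_singleton]
    simp

open Classical in
lemma copyCount_eq {α : Type*} (F : SimpleGraph α) (G : SimpleGraph (Fin n)) :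
    G.copyCount F =
      #{S ∈ topCopies n F | ∀ a b, S.Adj a b → G.Adj a b} := by
  classical
  unfold SimpleGraph.copyCount
  refine Finset.card_bij'
    (fun S _ => (⟨S.verts, S.Adj, fun h => (S.adj_sub h).ne, S.edge_vert, S.symm⟩ :
      (⊤ : SimpleGraph (Fin n)).Subgraph))
    (fun S h => (⟨S.verts, S.Adj, fun {a b} hh => (mem_filter.1 h).2 a b hh, S.edge_vert, S.symm⟩ :
      G.Subgraph)) ?_ ?_ ?_ ?_
  · intro S hS
    simp only [mem_filter, mem_univ, true_and] at hS
    refine mem_filter.2 ⟨mem_topCopies.2 ?_, fun a b h => S.adj_sub h⟩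
    obtain ⟨φ⟩ := hS
    exact ⟨⟨φ.toEquiv, φ.map_rel_iff'⟩⟩
  · intro S hS
    simp only [mem_filter, mem_univ, true_and]
    obtain ⟨φ⟩ := mem_topCopies.1 (mem_filter.1 hS).1
    exact ⟨⟨φ.toEquiv, φ.map_rel_iff'⟩⟩
  · intro S _; rfl
  · intro S _; rfl

lemma expCopies_eq {α : Type*} (F : SimpleGraph α) (p : unitInterval) :
    expCopies n p F = ∑ S ∈ topCopies n F, (p : ℝ) ^ (subEdges S).card := by
  classical
  unfold expCopies
  rw [sum_graph_eq p (fun G => (G.copyCount F : ℝ))]
  have h : ∀ W ∈ (allEdges n).powerset,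
      wt (allEdges n) (p : ℝ) W *
          ((SimpleGraph.fromEdgeSet (W : Set (Sym2 (Fin n)))).copyCount F : ℝ) =
        ∑ S ∈ topCopies n F,
          wt (allEdges n) (p : ℝ) W * (if subEdges S ⊆ W then (1 : ℝ) else 0) := by
    intro W hW
    rw [copyCount_eq, ← Finset.mul_sum, Finset.sum_boole]
    congr 3
    ext S
    simp only [mem_filter]
    refine and_congr_right fun _ => ?_
    constructor
    · intro h e
      induction e using Sym2.ind with
      | _ a b =>
        intro he
        exact ((SimpleGraph.fromEdgeSet_adj _).1 (h a b (mem_subEdges.1 he))).1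
    · intro h a b hab
      exact (SimpleGraph.fromEdgeSet_adj _).2 ⟨h (mem_subEdges.2 hab), (S.adj_sub hab).ne⟩
  rw [Finset.sum_congr rfl h, Finset.sum_comm]
  exact Finset.sum_congr rfl fun S _ => sum_wt_superset _ _ _ (subEdges_subset_all S)

variable {V : Type*}

/-- the edge set of the embedded graph -/
noncomputable def hostEdges [Fintype V] (H : SimpleGraph V) (ι : V ↪ Fin n) :
    Finset (Sym2 (Fin n)) :=
  H.edgeSet.toFinite.toFinset.map ι.sym2Map

lemma mem_hostEdges [Fintype V] {H : SimpleGraph V} {ι : V ↪ Fin n} {u : Sym2 (Fin n)} :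
    u ∈ hostEdges H ι ↔ ∃ a b, H.Adj a b ∧ s(ι a, ι b) = u := by
  simp only [hostEdges, Finset.mem_map, Set.Finite.mem_toFinset]
  constructor
  · rintro ⟨e, he, rfl⟩
    induction e using Sym2.ind with
    | _ a b => exact ⟨a, b, he, rfl⟩
  · rintro ⟨a, b, h, rfl⟩
    exact ⟨s(a, b), h, rfl⟩

lemma hostEdges_subset_all [Fintype V] (H : SimpleGraph V) (ι : V ↪ Fin n) :
    hostEdges H ι ⊆ allEdges n := by
  intro u hu
  obtain ⟨a, b, h, rfl⟩ := mem_hostEdges.1 hu
  simp [allEdges, h.ne]

/-- the subgraph of `H` spanned by a set of embedded edges -/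
def spanSub (H : SimpleGraph V) (ι : V ↪ Fin n) (U : Finset (Sym2 (Fin n))) : H.Subgraph where
  verts := {a | ∃ b, H.Adj a b ∧ s(ι a, ι b) ∈ U}
  Adj a b := H.Adj a b ∧ s(ι a, ι b) ∈ U
  adj_sub h := h.1
  edge_vert h := ⟨_, h⟩
  symm := ⟨fun a b h => ⟨h.1.symm, by rw [Sym2.eq_swap]; exact h.2⟩⟩

lemma good_of_exp [Fintype V] (H : SimpleGraph V) (ι : V ↪ Fin n) (q : unitInterval)
    (hq : ∀ F : H.Subgraph, 1 / 2 ≤ expCopies n q F.coe) :
    Good (Equiv.Perm (Fin n)) (q : ℝ) (hostEdges H ι) := by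
  classical
  intro U hU
  set F := spanSub H ι U with hF
  have key : ∀ S ∈ topCopies n F.coe,
      ∃ g : Equiv.Perm (Fin n), g • U = subEdges S ∧
        ∀ x ∈ S.verts, ∃ y, S.Adj x y := by
    intro S hS
    obtain ⟨φ⟩ := mem_topCopies.1 hS
    obtain ⟨g, hg⟩ := Equiv.Perm.exists_extending_pair
      (fun a : F.verts => ι a) (fun a : F.verts => ((φ a : S.verts) : Fin n))
      (ι.injective.comp Subtype.val_injective) (Subtype.val_injective.comp φ.injective)
    refine ⟨g, ?_, ?_⟩
    · ext e
      induction e using Sym2.ind with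
      | _ x y =>
        rw [Finset.mem_smul_finset, mem_subEdges]
        constructor
        · rintro ⟨u, hu, hux⟩
          obtain ⟨a, b, hab, rfl⟩ := mem_hostEdges.1 (hU hu)
          have hFab : F.Adj a b := ⟨hab, hu⟩
          have h : S.Adj (φ ⟨a, F.edge_vert hFab⟩ : S.verts) (φ ⟨b, F.edge_vert hFab.symm⟩ : S.verts) :=
            φ.map_rel_iff.2 hFab
          rw [pair_smul_mk] at hux
          rw [← SimpleGraph.Subgraph.mem_edgeSet, ← hux]
          have ha := hg ⟨a, F.edge_vert hFab⟩
          have hb := hg ⟨b, F.edge_vert hFab.symm⟩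
          simp only at ha hb
          rw [ha, hb]
          exact h
        · intro hxy
          obtain ⟨a, ha⟩ := φ.surjective ⟨x, S.edge_vert hxy⟩
          obtain ⟨b, hb⟩ := φ.surjective ⟨y, S.edge_vert hxy.symm⟩
          have hFab : F.coe.Adj a b := φ.map_rel_iff.1 (by rw [ha, hb]; exact hxy)
          refine ⟨s(ι a, ι b), hFab.2, ?_⟩
          rw [pair_smul_mk]
          have h1 := hg a
          have h2 := hg b
          rw [h1, h2, ha, hb]
    · intro x hx
      obtain ⟨⟨a, ha⟩, hax⟩ := φ.surjective ⟨x, hx⟩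
      obtain ⟨b, hb⟩ := ha
      have hFab : F.Adj a b := hb
      refine ⟨(φ ⟨b, F.edge_vert hFab.symm⟩ : S.verts), ?_⟩
      have h : S.coe.Adj (φ ⟨a, F.edge_vert hFab⟩) (φ ⟨b, F.edge_vert hFab.symm⟩) :=
        φ.map_rel_iff.2 hFab
      rw [hax] at h
      exact h
  have hcard : ∀ S ∈ topCopies n F.coe, (subEdges S).card = U.card := by
    intro S hS
    obtain ⟨g, hg, -⟩ := key S hS
    rw [← hg, Finset.card_smul_finset]
  have hle : (topCopies n F.coe).card ≤ (orbitF (G := Equiv.Perm (Fin n)) U).card := by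
    refine Finset.card_le_card_of_injOn subEdges ?_ ?_
    · intro S hS
      obtain ⟨g, hg, -⟩ := key S hS
      exact mem_orbitF.2 ⟨g, hg⟩
    · intro S hS S' hS' h
      obtain ⟨-, -, hv⟩ := key S hS
      obtain ⟨-, -, hv'⟩ := key S' hS'
      have hadj : ∀ a b, S.Adj a b ↔ S'.Adj a b := fun a b => by
        rw [← mem_subEdges, ← mem_subEdges, h]
      ext1
      · ext x
        constructor
        · intro hx
          obtain ⟨y, hy⟩ := hv x hx
          exact S'.edge_vert ((hadj x y).1 hy)
        · intro hx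
          obtain ⟨y, hy⟩ := hv' x hx
          exact S.edge_vert ((hadj x y).2 hy)
      · ext a b
        exact hadj a b
  have h := hq F
  rw [expCopies_eq, Finset.sum_congr rfl (fun S hS => by rw [hcard S hS]), Finset.sum_const,
    nsmul_eq_mul] at h
  refine h.trans ?_
  have := q.2.1
  gcongr

lemma pos_of_exp [Fintype V] (H : SimpleGraph V) (hne : H.edgeSet.Nonempty) (q : unitInterval)
    (hq : ∀ F : H.Subgraph, 1 / 2 ≤ expCopies n q F.coe) : 0 < (q : ℝ) := by
  rcases q.2.1.lt_or_eq with h | h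
  · exact h
  exfalso
  have hh := hq ⊤
  rw [expCopies_eq] at hh
  have hz : ∑ S ∈ topCopies n (⊤ : H.Subgraph).coe, (q : ℝ) ^ (subEdges S).card = 0 := by
    refine Finset.sum_eq_zero fun S hS => ?_
    rw [← h, zero_pow]
    obtain ⟨φ⟩ := mem_topCopies.1 hS
    obtain ⟨e, he⟩ := hne
    revert he
    induction e using Sym2.ind with
    | _ a b =>
      intro he
      have hab : (⊤ : H.Subgraph).coe.Adj ⟨a, trivial⟩ ⟨b, trivial⟩ := he
      have h' : S.Adj (φ ⟨a, trivial⟩ : S.verts) (φ ⟨b, trivial⟩ : S.verts) := φ.map_rel_iff.2 hab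
      exact (card_pos.2 ⟨_, mem_subEdges.2 h'⟩).ne'
  rw [hz] at hh
  norm_num at hh

/-- the spread parameter -/
noncomputable def spreadFac (e : ℕ) : ℝ := Acst * (1 + Real.log e)

lemma cnt_le_spread [Fintype V] (H : SimpleGraph V) (ι : V ↪ Fin n) (q : ℝ) (hq : 0 < q)
    (hG : Good (Equiv.Perm (Fin n)) q (hostEdges H ι)) (hne : (hostEdges H ι).Nonempty)
    (S : Finset (Sym2 (Fin n))) :
    (cnt (G := Equiv.Perm (Fin n)) (hostEdges H ι) S : ℝ) ≤
      (Fintype.card (Equiv.Perm (Fin n)) : ℝ) *
        (spreadFac (hostEdges H ι).card * q) ^ S.card := by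
  classical
  rcases S.eq_empty_or_nonempty with hS | hS
  · subst hS
    rw [card_empty, pow_zero, mul_one]
    exact_mod_cast Finset.card_le_univ _
  refine (cnt_le q hq _ hG S hS).trans ?_
  have hA : 0 ≤ Acst := by norm_num [Acst]
  have hl := one_le_lfac (hostEdges H ι).card S.card
  unfold spreadFac
  gcongr
  unfold lfac
  gcongr
  have hm : (1 : ℝ) ≤ (hostEdges H ι).card := by exact_mod_cast hne.card_pos
  apply max_le hm
  have hs : (1 : ℝ) ≤ S.card := by exact_mod_cast hS.card_pos
  exact div_le_self (by linarith) hs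

lemma map_inj {W : Type*} {H : SimpleGraph V} {K : SimpleGraph W} {f : H →g K}
    (hf : Function.Injective f) {A B : H.Subgraph} (h : A.map f = B.map f) : A = B := by
  ext1
  · exact hf.image_injective (congrArg SimpleGraph.Subgraph.verts h)
  · ext a b
    have h' : (A.map f).Adj (f a) (f b) ↔ (B.map f).Adj (f a) (f b) := by rw [h]
    simpa [Relation.map_apply, hf.eq_iff] using h'

lemma copyCount_le_exp [Fintype V] (H : SimpleGraph V) (ι : V ↪ Fin n) (p : unitInterval)
    (hp : ∀ S : Finset (Sym2 (Fin n)),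
      (cnt (G := Equiv.Perm (Fin n)) (hostEdges H ι) S : ℝ) ≤
        (Fintype.card (Equiv.Perm (Fin n)) : ℝ) * (p : ℝ) ^ S.card)
    {α : Type*} (F : SimpleGraph α) :
    (H.copyCount F : ℝ) ≤ expCopies n p F := by
  classical
  set G := Equiv.Perm (Fin n)
  have h1 : ∀ g : G, H.copyCount F ≤
      #{S ∈ topCopies n F | g⁻¹ • subEdges S ⊆ hostEdges H ι} := by
    intro g
    let f : SimpleGraph.Copy H (⊤ : SimpleGraph (Fin n)) :=
      ⟨⟨fun a => g (ι a), fun {a b} h => by simpa using h.ne⟩, g.injective.comp ι.injective⟩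
    unfold SimpleGraph.copyCount
    refine Finset.card_le_card_of_injOn (fun S' => S'.map f.toHom) ?_ ?_
    · intro S' hS'
      simp only [coe_filter, mem_univ, true_and, Set.mem_ofPred_eq] at hS' ⊢
      obtain ⟨φ⟩ := hS'
      refine ⟨mem_topCopies.2 ⟨φ.trans (f.isoSubgraphMap S')⟩, ?_⟩
      intro e
      induction e using Sym2.ind with
      | _ x y =>
        intro he
        rw [← Finset.smul_mem_smul_finset_iff g, smul_inv_smul, pair_smul_mk, mem_subEdges] at he
        simp only [SimpleGraph.Subgraph.map_adj, Relation.map_apply] at he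
        obtain ⟨a, b, hab, hax, hby⟩ := he
        refine mem_hostEdges.2 ⟨a, b, S'.adj_sub hab, ?_⟩
        rw [show ι a = x from g.injective hax, show ι b = y from g.injective hby]
    · intro S' _ S'' _ h
      exact map_inj f.injective h
  have h2 : (Fintype.card G : ℝ) * (H.copyCount F : ℝ) ≤
      ∑ S ∈ topCopies n F, (Fintype.card G : ℝ) * (p : ℝ) ^ (subEdges S).card := by
    calc (Fintype.card G : ℝ) * (H.copyCount F : ℝ)
        = ∑ _g : G, (H.copyCount F : ℝ) := by simp
      _ ≤ ∑ g : G, (#{S ∈ topCopies n F | g⁻¹ • subEdges S ⊆ hostEdges H ι} : ℝ) :=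
          Finset.sum_le_sum fun g _ => by exact_mod_cast h1 g
      _ = ∑ S ∈ topCopies n F, (cnt (G := G) (hostEdges H ι) (subEdges S) : ℝ) := by
          simp only [Finset.natCast_card_filter]
          rw [Finset.sum_comm]
          refine Finset.sum_congr rfl fun S _ => ?_
          rw [cnt, Finset.natCast_card_filter]
          exact Fintype.sum_equiv (Equiv.inv G) _ _ (fun g => rfl)
      _ ≤ _ := Finset.sum_le_sum fun S _ => hp _
  rw [expCopies_eq]
  rw [← Finset.mul_sum] at h2
  exact le_of_mul_le_mul_left h2 (by exact_mod_cast Fintype.card_pos)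

lemma contains_prob [Fintype V] (H : SimpleGraph V) (ι : V ↪ Fin n) (σ p : ℝ)
    (hp0 : 0 < p) (hp1 : p ≤ 1) (hσ0 : 0 ≤ σ) (hσ : σ / p ≤ (1 / 2 : ℝ) ^ 14) (j : ℕ)
    (hj : (hostEdges H ι).card < 2 ^ j)
    (hb : ∀ S : Finset (Sym2 (Fin n)),
      (cnt (G := Equiv.Perm (Fin n)) (hostEdges H ι) S : ℝ) ≤
        (Fintype.card (Equiv.Perm (Fin n)) : ℝ) * σ ^ S.card) :
    ∃ h : dens p j ∈ Set.Icc (0 : ℝ) 1,
      1 / 2 ≤ (SimpleGraph.binomialRandom (Fin n) ⟨dens p j, h⟩).real {G | H.IsContained G} := by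
  classical
  obtain ⟨hd0, hd1, -⟩ := dens_mem hp0.le hp1 j
  refine ⟨⟨hd0, hd1⟩, ?_⟩
  set G := Equiv.Perm (Fin n)
  set E := allEdges n
  have hN : (0 : ℝ) < Fintype.card G := by exact_mod_cast Fintype.card_pos
  have hfr := fragment_rounds E p σ (Fintype.card G : ℝ) hp0 hp1 hσ0 hσ hN.le j
    (univ : Finset G) (fun g => g • hostEdges H ι)
    (fun g _ => by
      intro e he
      obtain ⟨u, hu, rfl⟩ := Finset.mem_smul_finset.1 he
      obtain ⟨a, b, hab, rfl⟩ := mem_hostEdges.1 hu
      rw [pair_smul_mk]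
      simp [E, allEdges, hab.ne])
    (fun g _ => by rw [Finset.card_smul_finset]; exact hj)
    (fun S => by
      refine le_trans (le_of_eq ?_) (hb S)
      unfold cnt
      norm_cast
      refine Finset.card_equiv (Equiv.inv G) (fun g => ?_)
      simp only [mem_filter, mem_univ, true_and, Equiv.inv_apply]
      rw [← Finset.smul_finset_subset_smul_finset_iff (a := g⁻¹), inv_smul_smul])
  rw [card_univ] at hfr
  have hfail : fail E (dens p j) (univ : Finset G) (fun g => g • hostEdges H ι) ≤ 1 / 2 := by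
    have h1 : (0 : ℝ) ≤ (1 / 2 : ℝ) ^ j := by positivity
    have h2 := le_trans hfr (mul_le_mul_of_nonneg_left
      (show (1 - (1 / 2 : ℝ) ^ j) / 16 ≤ 1 / 16 by linarith) hN.le)
    have h3 := le_of_mul_le_mul_left h2 hN
    linarith
  have hpr : (SimpleGraph.binomialRandom (Fin n) ⟨dens p j, ⟨hd0, hd1⟩⟩).real {G | H.IsContained G}
      = ∑ K : SimpleGraph (Fin n), (SimpleGraph.binomialRandom (Fin n) ⟨dens p j, ⟨hd0, hd1⟩⟩).real {K}
          * (if H.IsContained K then (1 : ℝ) else 0) := by
    simp only [mul_ite, mul_one, mul_zero]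
    haveI : MeasurableSingletonClass (SimpleGraph (Fin n)) := ⟨fun K => by
      have h : {K} = SimpleGraph.edgeSet ⁻¹' ({K.edgeSet} : Set (Set (Sym2 (Fin n)))) := by
        ext K'; simp [SimpleGraph.edgeSet_inj]
      rw [h]
      exact SimpleGraph.measurableEmbedding_edgeSet.measurable (measurableSet_singleton _)⟩
    rw [← Finset.sum_filter, MeasureTheory.sum_measureReal_singleton]
    congr 1
    ext K; simp
  rw [hpr, sum_graph_eq]
  have hcompl : ∑ W ∈ E.powerset, wt E (dens p j) W *
      (if ∃ g ∈ (univ : Finset G), g • hostEdges H ι ⊆ W then (1 : ℝ) else 0)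
      = 1 - fail E (dens p j) (univ : Finset G) (fun g => g • hostEdges H ι) := by
    rw [eq_sub_iff_add_eq, fail, ← Finset.sum_add_distrib]
    refine Eq.trans (Finset.sum_congr rfl fun W _ => ?_) (sum_wt E (dens p j))
    split_ifs <;> ring
  calc (1 / 2 : ℝ) ≤ 1 - fail E (dens p j) (univ : Finset G) (fun g => g • hostEdges H ι) := by
        linarith
    _ = _ := hcompl.symm
    _ ≤ _ := by
      refine Finset.sum_le_sum fun W _ => mul_le_mul_of_nonneg_left ?_ (wt_nonneg hd0 hd1 W)
      by_cases h : ∃ g ∈ (univ : Finset G), g • hostEdges H ι ⊆ W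
      · obtain ⟨g, -, hg⟩ := h
        have hc : H.IsContained (SimpleGraph.fromEdgeSet (W : Set (Sym2 (Fin n)))) :=
          ⟨⟨⟨fun a => g (ι a), fun {a b} hab => (SimpleGraph.fromEdgeSet_adj _).2
            ⟨hg (Finset.mem_smul_finset.2 ⟨_, mem_hostEdges.2 ⟨a, b, hab, rfl⟩, rfl⟩),
              fun hh => hab.ne (ι.injective (g.injective hh))⟩⟩,
            g.injective.comp ι.injective⟩⟩
        rw [if_pos hc]
        split_ifs <;> norm_num
      · rw [if_neg h]
        split_ifs <;> norm_num

end Vale.Agent.P064
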