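import Mathlib
import Vale.Agent.P064.Abstract
import Vale.Agent.P064.Threshold
import Vale.Agent.P064.Defs
import Vale.Agent.P064.Graph

/-!
Symmetric spread from the expectation hypothesis, with a loss linear in the maximum degree.
-/

open scoped Pointwise
open Finset

namespace Vale.Agent.P064

variable {n : ℕ}

attribute [local instance] pairAction

/-- vertices covered by a set of pairs -/
noncomputable def spanV (F : Finset (Sym2 (Fin n))) : Finset (Fin n) :=
  F.biUnion (fun u => univ.filter (fun x => x ∈ u))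

lemma mem_spanV {F : Finset (Sym2 (Fin n))} {x : Fin n} :
    x ∈ spanV F ↔ ∃ u ∈ F, x ∈ u := by
  simp [spanV]

lemma spanV_card_le (F : Finset (Sym2 (Fin n))) : (spanV F).card ≤ 2 * F.card := by
  classical
  refine (card_biUnion_le).trans ((Finset.sum_le_card_nsmul F _ 2 ?_).trans (le_of_eq ?_))
  · intro u _
    induction u using Sym2.ind with
    | _ a b =>
      calc #(univ.filter fun x => x ∈ s(a, b)) ≤ #({a, b} : Finset (Fin n)) := by
            apply card_le_card
            intro x hx
            simpa using hx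
        _ ≤ 2 := card_le_two
  · rw [smul_eq_mul, mul_comm]

lemma spanV_mono {F F' : Finset (Sym2 (Fin n))} (h : F ⊆ F') : spanV F ⊆ spanV F' :=
  Finset.biUnion_subset_biUnion_of_subset_left _ h

/-- restriction of a permutation to the covered vertices -/
def restr (F : Finset (Sym2 (Fin n))) (g : Equiv.Perm (Fin n)) : spanV F → Fin n :=
  fun x => g x

lemma smul_congr {F : Finset (Sym2 (Fin n))} {g g' : Equiv.Perm (Fin n)}
    (h : ∀ x ∈ spanV F, g x = g' x) : g • F = g' • F := by
  classical
  ext u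
  have key : ∀ w ∈ F, g • w = g' • w := by
    intro w hw
    induction w using Sym2.ind with
    | _ a b =>
      rw [pair_smul_mk, pair_smul_mk, h a (mem_spanV.2 ⟨_, hw, Sym2.mem_mk_left _ _⟩),
        h b (mem_spanV.2 ⟨_, hw, Sym2.mem_mk_right _ _⟩)]
  simp only [Finset.mem_smul_finset]
  exact exists_congr fun w => and_congr_right fun hw => by rw [key w hw]

/-- placements of the covered vertices that send every pattern edge into the host -/
noncomputable def places (Hf F : Finset (Sym2 (Fin n))) : Finset (spanV F → Fin n) := by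
  classical exact (univ.filter fun g : Equiv.Perm (Fin n) => g • F ⊆ Hf).image (restr F)

lemma mem_places {Hf F : Finset (Sym2 (Fin n))} {f : spanV F → Fin n} :
    f ∈ places Hf F ↔ ∃ g : Equiv.Perm (Fin n), g • F ⊆ Hf ∧ restr F g = f := by
  simp [places]

/-- the number of permutations with a prescribed restriction -/
lemma card_restr_fibre (F : Finset (Sym2 (Fin n))) (g₀ : Equiv.Perm (Fin n)) :
    #{g : Equiv.Perm (Fin n) | restr F g = restr F g₀} ≤ (n - (spanV F).card).factorial := by
  classical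
  let p : Fin n → Prop := fun x => x ∉ spanV F
  have hc : Fintype.card {σ : Equiv.Perm (Fin n) // ∀ x, ¬p x → σ x = x} =
      (n - (spanV F).card).factorial := by
    rw [← Fintype.card_congr (Equiv.Perm.subtypeEquivSubtypePerm p), Fintype.card_perm]
    congr 1
    rw [Fintype.card_subtype]
    simp [Finset.filter_not, Finset.card_sdiff, p]
  rw [← hc, Fintype.card_subtype]
  refine Finset.card_le_card_of_injOn (fun g => g₀⁻¹ * g) ?_ ?_
  · intro g hg
    simp only [coe_filter, mem_univ, true_and, Set.mem_ofPred_eq] at hg ⊢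
    intro x hx
    have := congrFun hg ⟨x, by simpa [p] using hx⟩
    simp only [restr] at this
    simp [this]
  · intro a _ b _ h
    exact mul_left_cancel h

lemma cnt_le_places (Hf F : Finset (Sym2 (Fin n))) :
    cnt (G := Equiv.Perm (Fin n)) Hf F ≤ (places Hf F).card * (n - (spanV F).card).factorial := by
  classical
  unfold cnt places
  rw [mul_comm]
  refine Finset.card_le_mul_card_image _ _ ?_
  intro f hf
  obtain ⟨g₀, _, rfl⟩ := mem_image.1 hf
  refine le_trans (card_le_card ?_) (card_restr_fibre F g₀)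
  intro g hg
  simp only [mem_filter, mem_univ, true_and] at hg ⊢
  exact hg.2

/-- pattern edges not yet inside `W` -/
noncomputable def openEdges (F : Finset (Sym2 (Fin n))) (W : Finset (Fin n)) :
    Finset (Sym2 (Fin n)) := by
  classical exact F.filter fun u => ∃ z ∈ u, z ∉ W

/-- every proper nonempty set of covered vertices has an edge leaving it -/
def Linked (F : Finset (Sym2 (Fin n))) : Prop :=
  ∀ W : Finset (Fin n), W ⊂ spanV F → W.Nonempty → ∃ x y, s(x, y) ∈ F ∧ x ∈ W ∧ y ∉ W

lemma extension_le (Hf F : Finset (Sym2 (Fin n))) (d : ℕ) (hd : 1 ≤ d)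
    (hdeg : ∀ a : Fin n, #{b : Fin n | s(a, b) ∈ Hf} ≤ d) (hF : Linked F) :
    ∀ (k : ℕ) (W : Finset (Fin n)) (π : Fin n → Fin n), W ⊆ spanV F → W.Nonempty →
      (spanV F \ W).card = k →
      #((places Hf F).filter fun f => ∀ x : spanV F, (x : Fin n) ∈ W → f x = π x) ≤
        d ^ (openEdges F W).card := by
  classical
  intro k
  induction k with
  | zero =>
    intro W π hW _ hk
    have hsub : spanV F ⊆ W := by
      rw [card_eq_zero, sdiff_eq_empty_iff_subset] at hk
      exact hk
    refine le_trans ?_ (Nat.one_le_pow _ _ hd)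
    rw [card_le_one]
    intro f hf f' hf'
    funext x
    rw [(mem_filter.1 hf).2 x (hsub x.2), (mem_filter.1 hf').2 x (hsub x.2)]
  | succ k ih =>
    intro W π hW hne hk
    have hlt : W ⊂ spanV F := by
      refine ⟨hW, fun h => ?_⟩
      rw [sdiff_eq_empty_iff_subset.2 h] at hk
      simp at hk
    obtain ⟨x, y, hxy, hx, hy⟩ := hF W hlt hne
    have hyV : y ∈ spanV F := mem_spanV.2 ⟨_, hxy, Sym2.mem_mk_right _ _⟩
    set S := (places Hf F).filter fun f => ∀ z : spanV F, (z : Fin n) ∈ W → f z = π z with hS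
    set N : Finset (Fin n) := univ.filter fun b => s(π x, b) ∈ Hf with hN
    have hmaps : ∀ f ∈ S, f ⟨y, hyV⟩ ∈ N := by
      intro f hf
      obtain ⟨hfp, hfW⟩ := mem_filter.1 hf
      obtain ⟨g, hg, rfl⟩ := mem_places.1 hfp
      have h := hg (Finset.smul_mem_smul_finset (a := g) hxy)
      rw [pair_smul_mk] at h
      have hgx := hfW ⟨x, hW hx⟩ hx
      simp only [restr] at hgx
      simp only [hN, mem_filter, mem_univ, true_and, restr]
      rwa [hgx] at h
    have hk' : (spanV F \ insert y W).card = k := by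
      rw [sdiff_insert, card_erase_of_mem (mem_sdiff.2 ⟨hyV, hy⟩), hk]
      simp
    have hfib : ∀ b ∈ N, #(S.filter fun f => f ⟨y, hyV⟩ = b) ≤
        d ^ (openEdges F (insert y W)).card := by
      intro b _
      refine le_trans (card_le_card ?_)
        (ih (insert y W) (Function.update π y b) (insert_subset hyV hW) (insert_nonempty _ _) hk')
      intro f hf
      obtain ⟨hfS, hfy⟩ := mem_filter.1 hf
      obtain ⟨hfp, hfW⟩ := mem_filter.1 hfS
      refine mem_filter.2 ⟨hfp, fun z hz => ?_⟩
      rcases mem_insert.1 hz with h | h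
      · have hz' : z = ⟨y, hyV⟩ := Subtype.ext h
        rw [hz', Function.update_self]
        exact hfy
      · rw [Function.update_of_ne (fun hh => hy (by rwa [← hh])), hfW z h]
    have hopen : (openEdges F (insert y W)).card + 1 ≤ (openEdges F W).card := by
      have hmem : s(x, y) ∈ openEdges F W := by
        simp only [openEdges, mem_filter]
        exact ⟨hxy, y, Sym2.mem_mk_right _ _, hy⟩
      have hnot : s(x, y) ∉ openEdges F (insert y W) := by
        simp [openEdges, hx]
      rw [← card_insert_of_notMem hnot]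
      apply card_le_card
      intro u hu
      rcases mem_insert.1 hu with rfl | hu
      · exact hmem
      · simp only [openEdges, mem_filter] at hu ⊢
        obtain ⟨huF, z, hz, hzW⟩ := hu
        exact ⟨huF, z, hz, fun h => hzW (mem_insert_of_mem h)⟩
    calc S.card = ∑ b ∈ N, #(S.filter fun f => f ⟨y, hyV⟩ = b) :=
          card_eq_sum_card_fiberwise hmaps
      _ ≤ N.card • d ^ (openEdges F (insert y W)).card := Finset.sum_le_card_nsmul _ _ _ hfib
      _ ≤ d * d ^ (openEdges F (insert y W)).card := by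
          rw [smul_eq_mul]; exact Nat.mul_le_mul_right _ (hdeg _)
      _ = d ^ ((openEdges F (insert y W)).card + 1) := by ring
      _ ≤ d ^ (openEdges F W).card := Nat.pow_le_pow_right hd hopen

/-- extend a placement to all vertices -/
noncomputable def extendMap (F : Finset (Sym2 (Fin n))) (f : spanV F → Fin n) : Fin n → Fin n :=
  fun x => if h : x ∈ spanV F then f ⟨x, h⟩ else x

lemma orbit_card_le (F : Finset (Sym2 (Fin n))) :
    (orbitF (G := Equiv.Perm (Fin n)) F).card ≤ n ^ (spanV F).card := by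
  classical
  have hsub : orbitF (G := Equiv.Perm (Fin n)) F ⊆
      (univ : Finset (spanV F → Fin n)).image fun f => F.image (Sym2.map (extendMap F f)) := by
    intro W hW
    obtain ⟨g, rfl⟩ := mem_orbitF.1 hW
    refine mem_image.2 ⟨restr F g, mem_univ _, ?_⟩
    rw [Finset.smul_finset_def]
    refine Finset.image_congr ?_
    intro u hu
    show Sym2.map (extendMap F (restr F g)) u = Sym2.map g u
    refine Sym2.map_congr ?_
    intro x hx
    have hxV : x ∈ spanV F := mem_spanV.2 ⟨u, hu, hx⟩
    simp [extendMap, restr, hxV]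
  refine (card_le_card hsub).trans (card_image_le.trans ?_)
  simp

lemma disjoint_family (q : ℝ) (hq : 0 < q) (Hf F : Finset (Sym2 (Fin n)))
    (hG : Good (Equiv.Perm (Fin n)) q Hf) (hF : F.Nonempty) :
    ∃ U : Finset (Sym2 (Fin n)),
      (U.card : ℝ) ≤ 6 * F.card * (n : ℝ) ^ (spanV F).card * q ^ F.card ∧
        ∀ g : Equiv.Perm (Fin n), g • F ⊆ Hf → ∃ u ∈ U, u ∈ g • F := by
  classical
  set O := orbitF (G := Equiv.Perm (Fin n)) F with hO
  set 𝒞 := O.filter (fun W => W ⊆ Hf) with h𝒞
  set Ps := 𝒞.powerset.filter (fun P : Finset (Finset (Sym2 (Fin n))) =>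
    Set.PairwiseDisjoint (↑P : Set (Finset (Sym2 (Fin n)))) id)
    with hPs
  obtain ⟨P, hP, hmax⟩ := Ps.exists_max_image (fun P => P.card) ⟨∅, by simp [hPs]⟩
  obtain ⟨hPsub, hPdis⟩ := mem_filter.1 hP
  rw [mem_powerset] at hPsub
  set U := P.biUnion id with hU
  have hcardF : ∀ W ∈ P, W.card = F.card := by
    intro W hW
    obtain ⟨g, rfl⟩ := mem_orbitF.1 (mem_filter.1 (hPsub hW)).1
    exact Finset.card_smul_finset _ _
  have hUcard : U.card = P.card * F.card := by
    rw [hU, card_biUnion hPdis]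
    exact (Finset.sum_congr rfl hcardF).trans (by rw [sum_const, smul_eq_mul])
  have hUH : U ⊆ Hf := by
    intro u hu
    obtain ⟨W, hW, huW⟩ := mem_biUnion.1 hu
    exact (mem_filter.1 (hPsub hW)).2 huW
  refine ⟨U, ?_, ?_⟩
  · rcases Nat.eq_zero_or_pos P.card with hj | hj
    · rw [hUcard, hj]
      simp only [zero_mul, Nat.cast_zero]
      positivity
    have horb : (orbitF (G := Equiv.Perm (Fin n)) U).card ≤ O.card.choose P.card := by
      rw [← card_powersetCard]
      refine le_trans (card_le_card (t := (O.powersetCard P.card).image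
        (fun Q => Q.biUnion id)) ?_) card_image_le
      intro W hW
      obtain ⟨g, rfl⟩ := mem_orbitF.1 hW
      refine mem_image.2 ⟨P.image (fun W => g • W), ?_, ?_⟩
      · refine mem_powersetCard.2 ⟨?_, card_image_of_injective _ (MulAction.injective g)⟩
        intro W hW
        obtain ⟨W', hW', rfl⟩ := mem_image.1 hW
        obtain ⟨g', rfl⟩ := mem_orbitF.1 (mem_filter.1 (hPsub hW')).1
        exact mem_orbitF.2 ⟨g * g', mul_smul _ _ _⟩
      · ext u
        simp only [mem_biUnion, mem_image, id_eq, hU, Finset.mem_smul_finset]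
        constructor
        · rintro ⟨_, ⟨W, hW, rfl⟩, hu⟩
          obtain ⟨w, hw, rfl⟩ := Finset.mem_smul_finset.1 hu
          exact ⟨w, ⟨W, hW, hw⟩, rfl⟩
        · rintro ⟨w, ⟨W, hW, hw⟩, rfl⟩
          exact ⟨g • W, ⟨W, hW, rfl⟩, Finset.smul_mem_smul_finset hw⟩
    have h1 := hG U hUH
    rw [hUcard, mul_comm P.card, pow_mul] at h1
    have hgood : (1 / 2 : ℝ) ≤ ((O.card.choose P.card : ℕ) : ℝ) * (q ^ F.card) ^ P.card := by
      refine h1.trans ?_
      gcongr
    set N := (O.card : ℝ) with hN
    set Q := q ^ F.card with hQ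
    have hQ0 : 0 < Q := by positivity
    have hN0 : 0 ≤ N := Nat.cast_nonneg _
    have hpow : (1 / 2 : ℝ) ≤ (3 * N / P.card * Q) ^ P.card := by
      refine hgood.trans ?_
      rw [mul_pow]
      gcongr
      exact choose_le_pow _ _ hj
    have hx : (1 / 2 : ℝ) ≤ 3 * N / P.card * Q := by
      by_contra h
      rw [not_le] at h
      have h0 : 0 ≤ 3 * N / P.card * Q := by positivity
      have := pow_le_of_le_one h0 (by linarith) hj.ne'
      linarith
    have hj' : (0 : ℝ) < P.card := by exact_mod_cast hj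
    have hP6 : (P.card : ℝ) ≤ 6 * N * Q := by
      rw [div_mul_eq_mul_div, le_div_iff₀ hj'] at hx
      linarith
    have hNn : N ≤ (n : ℝ) ^ (spanV F).card := by
      rw [hN]; exact_mod_cast orbit_card_le F
    rw [hUcard]
    push_cast
    calc (P.card : ℝ) * F.card ≤ 6 * N * Q * F.card := by gcongr
      _ ≤ 6 * (n : ℝ) ^ (spanV F).card * Q * F.card := by gcongr
      _ = _ := by rw [hQ]; ring
  · intro g hg
    by_contra hcon
    push Not at hcon
    have hgne : (g • F).Nonempty := hF.smul_finset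
    have hnotP : g • F ∉ P := by
      intro hmem
      obtain ⟨u, hu⟩ := hgne
      exact hcon u (mem_biUnion.2 ⟨_, hmem, hu⟩) hu
    have hins : insert (g • F) P ∈ Ps := by
      refine mem_filter.2 ⟨mem_powerset.2 (insert_subset ?_ hPsub), ?_⟩
      · exact mem_filter.2 ⟨mem_orbitF.2 ⟨g, rfl⟩, hg⟩
      · rw [coe_insert]
        refine hPdis.insert fun W hW _ => ?_
        simp only [id_eq, disjoint_left]
        intro u hu hu'
        exact hcon u (mem_biUnion.2 ⟨W, hW, hu'⟩) hu
    have := hmax _ hins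
    rw [card_insert_of_notMem hnotP] at this
    omega

lemma linked_places_le (q : ℝ) (hq : 0 < q) (Hf F : Finset (Sym2 (Fin n))) (d : ℕ) (hd : 1 ≤ d)
    (hdeg : ∀ a : Fin n, #{b : Fin n | s(a, b) ∈ Hf} ≤ d)
    (hG : Good (Equiv.Perm (Fin n)) q Hf) (hF : F.Nonempty) (hL : Linked F) :
    ((places Hf F).card : ℝ) ≤ (n : ℝ) ^ (spanV F).card * (48 * d * q) ^ F.card := by
  classical
  obtain ⟨U, hUc, hUmeet⟩ := disjoint_family q hq Hf F hG hF
  have key : ∀ u₀ ∈ F, ∀ u ∈ U,
      #((places Hf F).filter fun f => Sym2.map (extendMap F f) u₀ = u) ≤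
        2 * d ^ (F.card - 1) := by
    intro u₀ hu₀ u _
    induction u₀ using Sym2.ind with
    | _ x y =>
    induction u using Sym2.ind with
    | _ a b =>
      set W : Finset (Fin n) := {x, y} with hW
      have hWV : W ⊆ spanV F := by
        intro z hz
        simp only [hW, mem_insert, mem_singleton] at hz
        rcases hz with rfl | rfl
        · exact mem_spanV.2 ⟨_, hu₀, Sym2.mem_mk_left _ _⟩
        · exact mem_spanV.2 ⟨_, hu₀, Sym2.mem_mk_right _ _⟩
      have hopen : (openEdges F W).card ≤ F.card - 1 := by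
        rw [← card_erase_of_mem hu₀]
        apply card_le_card
        intro w hw
        simp only [openEdges, mem_filter] at hw
        obtain ⟨hwF, z, hz, hzW⟩ := hw
        refine mem_erase.2 ⟨?_, hwF⟩
        rintro rfl
        simp [hW] at hz hzW
        tauto
      let π₁ : Fin n → Fin n := fun z => if z = x then a else b
      let π₂ : Fin n → Fin n := fun z => if z = x then b else a
      have hb : ∀ π : Fin n → Fin n,
          #((places Hf F).filter fun f => ∀ z : spanV F, (z : Fin n) ∈ W → f z = π z) ≤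
            d ^ (F.card - 1) := fun π =>
        (extension_le Hf F d hd hdeg hL _ W π hWV (insert_nonempty _ _) rfl).trans
          (Nat.pow_le_pow_right hd hopen)
      refine le_trans (card_le_card ?_) ((card_union_le _ _).trans
        (le_of_le_of_eq (add_le_add (hb π₁) (hb π₂)) (by ring)))
      intro f hf
      obtain ⟨hfp, hfe⟩ := mem_filter.1 hf
      rw [Sym2.map_mk, Sym2.eq_iff] at hfe
      have hxV : x ∈ spanV F := hWV (mem_insert_self _ _)
      have hyV : y ∈ spanV F := hWV (mem_insert_of_mem (mem_singleton_self _))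
      simp only [extendMap, dif_pos hxV, dif_pos hyV] at hfe
      simp only [mem_union, mem_filter, hfp, true_and]
      rcases hfe with ⟨h1, h2⟩ | ⟨h1, h2⟩
      · left
        intro z hz
        by_cases hzx : (z : Fin n) = x
        · have : z = ⟨x, hxV⟩ := Subtype.ext hzx
          simp [π₁, this, h1]
        · have hzy : (z : Fin n) = y := by
            simpa [hW, hzx] using hz
          have : z = ⟨y, hyV⟩ := Subtype.ext hzy
          subst this
          simp only at hzx
          simp [π₁, hzx, h2]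
      · right
        intro z hz
        by_cases hzx : (z : Fin n) = x
        · have : z = ⟨x, hxV⟩ := Subtype.ext hzx
          simp [π₂, this, h1]
        · have hzy : (z : Fin n) = y := by
            simpa [hW, hzx] using hz
          have : z = ⟨y, hyV⟩ := Subtype.ext hzy
          subst this
          simp only at hzx
          simp [π₂, hzx, h2]
  have hcov : places Hf F ⊆ (F ×ˢ U).biUnion fun p =>
      (places Hf F).filter fun f => Sym2.map (extendMap F f) p.1 = p.2 := by
    intro f hf
    obtain ⟨g, hg, hgf⟩ := mem_places.1 hf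
    obtain ⟨u, huU, hug⟩ := hUmeet g hg
    obtain ⟨u₀, hu₀, hu₀u⟩ := Finset.mem_smul_finset.1 hug
    refine mem_biUnion.2 ⟨(u₀, u), mem_product.2 ⟨hu₀, huU⟩, mem_filter.2 ⟨hf, ?_⟩⟩
    show Sym2.map (extendMap F f) u₀ = u
    rw [← hu₀u, ← hgf]
    refine Sym2.map_congr ?_
    intro z hz
    simp [extendMap, restr, mem_spanV.2 ⟨u₀, hu₀, hz⟩]
  have hnat : (places Hf F).card ≤ F.card * U.card * (2 * d ^ (F.card - 1)) := by
    refine (card_le_card hcov).trans (card_biUnion_le.trans ?_)
    refine (Finset.sum_le_card_nsmul _ _ _ fun p hp => key p.1 (mem_product.1 hp).1 p.2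
      (mem_product.1 hp).2).trans ?_
    rw [smul_eq_mul, card_product]
  set t := F.card with ht
  have ht1 : 1 ≤ t := hF.card_pos
  have hnat' : ((places Hf F).card : ℝ) ≤ t * U.card * (2 * (d : ℝ) ^ (t - 1)) := by
    exact_mod_cast hnat
  have hd1 : (1 : ℝ) ≤ d := by exact_mod_cast hd
  have ht4 : 12 * (t : ℝ) ^ 2 ≤ 48 ^ t := by
    have h2 : (t : ℝ) ≤ 2 ^ t := by exact_mod_cast Nat.lt_two_pow_self.le
    calc 12 * (t : ℝ) ^ 2 ≤ 12 ^ t * ((2 : ℝ) ^ t) ^ 2 := by
          gcongr
          exact le_self_pow₀ (by norm_num) (by omega)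
      _ = 48 ^ t := by rw [← pow_mul, mul_comm t 2, pow_mul, ← mul_pow]; norm_num
  calc ((places Hf F).card : ℝ) ≤ t * U.card * (2 * (d : ℝ) ^ (t - 1)) := hnat'
    _ ≤ t * (6 * t * (n : ℝ) ^ (spanV F).card * q ^ t) * (2 * (d : ℝ) ^ t) := by
        gcongr
        omega
    _ = (n : ℝ) ^ (spanV F).card * ((12 * (t : ℝ) ^ 2) * (d : ℝ) ^ t * q ^ t) := by ring
    _ ≤ (n : ℝ) ^ (spanV F).card * (48 ^ t * (d : ℝ) ^ t * q ^ t) := by gcongr
    _ = _ := by rw [mul_pow, mul_pow]

lemma places_split (Hf F F₁ F₂ : Finset (Sym2 (Fin n))) (h₁ : F₁ ⊆ F) (h₂ : F₂ ⊆ F)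
    (hV : spanV F ⊆ spanV F₁ ∪ spanV F₂) :
    (places Hf F).card ≤ (places Hf F₁).card * (places Hf F₂).card := by
  classical
  rw [← card_product]
  refine Finset.card_le_card_of_injOn
    (fun f => (fun x : spanV F₁ => f ⟨x, spanV_mono h₁ x.2⟩,
      fun x : spanV F₂ => f ⟨x, spanV_mono h₂ x.2⟩)) ?_ ?_
  · intro f hf
    obtain ⟨g, hg, rfl⟩ := mem_places.1 (mem_coe.1 hf)
    refine mem_coe.2 (mem_product.2 ⟨mem_places.2 ⟨g, ?_, rfl⟩, mem_places.2 ⟨g, ?_, rfl⟩⟩)
    · exact (Finset.smul_finset_subset_smul_finset h₁).trans hg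
    · exact (Finset.smul_finset_subset_smul_finset h₂).trans hg
  · intro f _ f' _ h
    simp only [Prod.mk.injEq] at h
    funext x
    rcases mem_union.1 (hV x.2) with hx | hx
    · exact congrFun h.1 ⟨x, hx⟩
    · exact congrFun h.2 ⟨x, hx⟩

lemma places_le (q : ℝ) (hq : 0 < q) (Hf : Finset (Sym2 (Fin n))) (d : ℕ) (hd : 1 ≤ d)
    (hdeg : ∀ a : Fin n, #{b : Fin n | s(a, b) ∈ Hf} ≤ d)
    (hG : Good (Equiv.Perm (Fin n)) q Hf) (F : Finset (Sym2 (Fin n))) :
    ((places Hf F).card : ℝ) ≤ (n : ℝ) ^ (spanV F).card * (48 * d * q) ^ F.card := by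
  classical
  induction F using Finset.strongInduction with
  | _ F ih =>
  rcases F.eq_empty_or_nonempty with hF | hF
  · subst hF
    have : (spanV (∅ : Finset (Sym2 (Fin n)))) = ∅ := by simp [spanV]
    have h1 : (places Hf (∅ : Finset (Sym2 (Fin n)))).card ≤ 1 := by
      rw [card_le_one]
      intro f _ f' _
      funext x
      exact absurd x.2 (by simp [this])
    have h1' : ((places Hf (∅ : Finset (Sym2 (Fin n)))).card : ℝ) ≤ 1 := by exact_mod_cast h1
    simpa [this] using h1'
  by_cases hL : Linked F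
  · exact linked_places_le q hq Hf F d hd hdeg hG hF hL
  · unfold Linked at hL
    push Not at hL
    obtain ⟨W, hW, hWne, hcross⟩ := hL
    set F₁ := F.filter fun u => ∀ z ∈ u, z ∈ W with hF₁
    set F₂ := F.filter fun u => ¬ ∀ z ∈ u, z ∈ W with hF₂
    have hout : ∀ u ∈ F₂, ∀ z ∈ u, z ∉ W := by
      intro u hu z hz hzW
      obtain ⟨huF, hnot⟩ := mem_filter.1 hu
      apply hnot
      induction u using Sym2.ind with
      | _ x y =>
        intro w hw
        rw [Sym2.mem_iff] at hz hw
        rcases hz with rfl | rfl <;> rcases hw with rfl | rfl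
        · exact hzW
        · exact hcross _ _ huF hzW
        · exact hcross _ _ (by rw [Sym2.eq_swap]; exact huF) hzW
        · exact hzW
    have hdisj : Disjoint (spanV F₁) (spanV F₂) := by
      rw [disjoint_left]
      intro x hx hx'
      obtain ⟨u, hu, hxu⟩ := mem_spanV.1 hx
      obtain ⟨u', hu', hxu'⟩ := mem_spanV.1 hx'
      exact hout u' hu' x hxu' ((mem_filter.1 hu).2 x hxu)
    have hunion : spanV F₁ ∪ spanV F₂ = spanV F := by
      rw [spanV, spanV, spanV, ← Finset.union_biUnion, hF₁, hF₂, filter_union_filter_not_eq]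
    have hcard : F₁.card + F₂.card = F.card := by
      rw [hF₁, hF₂]; exact card_filter_add_card_filter_not _
    have hne₁ : F₁ ≠ F := by
      intro h
      obtain ⟨x, hxV, hxW⟩ := exists_of_ssubset hW
      obtain ⟨u, hu, hxu⟩ := mem_spanV.1 hxV
      rw [← h] at hu
      exact hxW ((mem_filter.1 hu).2 x hxu)
    have hne₂ : F₂ ≠ F := by
      intro h
      obtain ⟨x, hx⟩ := hWne
      obtain ⟨u, hu, hxu⟩ := mem_spanV.1 (hW.1 hx)
      exact hout u (by rw [h]; exact hu) x hxu hx
    have hs₁ : F₁ ⊂ F := (filter_subset _ _).ssubset_of_ne hne₁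
    have hs₂ : F₂ ⊂ F := (filter_subset _ _).ssubset_of_ne hne₂
    have hsplit := places_split Hf F F₁ F₂ hs₁.1 hs₂.1 (le_of_eq hunion.symm)
    have hsplit' : ((places Hf F).card : ℝ) ≤
        ((places Hf F₁).card : ℝ) * ((places Hf F₂).card : ℝ) := by exact_mod_cast hsplit
    calc ((places Hf F).card : ℝ)
        ≤ ((places Hf F₁).card : ℝ) * ((places Hf F₂).card : ℝ) := hsplit'
      _ ≤ ((n : ℝ) ^ (spanV F₁).card * (48 * d * q) ^ F₁.card) *
            ((n : ℝ) ^ (spanV F₂).card * (48 * d * q) ^ F₂.card) := by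
          gcongr
          · exact ih _ hs₁
          · exact ih _ hs₂
      _ = _ := by
          rw [← hunion, card_union_of_disjoint hdisj, ← hcard]
          ring

lemma pow_le_descFactorial (v : ℕ) (hv : v ≤ n) :
    n ^ v * v.factorial ≤ v ^ v * n.descFactorial v := by
  rw [← Nat.descFactorial_self v, Nat.descFactorial_eq_prod_range,
    Nat.descFactorial_eq_prod_range, show n ^ v = ∏ _i ∈ Finset.range v, n by simp,
    show v ^ v = ∏ _i ∈ Finset.range v, v by simp,
    ← Finset.prod_mul_distrib, ← Finset.prod_mul_distrib]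
  refine Finset.prod_le_prod' fun i _ => ?_
  rw [Nat.mul_sub, Nat.mul_sub, mul_comm n v]
  have : v * i ≤ n * i := Nat.mul_le_mul_right i hv
  omega

/-- the spread bound with loss linear in the maximum degree -/
theorem cnt_le_degree (q : ℝ) (hq : 0 < q) (Hf : Finset (Sym2 (Fin n))) (d : ℕ) (hd : 1 ≤ d)
    (hdeg : ∀ a : Fin n, #{b : Fin n | s(a, b) ∈ Hf} ≤ d)
    (hG : Good (Equiv.Perm (Fin n)) q Hf) (F : Finset (Sym2 (Fin n))) :
    (cnt (G := Equiv.Perm (Fin n)) Hf F : ℝ) ≤
      (Fintype.card (Equiv.Perm (Fin n)) : ℝ) * (432 * d * q) ^ F.card := by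
  classical
  set v := (spanV F).card with hv
  have hvn : v ≤ n := by
    simpa using card_le_univ (spanV F)
  have h1 : (cnt (G := Equiv.Perm (Fin n)) Hf F : ℝ) ≤
      ((places Hf F).card : ℝ) * ((n - v).factorial : ℝ) := by
    exact_mod_cast cnt_le_places Hf F
  have h2 := places_le q hq Hf d hd hdeg hG F
  have h3 : ((n : ℝ) ^ v) * ((n - v).factorial : ℝ) ≤ (9 : ℝ) ^ F.card * (n.factorial : ℝ) := by
    have ha : (n : ℝ) ^ v * (v.factorial : ℝ) ≤ (v : ℝ) ^ v * (n.descFactorial v : ℝ) := by
      exact_mod_cast pow_le_descFactorial v hvn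
    have hb : (v : ℝ) ^ v / (v.factorial : ℝ) ≤ Real.exp v :=
      Real.pow_div_factorial_le_exp _ (Nat.cast_nonneg v) v
    have hc : Real.exp (v : ℝ) ≤ (9 : ℝ) ^ F.card := by
      rw [show (v : ℝ) = (v : ℝ) * 1 by ring, Real.exp_nat_mul,
        show (9 : ℝ) = 3 ^ 2 by norm_num, ← pow_mul]
      refine le_trans (pow_le_pow_left₀ (Real.exp_pos 1).le Real.exp_one_lt_three.le v) ?_
      exact pow_le_pow_right₀ (by norm_num) (spanV_card_le F)
    have hd' : ((n - v).factorial : ℝ) * (n.descFactorial v : ℝ) = (n.factorial : ℝ) := by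
      exact_mod_cast Nat.factorial_mul_descFactorial hvn
    have hvf : (0 : ℝ) < (v.factorial : ℝ) := by exact_mod_cast v.factorial_pos
    calc (n : ℝ) ^ v * ((n - v).factorial : ℝ)
        ≤ ((v : ℝ) ^ v / (v.factorial : ℝ) * (n.descFactorial v : ℝ)) *
            ((n - v).factorial : ℝ) := by
          gcongr
          rw [div_mul_eq_mul_div, le_div_iff₀ hvf]
          exact ha
      _ = ((v : ℝ) ^ v / (v.factorial : ℝ)) * (n.factorial : ℝ) := by rw [← hd']; ring
      _ ≤ _ := by gcongr; exact hb.trans hc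
  have hcard : (Fintype.card (Equiv.Perm (Fin n)) : ℝ) = (n.factorial : ℝ) := by
    rw [Fintype.card_perm, Fintype.card_fin]
  rw [hcard]
  calc (cnt (G := Equiv.Perm (Fin n)) Hf F : ℝ)
      ≤ ((n : ℝ) ^ v * (48 * d * q) ^ F.card) * ((n - v).factorial : ℝ) :=
        h1.trans (mul_le_mul_of_nonneg_right h2 (Nat.cast_nonneg _))
    _ = ((n : ℝ) ^ v * ((n - v).factorial : ℝ)) * (48 * d * q) ^ F.card := by ring
    _ ≤ ((9 : ℝ) ^ F.card * (n.factorial : ℝ)) * (48 * d * q) ^ F.card :=
        mul_le_mul_of_nonneg_right h3 (by positivity)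
    _ = _ := by
        rw [show (432 : ℝ) * d * q = 9 * (48 * d * q) by ring, mul_pow (9 : ℝ) (48 * d * q)]
        ring

end Vale.Agent.P064
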