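import Mathlib
import Vale.Agent.P064.Abstract

/-!
Doubling bound.  Take `2^J` independent copies of `F` inside `H`, merged in a binary tree, and
describe the overlap at every node by a product code.  The cost of the code is linear in `|F|`
apart from the description of the band (dyadic marginal) of every element of a single copy.
-/

open scoped Pointwise
open Finset

namespace Vale.Agent.P064

universe u

/-- binary trees of depth `i` with labelled leaves -/
def Tup (L : Type u) : ℕ → Type u
  | 0 => L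
  | i + 1 => Tup L i × Tup L i

/-- trees of finite type form a finite type -/
@[instance_reducible]
def tupFintype (L : Type u) [Fintype L] : ∀ i, Fintype (Tup L i)
  | 0 => inferInstanceAs (Fintype L)
  | i + 1 =>
    haveI := tupFintype L i
    inferInstanceAs (Fintype (Tup L i × Tup L i))

/-- the success probability used at level `i` for an element of band `b` -/
noncomputable def bandP (i b : ℕ) : ℝ :=
  ((2 : ℝ) ^ i / 2 ^ b) / (1 + (2 : ℝ) ^ i / 2 ^ b)

lemma bandP_pos (i b : ℕ) : 0 < bandP i b := by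
  unfold bandP; positivity

lemma bandP_lt_one (i b : ℕ) : bandP i b < 1 := by
  unfold bandP
  rw [div_lt_one (by positivity)]
  linarith

lemma neg_log_bandP (i b : ℕ) :
    -Real.log (bandP i b) = Real.log (1 + 1 / ((2 : ℝ) ^ i / 2 ^ b)) := by
  unfold bandP
  rw [← Real.log_inv]
  congr 1
  field_simp
  ring

lemma neg_log_one_sub_bandP (i b : ℕ) :
    -Real.log (1 - bandP i b) = Real.log (1 + (2 : ℝ) ^ i / 2 ^ b) := by
  unfold bandP
  rw [← Real.log_inv]
  congr 1
  field_simp
  ring

section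

variable {G X : Type u} [Group G] [Fintype G] [DecidableEq X] [MulAction G X]
variable {ι : Type u} [Fintype ι]

attribute [local instance] tupFintype

variable (F : Finset X) (w : ι → ℝ) (bnd : ι → X → ℕ)

/-- union of the copies at the leaves -/
def tU : ∀ i, Tup (G × ι) i → Finset X
  | 0, A => A.1 • F
  | i + 1, A => tU i A.1 ∪ tU i A.2

/-- band of an element of the union -/
def tb : ∀ i, Tup (G × ι) i → X → ℕ
  | 0, A, x => bnd A.2 (A.1⁻¹ • x)
  | i + 1, A, x => if x ∈ tU F i A.1 then tb i A.1 x else tb i A.2 x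

/-- code of the part of `U` shared with `U'` -/
noncomputable def code (i : ℕ) (U : Finset X) (f : X → ℕ) (U' : Finset X) : ℝ :=
  ∏ x ∈ U, if x ∈ U' then bandP i (f x) else 1 - bandP i (f x)

/-- weight of a tree -/
noncomputable def tw : ∀ i, Tup (G × ι) i → ℝ
  | 0, A => w A.2
  | i + 1, A => tw i A.1 * tw i A.2 *
      code i (tU F i A.1) (tb F bnd i A.1) (tU F i A.2) *
      code i (tU F i A.2) (tb F bnd i A.2) (tU F i A.1)

/-- left translation of a tree -/
def tsmul (h : G) : ∀ i, Tup (G × ι) i → Tup (G × ι) i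
  | 0, A => (h * A.1, A.2)
  | i + 1, A => (tsmul h i A.1, tsmul h i A.2)

lemma code_nonneg (i : ℕ) (U : Finset X) (f : X → ℕ) (U' : Finset X) : 0 ≤ code i U f U' := by
  unfold code
  refine Finset.prod_nonneg fun x _ => ?_
  have := bandP_pos i (f x)
  have := bandP_lt_one i (f x)
  split_ifs <;> linarith

lemma code_pos (i : ℕ) (U : Finset X) (f : X → ℕ) (U' : Finset X) : 0 < code i U f U' := by
  unfold code
  refine Finset.prod_pos fun x _ => ?_
  have := bandP_pos i (f x)
  have := bandP_lt_one i (f x)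
  split_ifs <;> linarith

lemma code_sum (i : ℕ) (U : Finset X) (f : X → ℕ) :
    ∑ V ∈ U.powerset, code i U f V = 1 := by
  have h := Finset.prod_add (fun x => bandP i (f x)) (fun x => 1 - bandP i (f x)) U
  simp only [add_sub_cancel, Finset.prod_const_one] at h
  rw [h]
  refine Finset.sum_congr rfl fun V hV => ?_
  rw [mem_powerset] at hV
  unfold code
  rw [Finset.prod_ite, Finset.filter_mem_eq_inter, Finset.inter_eq_right.2 hV,
    Finset.filter_notMem_eq_sdiff]

lemma tw_nonneg (hw : ∀ a, 0 ≤ w a) : ∀ i (A : Tup (G × ι) i), 0 ≤ tw F w bnd i A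
  | 0, A => hw A.2
  | i + 1, A => by
    unfold tw
    exact mul_nonneg (mul_nonneg (mul_nonneg (tw_nonneg hw i A.1) (tw_nonneg hw i A.2))
      (code_nonneg _ _ _ _)) (code_nonneg _ _ _ _)

lemma tsmul_inv (h : G) : ∀ i (A : Tup (G × ι) i), tsmul h⁻¹ i (tsmul h i A) = A
  | 0, A => Prod.ext (inv_mul_cancel_left h A.1) rfl
  | i + 1, A => Prod.ext (tsmul_inv h i A.1) (tsmul_inv h i A.2)

/-- translation as a permutation of trees -/
def tsmulEquiv (h : G) (i : ℕ) : Tup (G × ι) i ≃ Tup (G × ι) i where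
  toFun := tsmul h i
  invFun := tsmul h⁻¹ i
  left_inv A := tsmul_inv h i A
  right_inv A := by simpa using tsmul_inv h⁻¹ i A

lemma tU_smul (h : G) : ∀ i (A : Tup (G × ι) i), tU F i (tsmul h i A) = h • tU F i A
  | 0, A => by simp [tU, tsmul, mul_smul]
  | i + 1, A => by
    simp only [tU, tsmul, Finset.smul_finset_union]
    rw [tU_smul h i A.1, tU_smul h i A.2]

lemma tb_smul (h : G) : ∀ i (A : Tup (G × ι) i) (x : X),
    tb F bnd i (tsmul h i A) (h • x) = tb F bnd i A x
  | 0, A, x => by simp [tb, tsmul, mul_smul]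
  | i + 1, A, x => by
    change (if h • x ∈ tU F i (tsmul h i A.1) then tb F bnd i (tsmul h i A.1) (h • x)
      else tb F bnd i (tsmul h i A.2) (h • x)) = if x ∈ tU F i A.1 then tb F bnd i A.1 x else tb F bnd i A.2 x
    rw [tU_smul F h i A.1, tb_smul h i A.1 x, tb_smul h i A.2 x]
    simp only [Finset.smul_mem_smul_finset_iff]

lemma code_smul (h : G) (i : ℕ) (U U' : Finset X) (f f' : X → ℕ)
    (hf : ∀ x, f' (h • x) = f x) :
    code i (h • U) f' (h • U') = code i U f U' := by
  unfold code
  rw [Finset.smul_finset_def, Finset.prod_image (fun a _ b _ hab => smul_left_cancel h hab)]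
  refine Finset.prod_congr rfl fun x _ => ?_
  rw [hf]
  simp [← Finset.smul_finset_def, Finset.smul_mem_smul_finset_iff]

lemma tw_smul (h : G) : ∀ i (A : Tup (G × ι) i), tw F w bnd i (tsmul h i A) = tw F w bnd i A
  | 0, A => rfl
  | i + 1, A => by
    simp only [tw, tsmul]
    rw [tw_smul h i A.1, tw_smul h i A.2, tU_smul, tU_smul,
      code_smul h i _ _ _ _ (tb_smul F bnd h i A.1), code_smul h i _ _ _ _ (tb_smul F bnd h i A.2)]

lemma code_congr (i : ℕ) (U : Finset X) (f : X → ℕ) (U' U'' : Finset X)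
    (h : U ∩ U' = U ∩ U'') : code i U f U' = code i U f U'' := by
  unfold code
  refine Finset.prod_congr rfl fun x hx => ?_
  have hiff : x ∈ U' ↔ x ∈ U'' := by
    have := Finset.ext_iff.1 h x
    simpa [hx] using this
  simp only [hiff]

/-- at most a `2 q^|V|` fraction of the group maps one set onto another set lying in `H` -/
lemma fibre_le (q : ℝ) (hq : 0 < q) (H : Finset X) (hH : Good G q H) (V V' : Finset X) (h₀ : G)
    (hV : h₀ • V ⊆ H) :
    (#{h : G | h • V' = V} : ℝ) ≤ 2 * q ^ V.card * (Fintype.card G : ℝ) := by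
  classical
  rcases (univ.filter fun h : G => h • V' = V).eq_empty_or_nonempty with he | ⟨a, ha⟩
  · rw [he]; simp; positivity
  simp only [mem_filter, mem_univ, true_and] at ha
  have horb : orbitF (G := G) (h₀ • V) ⊆ orbitF (G := G) V := by
    intro W hW
    obtain ⟨g, rfl⟩ := mem_orbitF.1 hW
    exact mem_orbitF.2 ⟨g * h₀, mul_smul _ _ _⟩
  have hcount : (orbitF (G := G) V).card * #{h : G | h • V' = V} ≤ Fintype.card G := by
    have h1 : ∀ W ∈ orbitF (G := G) V, #{h : G | h • V' = W} = #{h : G | h • V' = V} := by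
      intro W hW
      obtain ⟨b, rfl⟩ := mem_orbitF.1 hW
      refine Finset.card_equiv (Equiv.mulLeft b⁻¹) ?_
      intro g
      simp [mul_smul, inv_smul_eq_iff]
    calc (orbitF (G := G) V).card * #{h : G | h • V' = V}
        = ∑ W ∈ orbitF (G := G) V, #{h : G | h • V' = W} := by
          rw [Finset.sum_congr rfl h1, Finset.sum_const, smul_eq_mul]
      _ = #((univ : Finset G).filter fun h => h • V' ∈ orbitF (G := G) V) := by
          rw [Finset.card_eq_sum_card_fiberwise (f := fun h : G => h • V')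
            (t := orbitF (G := G) V) (fun h hh => by simpa using hh)]
          refine Finset.sum_congr rfl fun W hW => ?_
          rw [Finset.filter_filter]
          congr 1
          ext g
          simp only [mem_filter, mem_univ, true_and]
          exact ⟨fun h => ⟨h ▸ hW, h⟩, fun h => h.2⟩
      _ ≤ Fintype.card G := Finset.card_le_univ _
  have h3 := hH _ hV
  rw [Finset.card_smul_finset] at h3
  have h4 : ((orbitF (G := G) (h₀ • V)).card : ℝ) ≤ (orbitF (G := G) V).card := by
    exact_mod_cast card_le_card horb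
  have hqV : 0 < q ^ V.card := by positivity
  have h5 : ((orbitF (G := G) V).card : ℝ) * (#{h : G | h • V' = V} : ℝ) ≤ Fintype.card G := by
    exact_mod_cast hcount
  have h6 : (1 / 2 : ℝ) ≤ ((orbitF (G := G) V).card : ℝ) * q ^ V.card :=
    h3.trans (mul_le_mul_of_nonneg_right h4 hqV.le)
  calc (#{h : G | h • V' = V} : ℝ)
      ≤ 2 * (((orbitF (G := G) V).card : ℝ) * q ^ V.card) * (#{h : G | h • V' = V} : ℝ) :=
        le_mul_of_one_le_left (Nat.cast_nonneg _) (by linarith)
    _ = 2 * q ^ V.card * (((orbitF (G := G) V).card : ℝ) * (#{h : G | h • V' = V} : ℝ)) := by ring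
    _ ≤ _ := by gcongr

/-- weighted count of all trees with union inside a translate of `H` -/
noncomputable def tZ (q : ℝ) (H : Finset X) (i : ℕ) : ℝ := by
  classical exact
    ∑ A : Tup (G × ι) i, if ∃ h : G, h • tU F i A ⊆ H then q ^ (tU F i A).card * tw F w bnd i A else 0

lemma tZ_nonneg (hw : ∀ a, 0 ≤ w a) (q : ℝ) (hq : 0 < q) (H : Finset X) (i : ℕ) :
    0 ≤ tZ (G := G) F w bnd q H i := by
  classical
  unfold tZ
  refine Finset.sum_nonneg fun A _ => ?_
  have := tw_nonneg F w bnd hw i A
  split_ifs <;> positivity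

lemma pair_bound (q : ℝ) (hq : 0 < q) (H : Finset X) (hH : Good G q H) (i : ℕ)
    (U U' : Finset X) (f f' : X → ℕ) (h₀ : G) (hU : h₀ • U ⊆ H) :
    ∑ h : G, q ^ (U ∪ h • U').card * code i U f (h • U') * code i U' f' (h⁻¹ • U) ≤
      2 * (Fintype.card G : ℝ) * q ^ U.card * q ^ U'.card := by
  classical
  have hkey : ∀ h : G, q ^ (U ∪ h • U').card * code i U f (h • U') * code i U' f' (h⁻¹ • U) ≤
      ∑ P ∈ U.powerset ×ˢ U'.powerset, if h • P.2 = P.1 then
        q ^ U.card * q ^ U'.card / q ^ P.1.card * code i U f P.1 * code i U' f' P.2 else 0 := by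
    intro h
    refine le_trans (le_of_eq ?_) (Finset.single_le_sum (f := fun P : Finset X × Finset X =>
      if h • P.2 = P.1 then
        q ^ U.card * q ^ U'.card / q ^ P.1.card * code i U f P.1 * code i U' f' P.2 else 0)
      (fun P _ => ?_) (show (U ∩ h • U', U' ∩ h⁻¹ • U) ∈ U.powerset ×ˢ U'.powerset by simp))
    · have e1 : h • (U' ∩ h⁻¹ • U) = U ∩ h • U' := by
        rw [Finset.smul_finset_inter, smul_inv_smul, Finset.inter_comm]
      simp only [if_pos e1]
      rw [code_congr i U f (h • U') (U ∩ h • U') (by simp [← Finset.inter_assoc]),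
        code_congr i U' f' (h⁻¹ • U) (U' ∩ h⁻¹ • U) (by simp [← Finset.inter_assoc])]
      congr 2
      have hc := Finset.card_union_add_card_inter U (h • U')
      rw [Finset.card_smul_finset] at hc
      rw [eq_div_iff (by positivity), ← pow_add, ← pow_add, hc]
    · have := code_nonneg i U f P.1
      have := code_nonneg i U' f' P.2
      split_ifs <;> positivity
  calc _ ≤ ∑ h : G, ∑ P ∈ U.powerset ×ˢ U'.powerset, if h • P.2 = P.1 then
        q ^ U.card * q ^ U'.card / q ^ P.1.card * code i U f P.1 * code i U' f' P.2 else 0 :=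
        Finset.sum_le_sum fun h _ => hkey h
    _ = ∑ P ∈ U.powerset ×ˢ U'.powerset, (#{h : G | h • P.2 = P.1} : ℝ) *
        (q ^ U.card * q ^ U'.card / q ^ P.1.card * code i U f P.1 * code i U' f' P.2) := by
        rw [Finset.sum_comm]
        refine Finset.sum_congr rfl fun P _ => ?_
        rw [← Finset.sum_filter, Finset.sum_const, nsmul_eq_mul]
    _ ≤ ∑ P ∈ U.powerset ×ˢ U'.powerset, 2 * (Fintype.card G : ℝ) * q ^ U.card * q ^ U'.card *
        (code i U f P.1 * code i U' f' P.2) := by
        refine Finset.sum_le_sum fun P hP => ?_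
        simp only [mem_product, mem_powerset] at hP
        have h1 := fibre_le (G := G) q hq H hH P.1 P.2 h₀
          ((Finset.smul_finset_subset_smul_finset hP.1).trans hU)
        have := code_nonneg i U f P.1
        have := code_nonneg i U' f' P.2
        calc _ ≤ 2 * q ^ P.1.card * (Fintype.card G : ℝ) *
              (q ^ U.card * q ^ U'.card / q ^ P.1.card * code i U f P.1 * code i U' f' P.2) :=
              mul_le_mul_of_nonneg_right h1 (by positivity)
          _ = _ := by field_simp
    _ = _ := by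
        rw [← Finset.mul_sum, Finset.sum_product, ← Finset.sum_mul_sum, code_sum, code_sum]
        ring

lemma tZ_succ (hw : ∀ a, 0 ≤ w a) (q : ℝ) (hq : 0 < q) (H : Finset X) (hH : Good G q H)
    (i : ℕ) : tZ (G := G) F w bnd q H (i + 1) ≤ 2 * tZ (G := G) F w bnd q H i ^ 2 := by
  classical
  let ok : Finset X → Prop := fun U => ∃ h : G, h • U ⊆ H
  let φ : Tup (G × ι) i → Tup (G × ι) i → ℝ := fun A B =>
    if ok (tU F i A ∪ tU F i B) then q ^ (tU F i A ∪ tU F i B).card *
      (tw F w bnd i A * tw F w bnd i B *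
        code i (tU F i A) (tb F bnd i A) (tU F i B) *
        code i (tU F i B) (tb F bnd i B) (tU F i A)) else 0
  let g : Tup (G × ι) i → ℝ := fun A =>
    if ok (tU F i A) then q ^ (tU F i A).card * tw F w bnd i A else 0
  have hZ : tZ (G := G) F w bnd q H i = ∑ A, g A := rfl
  have hZ1 : tZ (G := G) F w bnd q H (i + 1) = ∑ A, ∑ B, φ A B :=
    Fintype.sum_prod_type (fun P : Tup (G × ι) i × Tup (G × ι) i => φ P.1 P.2)
  have hg0 : ∀ A, 0 ≤ g A := fun A => by
    have := tw_nonneg F w bnd hw i A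
    simp only [g]
    split_ifs <;> positivity
  have hpair : ∀ A B, ∑ h : G, φ A (tsmul h i B) ≤ (Fintype.card G : ℝ) * (2 * (g A * g B)) := by
    intro A B
    have hA := tw_nonneg F w bnd hw i A
    have hB := tw_nonneg F w bnd hw i B
    by_cases hok : ok (tU F i A) ∧ ok (tU F i B)
    · obtain ⟨h₀, hh₀⟩ := hok.1
      have e1 : ∀ h : G, φ A (tsmul h i B) ≤ tw F w bnd i A * tw F w bnd i B *
          (q ^ (tU F i A ∪ h • tU F i B).card * code i (tU F i A) (tb F bnd i A) (h • tU F i B) *
            code i (tU F i B) (tb F bnd i B) (h⁻¹ • tU F i A)) := by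
        intro h
        have hc := code_smul (G := G) h i (tU F i B) (h⁻¹ • tU F i A) (tb F bnd i B)
          (tb F bnd i (tsmul h i B)) (tb_smul F bnd h i B)
        rw [smul_inv_smul] at hc
        have := code_nonneg i (tU F i A) (tb F bnd i A) (h • tU F i B)
        have := code_nonneg i (tU F i B) (tb F bnd i B) (h⁻¹ • tU F i A)
        simp only [φ, tU_smul, tw_smul, hc]
        split_ifs
        · exact le_of_eq (by ring)
        · positivity
      calc _ ≤ _ := Finset.sum_le_sum fun h _ => e1 h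
        _ ≤ tw F w bnd i A * tw F w bnd i B * (2 * (Fintype.card G : ℝ) *
            q ^ (tU F i A).card * q ^ (tU F i B).card) := by
            rw [← Finset.mul_sum]
            exact mul_le_mul_of_nonneg_left
              (pair_bound q hq H hH i _ _ _ _ h₀ hh₀) (mul_nonneg hA hB)
        _ = _ := by simp only [g, if_pos hok.1, if_pos hok.2]; ring
    · have e1 : ∀ h : G, φ A (tsmul h i B) = 0 := by
        intro h
        simp only [φ, tU_smul]
        refine if_neg fun ⟨a, ha⟩ => hok ⟨⟨a, ?_⟩, ⟨a * h, ?_⟩⟩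
        · exact (Finset.smul_finset_subset_smul_finset subset_union_left).trans ha
        · rw [mul_smul]
          exact (Finset.smul_finset_subset_smul_finset subset_union_right).trans ha
      rw [Finset.sum_eq_zero fun h _ => e1 h]
      have := hg0 A
      have := hg0 B
      positivity
  have hN : (0 : ℝ) < Fintype.card G := by exact_mod_cast Fintype.card_pos
  refine le_of_mul_le_mul_left ?_ hN
  calc (Fintype.card G : ℝ) * tZ (G := G) F w bnd q H (i + 1)
      = ∑ A, (Fintype.card G : ℝ) * ∑ B, φ A B := by rw [hZ1, Finset.mul_sum]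
    _ = ∑ A, ∑ B, ∑ h : G, φ A (tsmul h i B) := by
        refine Finset.sum_congr rfl fun A _ => ?_
        rw [Finset.sum_comm]
        have : ∀ h : G, ∑ B, φ A (tsmul h i B) = ∑ B, φ A B := fun h =>
          Fintype.sum_equiv (tsmulEquiv h i) _ _ fun B => rfl
        rw [Finset.sum_congr rfl fun h _ => this h, Finset.sum_const, nsmul_eq_mul,
          Finset.card_univ]
    _ ≤ ∑ A, ∑ B, (Fintype.card G : ℝ) * (2 * (g A * g B)) :=
        Finset.sum_le_sum fun A _ => Finset.sum_le_sum fun B _ => hpair A B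
    _ = _ := by
        rw [hZ, sq, Finset.sum_mul_sum]
        simp only [Finset.mul_sum]

lemma tZ_zero (hw : ∀ a, 0 ≤ w a) (hw1 : ∑ a, w a ≤ 1) (q : ℝ) (hq : 0 < q) (H : Finset X) :
    tZ (G := G) F w bnd q H 0 ≤ (Fintype.card G : ℝ) * q ^ F.card := by
  classical
  calc tZ (G := G) F w bnd q H 0 ≤ ∑ A : G × ι, q ^ F.card * w A.2 := by
        unfold tZ
        refine Finset.sum_le_sum fun A _ => ?_
        have := hw A.2
        simp only [tU, tw, Finset.card_smul_finset]
        split_ifs
        · exact le_rfl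
        · positivity
    _ = (Fintype.card G : ℝ) * (q ^ F.card * ∑ a, w a) := by
        rw [Fintype.sum_prod_type]
        simp only [Finset.sum_const, Finset.card_univ, nsmul_eq_mul, ← Finset.mul_sum]
    _ ≤ _ := by
        gcongr
        exact mul_le_of_le_one_right (by positivity) hw1

lemma tZ_le (hw : ∀ a, 0 ≤ w a) (hw1 : ∑ a, w a ≤ 1) (q : ℝ) (hq : 0 < q) (H : Finset X)
    (hH : Good G q H) : ∀ i, 2 * tZ (G := G) F w bnd q H i ≤
      (2 * ((Fintype.card G : ℝ) * q ^ F.card)) ^ (2 ^ i)
  | 0 => by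
    rw [pow_zero, pow_one]
    linarith [tZ_zero (G := G) F w bnd hw hw1 q hq H]
  | i + 1 => by
    have h0 := tZ_nonneg (G := G) F w bnd hw q hq H i
    calc 2 * tZ (G := G) F w bnd q H (i + 1) ≤ (2 * tZ (G := G) F w bnd q H i) ^ 2 := by
          nlinarith [tZ_succ (G := G) F w bnd hw q hq H hH i]
      _ ≤ ((2 * ((Fintype.card G : ℝ) * q ^ F.card)) ^ (2 ^ i)) ^ 2 := by
          gcongr
          exact tZ_le hw hw1 q hq H hH i
      _ = _ := by rw [← pow_mul, pow_succ]

/-- genuine trees: every leaf is a copy inside `H`, labelled by its class -/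
noncomputable def tT (Ω : Finset G) (cl : G → ι) : ∀ i, Finset (Tup (G × ι) i)
  | 0 => Ω.map ⟨fun g => ((g, cl g) : G × ι), fun _ _ h => (Prod.ext_iff.1 h).1⟩
  | i + 1 => tT Ω cl i ×ˢ tT Ω cl i

lemma card_tT (Ω : Finset G) (cl : G → ι) :
    ∀ i, (tT Ω cl i).card = Ω.card ^ (2 ^ i)
  | 0 => by
    unfold tT
    rw [pow_zero, pow_one]
    exact card_map _
  | i + 1 => by
    unfold tT
    exact (card_product _ _).trans (by rw [card_tT Ω cl i, ← pow_add, pow_succ, mul_two])

lemma tT_subset (H : Finset X) (Ω : Finset G) (cl : G → ι) (hΩ : ∀ g ∈ Ω, g • F ⊆ H) :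
    ∀ i, ∀ A ∈ tT Ω cl i, tU F i A ⊆ H
  | 0, A, hA => by
    classical
    unfold tT at hA
    obtain ⟨g, hg, rfl⟩ := mem_map.1 hA
    exact hΩ g hg
  | i + 1, A, hA => by
    unfold tT at hA
    obtain ⟨h1, h2⟩ := mem_product.1 hA
    exact union_subset (tT_subset H Ω cl hΩ i _ h1) (tT_subset H Ω cl hΩ i _ h2)

lemma sum_tT_le (hw : ∀ a, 0 ≤ w a) (q : ℝ) (hq : 0 < q) (H : Finset X) (hH : Good G q H)
    (Ω : Finset G) (cl : G → ι) (hΩ : ∀ g ∈ Ω, g • F ⊆ H) (i : ℕ) :
    ∑ A ∈ tT Ω cl i, tw F w bnd i A ≤ 2 ^ (H.card + 1) * tZ (G := G) F w bnd q H i := by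
  classical
  have hW : ∀ W ∈ H.powerset,
      ∑ A ∈ tT Ω cl i with tU F i A = W, tw F w bnd i A ≤ 2 * tZ (G := G) F w bnd q H i := by
    intro W hW
    rw [mem_powerset] at hW
    let S : Finset X → ℝ := fun W' =>
      ∑ A : Tup (G × ι) i with tU F i A = W', tw F w bnd i A
    have hS0 : ∀ W', 0 ≤ S W' := fun W' => Finset.sum_nonneg fun A _ => tw_nonneg F w bnd hw i A
    have h1 : ∑ A ∈ tT Ω cl i with tU F i A = W, tw F w bnd i A ≤ S W :=
      Finset.sum_le_sum_of_subset_of_nonneg
        (Finset.filter_subset_filter _ (subset_univ _))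
        fun A _ _ => tw_nonneg F w bnd hw i A
    have h2 : ∀ W' ∈ orbitF (G := G) W, S W' = S W := by
      intro W' hW'
      obtain ⟨a, rfl⟩ := mem_orbitF.1 hW'
      refine Finset.sum_equiv (tsmulEquiv a i).symm (fun A => ?_) (fun A _ => ?_)
      · simp only [mem_filter, mem_univ, true_and]
        change tU F i A = a • W ↔ tU F i (tsmul a⁻¹ i A) = W
        rw [tU_smul, inv_smul_eq_iff]
      · exact (tw_smul F w bnd a⁻¹ i A).symm
    have h3 : ((orbitF (G := G) W).card : ℝ) * q ^ W.card * S W ≤ tZ (G := G) F w bnd q H i := by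
      calc _ = ∑ W' ∈ orbitF (G := G) W, q ^ W.card * S W' := by
            rw [Finset.sum_congr rfl fun W' hW' => by rw [h2 W' hW'], Finset.sum_const,
              nsmul_eq_mul, mul_assoc]
        _ = ∑ A : Tup (G × ι) i with tU F i A ∈ orbitF (G := G) W,
              q ^ W.card * tw F w bnd i A := by
            rw [← Finset.sum_fiberwise_of_maps_to (t := orbitF (G := G) W)
              (g := tU F i) (fun A hA => (mem_filter.1 hA).2)]
            refine Finset.sum_congr rfl fun W' hW' => ?_
            rw [Finset.filter_filter, Finset.mul_sum]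
            refine Finset.sum_congr ?_ fun A _ => rfl
            ext A
            simp only [mem_filter, mem_univ, true_and]
            exact ⟨fun h => ⟨h ▸ hW', h⟩, fun h => h.2⟩
        _ ≤ tZ (G := G) F w bnd q H i := by
            unfold tZ
            rw [Finset.sum_filter]
            refine Finset.sum_le_sum fun A _ => ?_
            have := tw_nonneg F w bnd hw i A
            split_ifs with hA hB hB
            · obtain ⟨a, ha⟩ := mem_orbitF.1 hA
              rw [← ha, Finset.card_smul_finset]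
            · obtain ⟨a, ha⟩ := mem_orbitF.1 hA
              exact absurd ⟨a⁻¹, by rw [← ha, inv_smul_smul]; exact hW⟩ hB
            · positivity
            · exact le_rfl
    have h4 := hH W hW
    nlinarith [hS0 W]
  calc _ = ∑ W ∈ H.powerset, ∑ A ∈ tT Ω cl i with tU F i A = W, tw F w bnd i A :=
        (Finset.sum_fiberwise_of_maps_to
          (fun A hA => mem_powerset.2 (tT_subset F H Ω cl hΩ i A hA)) _).symm
    _ ≤ ∑ _W ∈ H.powerset, 2 * tZ (G := G) F w bnd q H i := Finset.sum_le_sum hW
    _ = _ := by rw [Finset.sum_const, card_powerset, nsmul_eq_mul]; push_cast; ring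

/-- number of copies through `x` -/
noncomputable def hit (Ω : Finset G) (x : X) : ℕ := #{g ∈ Ω | x ∈ g • F}

lemma count_avoid (Ω : Finset G) (cl : G → ι) (x : X) :
    ∀ i, #{A ∈ tT Ω cl i | x ∉ tU F i A} = (Ω.card - hit F Ω x) ^ (2 ^ i)
  | 0 => by
    classical
    unfold tT hit
    refine (congrArg card Finset.filter_map).trans ((card_map _).trans ?_)
    rw [pow_zero, pow_one]
    simp only [Function.comp_def]
    change #{g ∈ Ω | x ∉ g • F} = _
    have := Finset.card_filter_add_card_filter_not (s := Ω) (fun g => x ∈ g • F)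
    omega
  | i + 1 => by
    classical
    unfold tT
    have : ((tT Ω cl i ×ˢ tT Ω cl i).filter fun A : Tup (G × ι) i × Tup (G × ι) i =>
        x ∉ tU F i A.1 ∪ tU F i A.2) =
        ((tT Ω cl i).filter fun A => x ∉ tU F i A) ×ˢ
          ((tT Ω cl i).filter fun A => x ∉ tU F i A) := by
      ext A
      simp only [mem_filter, mem_product, notMem_union]
      tauto
    refine (congrArg card this).trans ?_
    rw [card_product, count_avoid Ω cl x i, ← pow_add, pow_succ, mul_two]

lemma tb_true (Ω : Finset G) (cl : G → ι) (b : X → ℕ)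
    (hb : ∀ g ∈ Ω, ∀ f ∈ F, bnd (cl g) f = b (g • f)) :
    ∀ i, ∀ A ∈ tT Ω cl i, ∀ x ∈ tU F i A, tb F bnd i A x = b x
  | 0, A, hA, x, hx => by
    classical
    unfold tT at hA
    obtain ⟨g, hg, rfl⟩ := mem_map.1 hA
    obtain ⟨f, hf, rfl⟩ := Finset.mem_smul_finset.1 hx
    simp only [tb, inv_smul_smul]
    exact hb g hg f hf
  | i + 1, A, hA, x, hx => by
    unfold tT at hA
    obtain ⟨h1, h2⟩ := mem_product.1 hA
    change x ∈ tU F i A.1 ∪ tU F i A.2 at hx
    change (if x ∈ tU F i A.1 then tb F bnd i A.1 x else tb F bnd i A.2 x) = b x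
    split_ifs with h
    · exact tb_true Ω cl b hb i _ h1 x h
    · exact tb_true Ω cl b hb i _ h2 x ((mem_union.1 hx).resolve_left h)

/-- probability that one of `2 ^ i` copies passes through `x` -/
noncomputable def seen (Ω : Finset G) (x : X) (i : ℕ) : ℝ :=
  1 - (1 - (hit F Ω x : ℝ) / Ω.card) ^ (2 ^ i)

/-- expected code length at level `i` for `x` -/
noncomputable def lcost (Ω : Finset G) (b : X → ℕ) (x : X) (i : ℕ) : ℝ :=
  seen F Ω x i * (seen F Ω x i * -Real.log (bandP i (b x)) +
    (1 - seen F Ω x i) * -Real.log (1 - bandP i (b x)))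

lemma code_total (H : Finset X) (Ω : Finset G) (cl : G → ι) (hΩ : ∀ g ∈ Ω, g • F ⊆ H)
    (hne : Ω.Nonempty) (b : X → ℕ) (hb : ∀ g ∈ Ω, ∀ f ∈ F, bnd (cl g) f = b (g • f)) (i : ℕ) :
    ∑ A ∈ tT Ω cl i, ∑ B ∈ tT Ω cl i,
        -Real.log (code i (tU F i A) (tb F bnd i A) (tU F i B)) =
      ((Ω.card : ℝ) ^ (2 ^ i)) ^ 2 * ∑ x ∈ H, lcost F Ω b x i := by
  classical
  set T := tT Ω cl i with hT
  set lp : X → ℝ := fun x => -Real.log (bandP i (b x)) with hlp
  set lm : X → ℝ := fun x => -Real.log (1 - bandP i (b x)) with hlm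
  have h1 : ∀ A ∈ T, ∀ B ∈ T, -Real.log (code i (tU F i A) (tb F bnd i A) (tU F i B)) =
      ∑ x ∈ H, if x ∈ tU F i A then (if x ∈ tU F i B then lp x else lm x) else 0 := by
    intro A hA B _
    rw [Finset.sum_ite_mem, Finset.inter_eq_right.2 (tT_subset F H Ω cl hΩ i A hA)]
    unfold code
    rw [Real.log_prod, ← Finset.sum_neg_distrib]
    · refine Finset.sum_congr rfl fun x hx => ?_
      rw [tb_true F bnd Ω cl b hb i A hA x hx]
      split_ifs <;> rfl
    · intro x _
      have := bandP_pos i (tb F bnd i A x)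
      have := bandP_lt_one i (tb F bnd i A x)
      split_ifs <;> linarith
  rw [Finset.sum_congr rfl fun A hA => Finset.sum_congr rfl fun B hB => h1 A hA B hB]
  rw [Finset.sum_congr rfl fun A _ => Finset.sum_comm, Finset.sum_comm, Finset.mul_sum]
  refine Finset.sum_congr rfl fun x _ => ?_
  have hle : hit F Ω x ≤ Ω.card := card_filter_le _ _
  set c : ℝ := (Ω.card : ℝ) with hc
  have hc0 : 0 < c := by rw [hc]; exact_mod_cast hne.card_pos
  have hTc : (T.card : ℝ) = c ^ (2 ^ i) := by rw [hT, card_tT, hc]; push_cast; ring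
  have hout : ((#{A ∈ T | x ∉ tU F i A} : ℕ) : ℝ) = c ^ (2 ^ i) * (1 - seen F Ω x i) := by
    rw [hT, count_avoid F Ω cl x i, seen, sub_sub_cancel, ← mul_pow]
    push_cast [Nat.cast_sub hle]
    rw [mul_sub, mul_one, ← hc, mul_div_cancel₀ _ hc0.ne']
  have hin : ((#{A ∈ T | x ∈ tU F i A} : ℕ) : ℝ) = c ^ (2 ^ i) * seen F Ω x i := by
    have := Finset.card_filter_add_card_filter_not (s := T) (fun A => x ∈ tU F i A)
    have h' : ((#{A ∈ T | x ∈ tU F i A} : ℕ) : ℝ) + (#{A ∈ T | x ∉ tU F i A} : ℕ) = T.card := by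
      exact_mod_cast this
    rw [hout, hTc] at h'
    linarith
  calc ∑ A ∈ T, ∑ B ∈ T, (if x ∈ tU F i A then (if x ∈ tU F i B then lp x else lm x) else 0)
      = ∑ A ∈ T with x ∈ tU F i A, ∑ B ∈ T, (if x ∈ tU F i B then lp x else lm x) := by
        rw [Finset.sum_filter]
        refine Finset.sum_congr rfl fun A _ => ?_
        split_ifs with h <;> simp
    _ = c ^ (2 ^ i) * seen F Ω x i * (c ^ (2 ^ i) * seen F Ω x i * lp x +
          c ^ (2 ^ i) * (1 - seen F Ω x i) * lm x) := by
        rw [Finset.sum_ite, Finset.sum_const, Finset.sum_const, Finset.sum_const, nsmul_eq_mul,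
          nsmul_eq_mul, nsmul_eq_mul, hin, hout]
    _ = _ := by unfold lcost; simp only [hlp, hlm]; ring

lemma avg_cost (hwpos : ∀ a, 0 < w a) (H : Finset X) (Ω : Finset G) (cl : G → ι)
    (hΩ : ∀ g ∈ Ω, g • F ⊆ H) (hne : Ω.Nonempty) (b : X → ℕ)
    (hb : ∀ g ∈ Ω, ∀ f ∈ F, bnd (cl g) f = b (g • f)) :
    ∀ i, ∑ A ∈ tT Ω cl i, -Real.log (tw F w bnd i A) =
      (Ω.card : ℝ) ^ (2 ^ i) * (2 ^ i * ((∑ g ∈ Ω, -Real.log (w (cl g))) / Ω.card +
        ∑ x ∈ H, ∑ l ∈ range i, lcost F Ω b x l / 2 ^ l))
  | 0 => by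
    classical
    have hc0 : (Ω.card : ℝ) ≠ 0 := by exact_mod_cast hne.card_pos.ne'
    unfold tT
    refine (Finset.sum_map _ _ _).trans ?_
    simp [tw]
    field_simp
    rfl
  | i + 1 => by
    classical
    set T := tT Ω cl i with hT
    set c : ℝ := (Ω.card : ℝ) with hc
    have hTc : (T.card : ℝ) = c ^ (2 ^ i) := by rw [hT, card_tT, hc]; push_cast; ring
    have hpos : ∀ A : Tup (G × ι) i, 0 < tw F w bnd i A := tw_pos F w bnd hwpos i
    have h1 : ∀ A B : Tup (G × ι) i, -Real.log (tw F w bnd (i + 1) (A, B)) =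
        -Real.log (tw F w bnd i A) + -Real.log (tw F w bnd i B) +
        -Real.log (code i (tU F i A) (tb F bnd i A) (tU F i B)) +
        -Real.log (code i (tU F i B) (tb F bnd i B) (tU F i A)) := by
      intro A B
      have := hpos A
      have := hpos B
      have := code_pos i (tU F i A) (tb F bnd i A) (tU F i B)
      have := code_pos i (tU F i B) (tb F bnd i B) (tU F i A)
      change -Real.log (tw F w bnd i A * tw F w bnd i B * _ * _) = _
      rw [Real.log_mul (by positivity) (by positivity), Real.log_mul (by positivity) (by positivity),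
        Real.log_mul (by positivity) (by positivity)]
      ring
    have hsum : ∑ A ∈ tT Ω cl (i + 1), -Real.log (tw F w bnd (i + 1) A) =
        ∑ A ∈ T, ∑ B ∈ T, -Real.log (tw F w bnd (i + 1) (A, B)) := Finset.sum_product _ _ _
    have hct := code_total F bnd H Ω cl hΩ hne b hb i
    have hct' : ∑ A ∈ T, ∑ B ∈ T, -Real.log (code i (tU F i B) (tb F bnd i B) (tU F i A)) =
        (c ^ (2 ^ i)) ^ 2 * ∑ x ∈ H, lcost F Ω b x i := by
      rw [Finset.sum_comm]
      exact hct
    have hih := avg_cost hwpos H Ω cl hΩ hne b hb i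
    rw [hsum]
    simp only [h1, Finset.sum_add_distrib, Finset.sum_const, nsmul_eq_mul]
    rw [hct, hct', ← Finset.mul_sum, hTc, hih]
    simp only [Finset.sum_range_succ, Finset.sum_add_distrib, pow_succ]
    rw [← Finset.sum_div, mul_two, pow_add]
    simp only [← hc]
    generalize ∑ x ∈ H, ∑ l ∈ range i, lcost F Ω b x l / 2 ^ l = K
    generalize ∑ x ∈ H, lcost F Ω b x i = L
    generalize (∑ g ∈ Ω, -Real.log (w (cl g))) / c = M
    field_simp
    ring
where
  tw_pos (F : Finset X) (w : ι → ℝ) (bnd : ι → X → ℕ) (hwpos : ∀ a, 0 < w a) :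
      ∀ i (A : Tup (G × ι) i), 0 < tw F w bnd i A
    | 0, A => hwpos A.2
    | i + 1, A => mul_pos (mul_pos (mul_pos (tw_pos F w bnd hwpos i A.1)
        (tw_pos F w bnd hwpos i A.2)) (code_pos _ _ _ _)) (code_pos _ _ _ _)

end

lemma log_one_add_le_sqrt {z : ℝ} (hz : 0 ≤ z) : Real.log (1 + z) ≤ Real.sqrt z := by
  rw [Real.log_le_iff_le_exp (by linarith)]
  have hs := Real.mul_self_sqrt hz
  have h0 := Real.sqrt_nonneg z
  have h1 := Real.quadratic_le_exp_of_nonneg h0
  have h2 := Real.add_one_le_exp (Real.sqrt z)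
  have h3 : Real.exp (Real.sqrt z) = Real.exp (Real.sqrt z / 2) * Real.exp (Real.sqrt z / 2) := by
    rw [← Real.exp_add]; ring_nf
  have h4 := Real.quadratic_le_exp_of_nonneg (by positivity : 0 ≤ Real.sqrt z / 2)
  have h5 := Real.pow_div_factorial_le_exp (Real.sqrt z) h0 4
  nlinarith [sq_nonneg (Real.sqrt z - 2)]

/-- the scalar estimate behind the linearity of the code -/
lemma band_cost (J : ℕ) (m : ℝ) (hm0 : 0 ≤ m) (hm1 : m ≤ 1) (b : ℕ) (hbJ : b ≤ J)
    (hb1 : m * 2 ^ b ≤ 1) (hb2 : b < J → 1 < m * 2 ^ (b + 1)) :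
    ∑ i ∈ range J, ((1 - (1 - m) ^ (2 ^ i)) * ((1 - (1 - m) ^ (2 ^ i)) * -Real.log (bandP i b) +
      (1 - (1 - (1 - m) ^ (2 ^ i))) * -Real.log (1 - bandP i b))) / 2 ^ i ≤ 20 * m := by
  set π : ℕ → ℝ := fun i => 1 - (1 - m) ^ (2 ^ i) with hπ
  have hπ0 : ∀ i, 0 ≤ π i := fun i => by
    have := pow_le_one₀ (n := 2 ^ i) (by linarith : 0 ≤ 1 - m) (by linarith)
    simp only [hπ]; linarith
  have hπ1 : ∀ i, π i ≤ 1 := fun i => by
    have := pow_nonneg (by linarith : 0 ≤ 1 - m) (2 ^ i)
    simp only [hπ]; linarith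
  have hπm : ∀ i, π i ≤ 2 ^ i * m := fun i => by
    have := one_add_mul_le_pow (show (-2 : ℝ) ≤ -m by linarith) (2 ^ i)
    rw [show (1 : ℝ) + -m = 1 - m by ring] at this
    simp only [hπ]
    push_cast at this
    linarith
  have hπc : ∀ i, (1 - π i) * (1 + 2 ^ i * m) ≤ 1 := fun i => by
    have h := one_add_mul_le_pow (show (-2 : ℝ) ≤ m by linarith) (2 ^ i)
    push_cast at h
    have h0 := pow_nonneg (by linarith : 0 ≤ 1 - m) (2 ^ i)
    have h1 : (1 - m) ^ (2 ^ i) * (1 + m) ^ (2 ^ i) ≤ 1 := by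
      rw [← mul_pow]
      exact pow_le_one₀ (by nlinarith) (by nlinarith)
    simp only [hπ, sub_sub_cancel]
    exact le_trans (mul_le_mul_of_nonneg_left h h0) h1
  set s : ℕ → ℝ := fun i => (2 : ℝ) ^ i / 2 ^ b with hs
  have hs0 : ∀ i, 0 < s i := fun i => by simp only [hs]; positivity
  set C : ℕ → ℝ := fun i =>
    π i * (π i * Real.log (1 + 1 / s i) + (1 - π i) * Real.log (1 + s i)) with hC
  have hCeq : ∀ i, (π i * (π i * -Real.log (bandP i b) +
      (1 - π i) * -Real.log (1 - bandP i b))) = C i := fun i => by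
    simp only [hC, hs, neg_log_bandP, neg_log_one_sub_bandP]
  change ∑ i ∈ range J, (π i * (π i * -Real.log (bandP i b) +
      (1 - π i) * -Real.log (1 - bandP i b))) / 2 ^ i ≤ 20 * m
  simp only [hCeq]
  rw [← Finset.sum_range_add_sum_Ico _ hbJ]
  have hA : ∑ i ∈ range b, C i / 2 ^ i ≤ 8 * m := by
    have h1 : ∀ i ∈ range b, C i / 2 ^ i ≤ 2 * m * (3 / 4) ^ (b - i) := by
      intro i hi
      rw [Finset.mem_range] at hi
      have hsq := Real.sqrt_nonneg (s i)
      have hss : Real.sqrt (s i) * Real.sqrt (s i) = s i := Real.mul_self_sqrt (hs0 i).le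
      have hsq0 : 0 < Real.sqrt (s i) := Real.sqrt_pos.2 (hs0 i)
      have ha : π i * Real.log (1 + 1 / s i) ≤ Real.sqrt (s i) := by
        have h := log_one_add_le_sqrt (z := 1 / s i) (by have := hs0 i; positivity)
        rw [one_div, Real.sqrt_inv] at h
        rw [one_div]
        have hsm : 2 ^ i * m ≤ s i := by
          simp only [hs]
          rw [le_div_iff₀ (by positivity), mul_assoc]
          exact mul_le_of_le_one_right (by positivity) hb1
        calc _ ≤ s i * (Real.sqrt (s i))⁻¹ :=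
              mul_le_mul ((hπm i).trans hsm) h (Real.log_nonneg (by
                have := hs0 i; have : 0 < (s i)⁻¹ := inv_pos.2 this; linarith)) (hs0 i).le
          _ = _ := by field_simp; linarith
      have hb' : (1 - π i) * Real.log (1 + s i) ≤ Real.sqrt (s i) :=
        le_trans (mul_le_of_le_one_left (Real.log_nonneg (by linarith [hs0 i]))
          (by linarith [hπ0 i])) (log_one_add_le_sqrt (hs0 i).le)
      have hc : Real.sqrt (s i) ≤ (3 / 4) ^ (b - i) := by
        rw [Real.sqrt_le_left (by positivity), ← pow_mul, mul_comm (b - i) 2, pow_mul]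
        have e : s i = (1 / 2 : ℝ) ^ (b - i) := by
          simp only [hs]
          rw [show (2 : ℝ) ^ b = 2 ^ i * 2 ^ (b - i) by rw [← pow_add]; congr 1; omega,
            div_mul_eq_div_div, div_self (by positivity), div_pow, one_pow]
        rw [e]
        exact pow_le_pow_left₀ (by norm_num) (by norm_num) _
      rw [div_le_iff₀ (by positivity)]
      calc C i ≤ π i * (2 * (3 / 4) ^ (b - i)) :=
            mul_le_mul_of_nonneg_left (by linarith) (hπ0 i)
        _ ≤ 2 ^ i * m * (2 * (3 / 4) ^ (b - i)) :=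
            mul_le_mul_of_nonneg_right (hπm i) (by positivity)
        _ = _ := by ring
    refine (Finset.sum_le_sum h1).trans ?_
    rw [← Finset.mul_sum]
    have h2 : ∀ c : ℕ, ∑ i ∈ range c, (3 / 4 : ℝ) ^ (c - i) ≤ 4 := by
      intro c
      induction c with
      | zero => simp
      | succ c ih =>
        rw [Finset.sum_range_succ, Finset.sum_congr rfl fun i hi => by
          rw [show c + 1 - i = (c - i) + 1 by have := Finset.mem_range.1 hi; omega, pow_succ],
          ← Finset.sum_mul, show c + 1 - c = 1 by omega, pow_one]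
        linarith
    nlinarith [h2 b]
  have hB : ∑ i ∈ Finset.Ico b J, C i / 2 ^ i ≤ 12 * m := by
    rcases hbJ.eq_or_lt with h | hlt
    · subst h; simp; linarith
    have hm2 := hb2 hlt
    have h1 : ∀ i ∈ Finset.Ico b J, C i / 2 ^ i ≤ 3 / 2 ^ i := by
      intro i hi
      have hbi := (Finset.mem_Ico.1 hi).1
      have hs1 : 1 ≤ s i := by
        simp only [hs]
        rw [one_le_div (by positivity)]
        exact pow_le_pow_right₀ (by norm_num) hbi
      have h1s : 1 / s i ≤ 1 := by rw [div_le_one (hs0 i)]; exact hs1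
      have ha : π i * Real.log (1 + 1 / s i) ≤ 1 := by
        have hl := Real.log_le_sub_one_of_pos (show 0 < 1 + 1 / s i by
          have := hs0 i; positivity)
        refine le_trans (mul_le_of_le_one_left (Real.log_nonneg ?_) (hπ1 i)) (by linarith)
        have : 0 ≤ 1 / s i := by have := hs0 i; positivity
        linarith
      have hb' : (1 - π i) * Real.log (1 + s i) ≤ 2 := by
        have hl := Real.log_le_sub_one_of_pos (show 0 < 1 + s i by linarith)
        have hk : s i ≤ 2 * (2 ^ i * m) := by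
          simp only [hs]
          rw [div_le_iff₀ (by positivity)]
          rw [pow_succ] at hm2
          nlinarith [pow_pos (show (0 : ℝ) < 2 by norm_num) i]
        calc _ ≤ (1 - π i) * (2 * (2 ^ i * m)) :=
              mul_le_mul_of_nonneg_left (by linarith) (by linarith [hπ1 i])
          _ ≤ 2 := by nlinarith [hπc i, hπ1 i]
      gcongr
      exact le_trans (mul_le_of_le_one_left (add_nonneg (mul_nonneg (hπ0 i) (Real.log_nonneg (by
        have : 0 ≤ 1 / s i := by have := hs0 i; positivity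
        linarith))) (mul_nonneg (by linarith [hπ1 i]) (Real.log_nonneg (by linarith)))) (hπ1 i))
        (by linarith)
    refine (Finset.sum_le_sum h1).trans ?_
    have h2 : ∀ c, b ≤ c → ∑ i ∈ Finset.Ico b c, (3 : ℝ) / 2 ^ i ≤ 6 / 2 ^ b - 6 / 2 ^ c := by
      intro c hc
      induction c, hc using Nat.le_induction with
      | base => simp
      | succ c hc ih =>
        rw [Finset.sum_Ico_succ_top hc, pow_succ]
        have : (6 : ℝ) / (2 ^ c * 2) = 3 / 2 ^ c := by ring
        rw [this]
        have : (6 : ℝ) / 2 ^ c = 2 * (3 / 2 ^ c) := by ring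
        linarith
    have h6 : (6 : ℝ) / 2 ^ b ≤ 12 * m := by
      rw [div_le_iff₀ (by positivity)]
      rw [pow_succ] at hm2
      nlinarith
    have : (0 : ℝ) ≤ 6 / 2 ^ J := by positivity
    linarith [h2 J hbJ]
  linarith

lemma sum_log_le {α : Type*} (s : Finset α) (hs : s.Nonempty) (f : α → ℝ)
    (hf : ∀ a ∈ s, 0 < f a) :
    (s.card : ℝ) * Real.log s.card ≤
      (s.card : ℝ) * Real.log (∑ a ∈ s, f a) + ∑ a ∈ s, -Real.log (f a) := by
  set S := ∑ a ∈ s, f a with hS
  have hS0 : 0 < S := Finset.sum_pos hf hs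
  have hc : (0 : ℝ) < s.card := by exact_mod_cast hs.card_pos
  have h : ∀ a ∈ s, Real.log (f a) ≤ f a * s.card / S - 1 + (Real.log S - Real.log s.card) := by
    intro a ha
    have := hf a ha
    have h1 := Real.log_le_sub_one_of_pos (show 0 < f a * s.card / S by positivity)
    rw [Real.log_div (by positivity) (by positivity), Real.log_mul (by positivity) (by positivity)]
      at h1
    linarith
  have h2 := Finset.sum_le_sum h
  rw [Finset.sum_add_distrib, Finset.sum_sub_distrib, ← Finset.sum_div, ← Finset.sum_mul, ← hS,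
    Finset.sum_const, Finset.sum_const, nsmul_eq_mul, nsmul_eq_mul, mul_one,
    mul_div_assoc, mul_comm S, div_mul_cancel₀ _ hS0.ne'] at h2
  rw [Finset.sum_neg_distrib]
  linarith

/-- dyadic band of a marginal -/
noncomputable def bandOf (J : ℕ) (m : ℝ) : ℕ := by
  classical exact Nat.findGreatest (fun b => m * 2 ^ b ≤ 1) J

/-- the constant of the doubling bound -/
noncomputable def Ceng : ℝ := 4 * Real.exp 20

section

variable {G X : Type u} [Group G] [Fintype G] [DecidableEq X] [MulAction G X]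
variable {ι : Type u} [Fintype ι]

/-- marginal of `x` among the copies of `F` inside `H` -/
noncomputable def marg (H F : Finset X) (x : X) : ℝ :=
  (hit F (univ.filter fun g : G => g • F ⊆ H) x : ℝ) / cnt (G := G) H F

/-- the band used for `x` -/
noncomputable def band (H F : Finset X) (x : X) : ℕ :=
  bandOf H.card.size (marg (G := G) H F x)

/-- The doubling bound: copies of `F` inside `H` are at most `(C q)^|F|` times the description
length of their band vectors. -/
theorem cnt_le_code (q : ℝ) (hq : 0 < q) (H F : Finset X) (hF : F.Nonempty) (hH : Good G q H)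
    (w : ι → ℝ) (hwpos : ∀ a, 0 < w a) (hw1 : ∑ a, w a ≤ 1) (bnd : ι → X → ℕ) (cl : G → ι)
    (hcl : ∀ g : G, g • F ⊆ H → ∀ f ∈ F, bnd (cl g) f = band (G := G) H F (g • f))
    (hne : 0 < cnt (G := G) H F) :
    (cnt (G := G) H F : ℝ) ≤ (Fintype.card G : ℝ) * (Ceng * q) ^ F.card *
      Real.exp ((∑ g : G with g • F ⊆ H, -Real.log (w (cl g))) / cnt (G := G) H F) := by
  classical
  set Ω : Finset G := univ.filter fun g => g • F ⊆ H with hΩdef
  have hΩ : ∀ g ∈ Ω, g • F ⊆ H := fun g hg => (mem_filter.1 hg).2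
  have hΩne : Ω.Nonempty := card_pos.1 hne
  set c : ℝ := (Ω.card : ℝ) with hc
  have hc0 : 0 < c := by rw [hc]; exact_mod_cast hΩne.card_pos
  have hcnt : (cnt (G := G) H F : ℝ) = c := rfl
  set J := H.card.size with hJ
  have hw0 : ∀ a, 0 ≤ w a := fun a => (hwpos a).le
  have hb : ∀ g ∈ Ω, ∀ f ∈ F, bnd (cl g) f = band (G := G) H F (g • f) := fun g hg =>
    hcl g (hΩ g hg)
  have hcost := avg_cost F w bnd hwpos H Ω cl hΩ hΩne (band (G := G) H F) hb J
  set M : ℝ := (∑ g ∈ Ω, -Real.log (w (cl g))) / c with hM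
  have hlin : ∑ x ∈ H, ∑ l ∈ range J, lcost F Ω (band (G := G) H F) x l / 2 ^ l ≤
      20 * F.card := by
    have h1 : ∀ x ∈ H, ∑ l ∈ range J, lcost F Ω (band (G := G) H F) x l / 2 ^ l ≤
        20 * ((hit F Ω x : ℝ) / c) := by
      intro x _
      have hm0 : 0 ≤ (hit F Ω x : ℝ) / c := by positivity
      have hm1 : (hit F Ω x : ℝ) / c ≤ 1 := by
        rw [div_le_one hc0, hc]
        exact_mod_cast card_filter_le _ _
      refine band_cost J _ hm0 hm1 _ (Nat.findGreatest_le _) ?_ ?_
      · exact Nat.findGreatest_spec (P := fun b => (hit F Ω x : ℝ) / c * 2 ^ b ≤ 1)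
          (Nat.zero_le J) (by simpa using hm1)
      · intro hlt
        exact not_le.1 (Nat.findGreatest_is_greatest
          (P := fun b => (hit F Ω x : ℝ) / c * 2 ^ b ≤ 1) (Nat.lt_succ_self _) hlt)
    refine (Finset.sum_le_sum h1).trans (le_of_eq ?_)
    rw [← Finset.mul_sum, ← Finset.sum_div]
    congr 1
    have h2 : ∑ x ∈ H, (hit F Ω x : ℝ) = c * F.card := by
      have : ∑ x ∈ H, hit F Ω x = ∑ g ∈ Ω, #{x ∈ H | x ∈ g • F} := by
        simp only [hit, Finset.card_filter]
        exact Finset.sum_comm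
      have h3 : ∀ g ∈ Ω, #{x ∈ H | x ∈ g • F} = F.card := fun g hg => by
        rw [Finset.filter_mem_eq_inter, Finset.inter_eq_right.2 (hΩ g hg),
          Finset.card_smul_finset]
      rw [Finset.sum_congr rfl h3, Finset.sum_const, smul_eq_mul] at this
      rw [hc]
      exact_mod_cast this
    rw [h2]
    field_simp
  set T := tT Ω cl J with hT
  set k : ℕ := 2 ^ J with hk
  have hTc : (T.card : ℝ) = c ^ k := by rw [hT, card_tT, hc, hk]; push_cast; ring
  have hTne : T.Nonempty := card_pos.1 (by rw [hT, card_tT]; exact pow_pos hΩne.card_pos _)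
  have hpos : ∀ A ∈ T, 0 < tw F w bnd J A := fun A _ => avg_cost.tw_pos F w bnd hwpos J A
  have hjen := sum_log_le T hTne (tw F w bnd J) hpos
  rw [hTc, hcost] at hjen
  set S := ∑ A ∈ T, tw F w bnd J A with hS
  have hS0 : 0 < S := Finset.sum_pos hpos hTne
  set N : ℝ := (Fintype.card G : ℝ) with hN
  have hN0 : 0 < N := by rw [hN]; exact_mod_cast Fintype.card_pos
  set B : ℝ := 2 * (N * q ^ F.card) with hB
  have hB0 : 0 < B := by positivity
  have hSB : S ≤ 2 ^ H.card * B ^ k := by
    have h1 := sum_tT_le F w bnd hw0 q hq H hH Ω cl hΩ J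
    have h2 := tZ_le F w bnd hw0 hw1 q hq H hH J
    calc S ≤ 2 ^ (H.card + 1) * tZ (G := G) F w bnd q H J := h1
      _ = 2 ^ H.card * (2 * tZ (G := G) F w bnd q H J) := by ring
      _ ≤ _ := mul_le_mul_of_nonneg_left h2 (by positivity)
  have hlS : Real.log S ≤ (H.card : ℝ) * Real.log 2 + k * Real.log B := by
    have := Real.log_le_log hS0 hSB
    rwa [Real.log_mul (by positivity) (by positivity), Real.log_pow, Real.log_pow] at this
  have hmk : (H.card : ℝ) ≤ k := by
    have : H.card ≤ k := (Nat.lt_size_self _).le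
    exact_mod_cast this
  have hkey : Real.log c ≤ Real.log 2 + Real.log B + (M + 20 * F.card) := by
    have hck : 0 < c ^ k := by positivity
    rw [Real.log_pow] at hjen
    have hk0 : (0 : ℝ) < k := by rw [hk]; positivity
    have hk2 : ((2 : ℝ) ^ J) = (k : ℝ) := by rw [hk]; push_cast; ring
    rw [hk2] at hjen
    simp only [← hc] at hjen
    have h3 : (k : ℝ) * Real.log c ≤ Real.log S + k * (M + ∑ x ∈ H,
        ∑ l ∈ range J, lcost F Ω (band (G := G) H F) x l / 2 ^ l) :=
      le_of_mul_le_mul_left (by linarith) hck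
    have hl2 : (0 : ℝ) ≤ Real.log 2 := Real.log_nonneg (by norm_num)
    refine le_of_mul_le_mul_left (h3.trans ?_) hk0
    nlinarith [mul_le_mul_of_nonneg_right hmk hl2, mul_le_mul_of_nonneg_left hlin hk0.le]
  rw [hcnt]
  change c ≤ N * (Ceng * q) ^ F.card * Real.exp M
  calc c = Real.exp (Real.log c) := (Real.exp_log hc0).symm
    _ ≤ Real.exp (Real.log 2 + Real.log B + (M + 20 * F.card)) := Real.exp_le_exp.2 hkey
    _ = 4 * N * q ^ F.card * Real.exp M * Real.exp 20 ^ F.card := by
        rw [Real.exp_add, Real.exp_add, Real.exp_add, Real.exp_log (by norm_num : (0:ℝ) < 2),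
          Real.exp_log hB0, hB, show (20 : ℝ) * F.card = F.card * 20 by ring, Real.exp_nat_mul]
        ring
    _ ≤ 4 ^ F.card * N * q ^ F.card * Real.exp M * Real.exp 20 ^ F.card := by
        gcongr
        exact le_self_pow₀ (by norm_num) hF.card_pos.ne'
    _ = _ := by unfold Ceng; rw [mul_pow, mul_pow]; ring

end

end Vale.Agent.P064
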