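import Mathlib
import Vale.Agent.P064.Engine
import Vale.Agent.P064.Degree

/-!
Symmetric spread in the dense regime: if `log n ≤ n q^d` then the loss is
`(1 + log n)^(2 / (d + 1))`.
-/

open scoped Pointwise
open Finset

namespace Vale.Agent.P064

variable {n : ℕ}

attribute [local instance] pairAction

/-- number of pattern edges at a vertex -/
noncomputable def degAt (F : Finset (Sym2 (Fin n))) (x : Fin n) : ℕ := #{u ∈ F | x ∈ u}

lemma sum_degAt (F : Finset (Sym2 (Fin n))) : ∑ x ∈ spanV F, degAt F x ≤ 2 * F.card := by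
  classical
  have h : ∑ x ∈ spanV F, degAt F x = ∑ u ∈ F, #{x ∈ spanV F | x ∈ u} := by
    simp only [degAt, Finset.card_filter]
    exact Finset.sum_comm
  rw [h]
  refine (Finset.sum_le_card_nsmul F _ 2 fun u _ => ?_).trans (le_of_eq (by rw [smul_eq_mul, mul_comm]))
  induction u using Sym2.ind with
  | _ a b =>
    calc #{x ∈ spanV F | x ∈ s(a, b)} ≤ #({a, b} : Finset (Fin n)) := by
          apply card_le_card
          intro x hx
          simpa using (mem_filter.1 hx).2
      _ ≤ 2 := card_le_two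

/-- the density forced by the expectation hypothesis -/
lemma density_le (q : ℝ) (hq : 0 < q) (Hf U : Finset (Sym2 (Fin n)))
    (hG : Good (Equiv.Perm (Fin n)) q Hf) (hn : 2 ≤ n) (d : ℕ)
    (hsparse : (n : ℝ) * q ^ (d + 1) < Real.log n) (hU : U ⊆ Hf) (hUne : U.Nonempty) :
    U.card ≤ 4 * (d + 1) * (spanV U).card := by
  classical
  have h1 : (1 / 2 : ℝ) ≤ (n : ℝ) ^ (spanV U).card * q ^ U.card := by
    refine (hG U hU).trans ?_
    gcongr
    exact_mod_cast orbit_card_le U
  have hn0 : (0 : ℝ) < n := by exact_mod_cast (by omega : 0 < n)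
  have hn2 : (2 : ℝ) ≤ n := by exact_mod_cast hn
  have hl : 0 < Real.log n := Real.log_pos (by linarith)
  have hsq := Real.mul_self_sqrt hn0.le
  have hs0 : 0 < Real.sqrt n := Real.sqrt_pos.2 hn0
  have hlsq : Real.log n ≤ Real.sqrt n := by
    have h1 := log_one_add_le_sqrt (z := (n : ℝ) - 1) (by linarith)
    rw [show 1 + ((n : ℝ) - 1) = n by ring] at h1
    exact h1.trans (Real.sqrt_le_sqrt (by linarith))
  have hv : 1 ≤ (spanV U).card := by
    obtain ⟨u, hu⟩ := hUne
    induction u using Sym2.ind with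
    | _ a b => exact card_pos.2 ⟨a, mem_spanV.2 ⟨_, hu, Sym2.mem_mk_left _ _⟩⟩
  have hlog := Real.log_le_log (by norm_num) h1
  rw [Real.log_mul (by positivity) (by positivity), Real.log_pow, Real.log_pow] at hlog
  have hhalf : Real.log (1 / 2 : ℝ) = -Real.log 2 := by rw [one_div, Real.log_inv]
  have h2 : Real.log 2 ≤ Real.log n := Real.log_le_log (by norm_num) hn2
  have hq' : ((d : ℝ) + 1) * Real.log q ≤ -(Real.log n / 2) := by
    have h3 := Real.log_le_log (by positivity) (hsparse.le.trans hlsq)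
    rw [Real.log_mul (by positivity) (by positivity), Real.log_pow, Real.log_sqrt hn0.le] at h3
    push_cast at h3
    linarith
  have hd : (0 : ℝ) < (d : ℝ) + 1 := by positivity
  have hvR : (1 : ℝ) ≤ (spanV U).card := by exact_mod_cast hv
  have key : (U.card : ℝ) * Real.log n ≤ 4 * ((d : ℝ) + 1) * (spanV U).card * Real.log n := by
    have ha := mul_le_mul_of_nonneg_left hq' (Nat.cast_nonneg U.card)
    have hb := mul_le_mul_of_nonneg_left hlog hd.le
    rw [hhalf] at hb
    have hc := mul_le_mul_of_nonneg_left h2 hd.le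
    have hd' := mul_le_mul_of_nonneg_right hvR (mul_nonneg hd.le hl.le)
    nlinarith
  exact_mod_cast le_of_mul_le_mul_right key hl

/-- a vertex ordering with few earlier neighbours -/
lemma exists_order (Hf : Finset (Sym2 (Fin n))) (hloop : ∀ a : Fin n, s(a, a) ∉ Hf) (k : ℕ)
    (hdens : ∀ U ⊆ Hf, U.Nonempty → U.card ≤ k * (spanV U).card) :
    ∀ S : Finset (Fin n), ∃ ord : Fin n → ℕ, Set.InjOn ord S ∧ (∀ x ∈ S, ord x < S.card) ∧
      ∀ x ∈ S, #{y ∈ S | s(x, y) ∈ Hf ∧ ord y < ord x} ≤ 2 * k := by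
  classical
  intro S
  induction S using Finset.strongInduction with
  | _ S ih =>
  rcases S.eq_empty_or_nonempty with hS | hS
  · subst hS; exact ⟨fun _ => 0, by simp, by simp, by simp⟩
  obtain ⟨x, hx, hdeg⟩ : ∃ x ∈ S, #{y ∈ S | s(x, y) ∈ Hf} ≤ 2 * k := by
    by_contra hcon
    push Not at hcon
    set U := Hf.filter (fun u => ∀ z ∈ u, z ∈ S) with hU
    have h1 : ∀ x ∈ S, 2 * k + 1 ≤ degAt U x := by
      intro x hx
      refine le_trans (hcon x hx) ?_
      refine Finset.card_le_card_of_injOn (fun y => s(x, y)) ?_ ?_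
      · intro y hy
        obtain ⟨hyS, hy⟩ := mem_filter.1 hy
        refine mem_coe.2 (mem_filter.2 ⟨mem_filter.2 ⟨hy, ?_⟩, Sym2.mem_mk_left _ _⟩)
        intro z hz
        rcases Sym2.mem_iff.1 hz with rfl | rfl <;> assumption
      · intro a _ b _ h
        exact Sym2.congr_right.1 h
    have hspan : spanV U = S := by
      ext z
      constructor
      · intro hz
        obtain ⟨u, hu, hzu⟩ := mem_spanV.1 hz
        exact (mem_filter.1 hu).2 z hzu
      · intro hz
        have := h1 z hz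
        obtain ⟨u, hu⟩ := card_pos.1 (show 0 < degAt U z by omega)
        exact mem_spanV.2 ⟨u, (mem_filter.1 hu).1, (mem_filter.1 hu).2⟩
    have hUne : U.Nonempty := by
      by_contra h
      rw [not_nonempty_iff_eq_empty] at h
      rw [h] at hspan
      simp [spanV] at hspan
      exact hS.ne_empty hspan.symm
    have h2 := hdens U (filter_subset _ _) hUne
    have h3 := sum_degAt U
    rw [hspan] at h2 h3
    have h4 := Finset.card_nsmul_le_sum S _ _ h1
    rw [smul_eq_mul] at h4
    have := hS.card_pos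
    nlinarith
  obtain ⟨ord, hinj, hlt, hback⟩ := ih (S.erase x) (erase_ssubset hx)
  have hcard : (S.erase x).card < S.card := card_lt_card (erase_ssubset hx)
  refine ⟨Function.update ord x (S.card - 1), ?_, ?_, ?_⟩
  · intro a ha b hb hab
    simp only [Function.update_apply] at hab
    have e := card_erase_of_mem hx
    split_ifs at hab with h1 h2 h2
    · exact h1.trans h2.symm
    · have := hlt b (mem_erase.2 ⟨h2, hb⟩)
      omega
    · have := hlt a (mem_erase.2 ⟨h1, ha⟩)
      omega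
    · exact hinj (mem_coe.2 (mem_erase.2 ⟨h1, ha⟩)) (mem_coe.2 (mem_erase.2 ⟨h2, hb⟩)) hab
  · intro a ha
    have := hS.card_pos
    simp only [Function.update_apply]
    split_ifs with h
    · omega
    · have := hlt a (mem_erase.2 ⟨h, ha⟩)
      omega
  · intro a ha
    by_cases h : a = x
    · subst h
      exact le_trans (card_le_card (Finset.monotone_filter_right _ fun _ _ hy => hy.1)) hdeg
    · refine le_trans (card_le_card ?_) (hback a (mem_erase.2 ⟨h, ha⟩))
      intro y hy
      obtain ⟨hyS, hy1, hy2⟩ := mem_filter.1 hy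
      by_cases hyx : y = x
      · subst hyx
        have := hlt a (mem_erase.2 ⟨h, ha⟩)
        have e := card_erase_of_mem hx
        simp only [Function.update_apply, if_neg h, if_pos] at hy2
        omega
      · simp only [Function.update_apply, if_neg h, if_neg hyx] at hy2
        exact mem_filter.2 ⟨mem_erase.2 ⟨hyx, hyS⟩, hy1, hy2⟩

/-- common neighbours of a set of roots -/
lemma common_le (q : ℝ) (hq : 0 < q) (hq1 : q ≤ 1) (Hf : Finset (Sym2 (Fin n)))
    (hloop : ∀ a : Fin n, s(a, a) ∉ Hf)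
    (hG : Good (Equiv.Perm (Fin n)) q Hf) (hn : 2 ≤ n) (d : ℕ)
    (hdense : Real.log n ≤ (n : ℝ) * q ^ d) (S : Finset (Fin n)) (hS : 1 ≤ S.card)
    (hSd : S.card ≤ d) :
    (#{z : Fin n | ∀ s' ∈ S, s(s', z) ∈ Hf} : ℝ) ≤ (n : ℝ) * (9 * q) ^ S.card := by
  classical
  set C := univ.filter (fun z : Fin n => ∀ s' ∈ S, s(s', z) ∈ Hf) with hC
  set j := S.card with hj
  set c := C.card with hc
  change (c : ℝ) ≤ _
  have hn0 : (0 : ℝ) < n := by exact_mod_cast (by omega : 0 < n)
  have hn2 : (2 : ℝ) ≤ n := by exact_mod_cast hn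
  have hl : 0 < Real.log n := Real.log_pos (by linarith)
  have hqd : Real.log n ≤ (n : ℝ) * q ^ j :=
    hdense.trans (mul_le_mul_of_nonneg_left (pow_le_pow_of_le_one hq.le hq1 hSd) hn0.le)
  have hdisj : Disjoint S C := by
    rw [disjoint_left]
    intro a ha haC
    exact hloop a ((mem_filter.1 haC).2 a ha)
  set U := (S ×ˢ C).image (fun p => s(p.1, p.2)) with hU
  have hUH : U ⊆ Hf := by
    intro u hu
    obtain ⟨p, hp, rfl⟩ := mem_image.1 hu
    obtain ⟨h1, h2⟩ := mem_product.1 hp
    exact (mem_filter.1 h2).2 p.1 h1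
  have hUc : U.card = j * c := by
    rw [hU, card_image_of_injOn, card_product]
    rintro ⟨a, b⟩ hab ⟨a', b'⟩ hab' h
    simp only [coe_product, Set.mem_prod, mem_coe] at hab hab'
    rcases Sym2.eq_iff.1 h with ⟨h1, h2⟩ | ⟨h1, h2⟩
    · exact Prod.ext h1 h2
    · simp only at h1 hab hab'
      subst h1
      exact absurd hab'.2 (disjoint_left.1 hdisj hab.1)
  have horb : (orbitF (G := Equiv.Perm (Fin n)) U).card ≤ n ^ j * n.choose c := by
    have hsub : orbitF (G := Equiv.Perm (Fin n)) U ⊆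
        ((univ : Finset (S → Fin n)) ×ˢ (univ : Finset (Fin n)).powersetCard c).image
          fun p => (univ ×ˢ p.2).image fun r : S × Fin n => s(p.1 r.1, r.2) := by
      intro W hW
      obtain ⟨g, rfl⟩ := mem_orbitF.1 hW
      refine mem_image.2 ⟨(fun a => g a, C.image g), mem_product.2 ⟨mem_univ _,
        mem_powersetCard.2 ⟨subset_univ _, card_image_of_injective _ g.injective⟩⟩, ?_⟩
      ext u
      simp only [mem_image, mem_product, mem_univ, true_and, Finset.mem_smul_finset, hU]
      constructor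
      · rintro ⟨⟨a, _⟩, ⟨z, hz, rfl⟩, rfl⟩
        exact ⟨s((a : Fin n), z), ⟨((a : Fin n), z), ⟨a.2, hz⟩, rfl⟩, pair_smul_mk _ _ _⟩
      · rintro ⟨_, ⟨⟨a, z⟩, ⟨ha, hz⟩, rfl⟩, rfl⟩
        exact ⟨(⟨a, ha⟩, g z), ⟨z, hz, rfl⟩, (pair_smul_mk _ _ _).symm⟩
    refine (card_le_card hsub).trans (card_image_le.trans ?_)
    rw [card_product, card_univ, Fintype.card_fun, card_powersetCard, card_univ]
    simp [hj]
  have h9 : (n : ℝ) * (9 * q) ^ j = 9 ^ j * ((n : ℝ) * q ^ j) := by rw [mul_pow]; ring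
  by_cases hbig : (c : ℝ) ≤ 9 * ((n : ℝ) * q ^ j)
  · rw [h9]
    refine hbig.trans (mul_le_mul_of_nonneg_right ?_ (by positivity))
    exact le_self_pow₀ (by norm_num) (by omega)
  rw [not_le] at hbig
  have hc0 : 0 < c := by
    have : (0 : ℝ) < c := lt_of_le_of_lt (by positivity) hbig
    exact_mod_cast this
  have h1 : (1 / 2 : ℝ) ≤ (n : ℝ) ^ j * ((1 / 3 : ℝ)) ^ c := by
    refine (hG U hUH).trans ?_
    rw [hUc, pow_mul]
    calc _ ≤ ((n : ℝ) ^ j * (n.choose c : ℝ)) * (q ^ j) ^ c := by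
          gcongr; exact_mod_cast horb
      _ ≤ (n : ℝ) ^ j * (3 * n / c) ^ c * (q ^ j) ^ c := by
          gcongr; exact choose_le_pow n c hc0
      _ ≤ _ := by
          rw [mul_assoc, ← mul_pow]
          gcongr
          rw [div_mul_eq_mul_div, div_le_iff₀ (by exact_mod_cast hc0)]
          linarith
  have hlog := Real.log_le_log (by norm_num) h1
  rw [Real.log_mul (by positivity) (by positivity), Real.log_pow, Real.log_pow, one_div,
    Real.log_inv, one_div, Real.log_inv] at hlog
  have h3 : 1 ≤ Real.log 3 := by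
    rw [Real.le_log_iff_exp_le (by norm_num)]
    exact Real.exp_one_lt_three.le
  have h2 : Real.log 2 ≤ Real.log n := Real.log_le_log (by norm_num) hn2
  have hcj : (c : ℝ) ≤ ((j : ℝ) + 1) * Real.log n := by
    nlinarith [Nat.cast_nonneg (α := ℝ) c]
  rw [h9]
  refine hcj.trans (mul_le_mul ?_ hqd hl.le (by positivity))
  have h5 := one_add_mul_le_pow (show (-2 : ℝ) ≤ 8 by norm_num) j
  rw [show (1 : ℝ) + 8 = 9 by norm_num] at h5
  nlinarith [Nat.cast_nonneg (α := ℝ) j]

lemma bandOf_le (J : ℕ) (m : ℝ) : bandOf J m ≤ J := Nat.findGreatest_le _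

lemma bandOf_spec (J : ℕ) {m : ℝ} (hm : m ≤ 1) : m * 2 ^ bandOf J m ≤ 1 := by
  classical
  exact Nat.findGreatest_spec (P := fun b => m * 2 ^ b ≤ 1) (Nat.zero_le J) (by simpa using hm)

lemma bandOf_gt (J : ℕ) {m : ℝ} (h : bandOf J m < J) : 1 < m * 2 ^ (bandOf J m + 1) := by
  classical
  exact not_le.1 (Nat.findGreatest_is_greatest (P := fun b => m * 2 ^ b ≤ 1)
    (Nat.lt_succ_self _) h)

lemma bandOf_anti (J : ℕ) {m m' : ℝ} (h : m ≤ m') (hm : m' ≤ 1) :
    bandOf J m' ≤ bandOf J m := by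
  classical
  refine Nat.le_findGreatest (bandOf_le J m') ?_
  exact le_trans (mul_le_mul_of_nonneg_right h (by positivity)) (bandOf_spec J hm)

/-- the first endpoint chosen for a pair -/
noncomputable def endA (u : Sym2 (Fin n)) : Fin n := (Quot.out u).1

/-- the second endpoint chosen for a pair -/
noncomputable def endB (u : Sym2 (Fin n)) : Fin n := (Quot.out u).2

lemma mk_ends (u : Sym2 (Fin n)) : s(endA u, endB u) = u := Quot.out_eq u

lemma endA_mem (u : Sym2 (Fin n)) : endA u ∈ u :=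
  (congrArg (fun v => endA u ∈ v) (mk_ends u)).mp (Sym2.mem_mk_left _ _)

lemma endB_mem (u : Sym2 (Fin n)) : endB u ∈ u :=
  (congrArg (fun v => endB u ∈ v) (mk_ends u)).mp (Sym2.mem_mk_right _ _)

/-- the endpoint of larger rank -/
noncomputable def topEnd (ord : Fin n → ℕ) (u : Sym2 (Fin n)) : Fin n :=
  if ord (endB u) < ord (endA u) then endA u else endB u

lemma topEnd_spec (ord : Fin n → ℕ) (hord : ord.Injective) (a b : Fin n) :
    topEnd ord s(a, b) = if ord b < ord a then a else b := by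
  rcases Sym2.eq_iff.1 (mk_ends s(a, b)) with ⟨h1, h2⟩ | ⟨h1, h2⟩
  · simp only [topEnd, h1, h2]
  · simp only [topEnd, h1, h2]
    rcases lt_trichotomy (ord a) (ord b) with h | h | h
    · simp [h, h.le]
    · simp [hord h]
    · simp [h, h.le]

lemma smul_ends (g : Equiv.Perm (Fin n)) (u : Sym2 (Fin n)) :
    g • u = s(g (endA u), g (endB u)) := by
  conv_lhs => rw [← mk_ends u]
  exact pair_smul_mk _ _ _

/-- sum of the geometric prior over delays -/
lemma sum_delay (J : ℕ) : ∑ δ : Fin (J + 1), (1 / 2 : ℝ) ^ ((δ : ℕ) + 1) ≤ 1 := by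
  rw [Fin.sum_univ_eq_sum_range (fun i => (1 / 2 : ℝ) ^ (i + 1)) (J + 1)]
  have : ∀ c : ℕ, ∑ i ∈ range c, (1 / 2 : ℝ) ^ (i + 1) = 1 - (1 / 2) ^ c := by
    intro c
    induction c with
    | zero => simp
    | succ c ih => rw [Finset.sum_range_succ, ih, pow_succ]; ring
  rw [this]
  have : (0 : ℝ) ≤ (1 / 2) ^ (J + 1) := by positivity
  linarith

set_option maxHeartbeats 1000000 in
/-- the spread bound for patterns of large minimum degree -/
lemma cnt_core (q : ℝ) (hq : 0 < q) (Hf : Finset (Sym2 (Fin n))) (k : ℕ)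
    (hG : Good (Equiv.Perm (Fin n)) q Hf) (ord : Fin n → ℕ) (hord : ord.Injective)
    (hback : ∀ x : Fin n, #{y : Fin n | s(x, y) ∈ Hf ∧ ord y < ord x} ≤ 2 * k)
    (hloop : ∀ a : Fin n, s(a, a) ∉ Hf)
    (F : Finset (Sym2 (Fin n))) (hF : F.Nonempty) (hkv : k * (spanV F).card ≤ 8 * F.card) :
    (cnt (G := Equiv.Perm (Fin n)) Hf F : ℝ) ≤ (n.factorial : ℝ) *
      (Ceng * Real.exp 34 * q) ^ F.card * ((Hf.card.size : ℝ) + 1) ^ (spanV F).card := by
  classical
  rcases Nat.eq_zero_or_pos (cnt (G := Equiv.Perm (Fin n)) Hf F) with h0 | h0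
  · rw [h0, Nat.cast_zero]; unfold Ceng; positivity
  set J := Hf.card.size with hJ
  set V := spanV F with hV
  set Ω : Finset (Equiv.Perm (Fin n)) := univ.filter fun g => g • F ⊆ Hf with hΩ
  have hΩm : ∀ g, g ∈ Ω ↔ g • F ⊆ Hf := fun g => by simp [hΩ]
  set c : ℝ := (Ω.card : ℝ) with hc
  have hc0 : 0 < c := by rw [hc]; exact_mod_cast h0
  set Mv : Fin n → ℕ := fun z => #(Ω.filter fun g => z ∈ V.image fun a => g a) with hMv
  set Bv : Fin n → ℕ := fun z => bandOf J ((Mv z : ℝ) / c) with hBv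
  set be : Sym2 (Fin n) → ℕ := fun u => band (G := Equiv.Perm (Fin n)) Hf F u with hbe
  have hbe' : ∀ u, be u = bandOf J ((hit F Ω u : ℝ) / c) := fun u => rfl
  have hfr : ∀ z, (Mv z : ℝ) / c ≤ 1 := fun z => by
    rw [div_le_one hc0, hc]; exact_mod_cast card_filter_le _ _
  have hfr' : ∀ u, (hit F Ω u : ℝ) / c ≤ 1 := fun u => by
    rw [div_le_one hc0, hc]; exact_mod_cast card_filter_le _ _
  have hle : ∀ u, ∀ z ∈ u, hit F Ω u ≤ Mv z := by
    intro u z hz
    refine card_le_card fun g hg => ?_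
    obtain ⟨hgΩ, hgu⟩ := mem_filter.1 hg
    obtain ⟨w, hw, rfl⟩ := Finset.mem_smul_finset.1 hgu
    refine mem_filter.2 ⟨hgΩ, ?_⟩
    rw [smul_ends] at hz
    rcases Sym2.mem_iff.1 hz with rfl | rfl
    · exact mem_image.2 ⟨_, mem_spanV.2 ⟨w, hw, endA_mem w⟩, rfl⟩
    · exact mem_image.2 ⟨_, mem_spanV.2 ⟨w, hw, endB_mem w⟩, rfl⟩
  have htop : ∀ u : Sym2 (Fin n), topEnd ord u ∈ u := fun u => by
    unfold topEnd
    split_ifs
    exacts [endA_mem u, endB_mem u]
  have hBle : ∀ u, Bv (topEnd ord u) ≤ be u := fun u => by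
    rw [hbe']
    refine bandOf_anti J ?_ (hfr _)
    gcongr
    exact hle u _ (htop u)
  let ι := (↥F → Bool) × ((↥V → Fin (J + 1)) × (↥F → Fin (J + 1)))
  let tl : (↥F → Bool) → ↥F → Fin n := fun τ u => if τ u then endA u.1 else endB u.1
  let bnd : ι → Sym2 (Fin n) → ℕ := fun a u => if h : u ∈ F then
    (if h' : tl a.1 ⟨u, h⟩ ∈ V then (a.2.1 ⟨_, h'⟩ : ℕ) + (a.2.2 ⟨u, h⟩ : ℕ) else 0) else 0
  let w : ι → ℝ := fun a => (1 / 2 : ℝ) ^ F.card * (1 / ((J : ℝ) + 1)) ^ V.card *
    ∏ u : ↥F, (1 / 2 : ℝ) ^ ((a.2.2 u : ℕ) + 1)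
  have hcap : ∀ u z, be u - Bv z < J + 1 := fun u z => by
    have := bandOf_le J ((hit F Ω u : ℝ) / c)
    rw [← hbe'] at this
    omega
  let cl : Equiv.Perm (Fin n) → ι := fun g =>
    (fun u => decide (ord (g (endB u.1)) < ord (g (endA u.1))),
      (fun x => ⟨Bv (g x.1), Nat.lt_succ_of_le (bandOf_le _ _)⟩,
        fun u => ⟨be (g • u.1) - Bv (topEnd ord (g • u.1)), hcap _ _⟩))
  have hcl : ∀ g : Equiv.Perm (Fin n), g • F ⊆ Hf → ∀ f ∈ F,
      bnd (cl g) f = band (G := Equiv.Perm (Fin n)) Hf F (g • f) := by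
    intro g _ f hf
    have htl : g (tl (cl g).1 ⟨f, hf⟩) = topEnd ord (g • f) := by
      refine Eq.trans ?_ (congrArg (topEnd ord) (smul_ends g f)).symm
      rw [topEnd_spec ord hord]
      simp only [tl, cl, decide_eq_true_eq]
      split_ifs <;> rfl
    have htV : tl (cl g).1 ⟨f, hf⟩ ∈ V := by
      refine mem_spanV.2 ⟨f, hf, ?_⟩
      simp only [tl]
      split_ifs
      exacts [endA_mem f, endB_mem f]
    simp only [bnd, dif_pos hf, dif_pos htV]
    simp only [cl] at htl ⊢
    rw [htl]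
    exact Nat.add_sub_cancel' (hBle (g • f))
  have hwpos : ∀ a, 0 < w a := fun a => by
    have : 0 < ∏ u : ↥F, (1 / 2 : ℝ) ^ ((a.2.2 u : ℕ) + 1) :=
      Finset.prod_pos fun u _ => by positivity
    positivity
  have hw1 : ∑ a, w a ≤ 1 := by
    have hδ : ∑ δ : ↥F → Fin (J + 1), ∏ u : ↥F, (1 / 2 : ℝ) ^ ((δ u : ℕ) + 1) ≤ 1 := by
      rw [← Fintype.prod_sum (fun (_ : ↥F) (δ : Fin (J + 1)) => (1 / 2 : ℝ) ^ ((δ : ℕ) + 1))]
      exact Finset.prod_le_one (fun _ _ => Finset.sum_nonneg fun _ _ => by positivity)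
        fun _ _ => sum_delay J
    simp only [w, Fintype.sum_prod_type, ι]
    rw [Finset.sum_const, Finset.sum_const, nsmul_eq_mul, nsmul_eq_mul, ← Finset.mul_sum]
    simp only [Finset.card_univ, Fintype.card_fun, Fintype.card_coe, Fintype.card_bool,
      Fintype.card_fin]
    push_cast
    calc (2 : ℝ) ^ F.card * (((J : ℝ) + 1) ^ V.card * ((1 / 2 : ℝ) ^ F.card *
          (1 / ((J : ℝ) + 1)) ^ V.card * _)) ≤ (2 : ℝ) ^ F.card * (((J : ℝ) + 1) ^ V.card *
          ((1 / 2 : ℝ) ^ F.card * (1 / ((J : ℝ) + 1)) ^ V.card * 1)) := by gcongr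
      _ = 1 := by
          rw [div_pow, div_pow, one_pow, one_pow]
          field_simp
  have hmain := cnt_le_code q hq Hf F hF hG w hwpos hw1 bnd cl hcl h0
  have hcard : (Fintype.card (Equiv.Perm (Fin n)) : ℝ) = (n.factorial : ℝ) := by
    rw [Fintype.card_perm, Fintype.card_fin]
  rw [hcard] at hmain
  have hlw : ∀ g, -Real.log (w (cl g)) = (F.card : ℝ) * Real.log 2 +
      (V.card : ℝ) * Real.log ((J : ℝ) + 1) +
      Real.log 2 * ((F.card : ℝ) + ∑ u ∈ F, ((be (g • u) - Bv (topEnd ord (g • u)) : ℕ) : ℝ)) := by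
    intro g
    have hp : (0:ℝ) < ∏ u : ↥F, (1 / 2 : ℝ) ^ (((cl g).2.2 u : ℕ) + 1) :=
      Finset.prod_pos fun u _ => by positivity
    simp only [w]
    rw [Real.log_mul (by positivity) hp.ne', Real.log_mul (by positivity) (by positivity),
      Real.log_pow, Real.log_pow, Real.log_prod (fun u _ => by positivity)]
    simp only [Real.log_pow, one_div, Real.log_inv, cl]
    rw [← Finset.sum_coe_sort F (fun u => ((be (g • u) - Bv (topEnd ord (g • u)) : ℕ) : ℝ))]
    push_cast
    simp only [add_mul, one_mul, Finset.sum_add_distrib, Finset.sum_const, nsmul_eq_mul,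
      ← Finset.sum_mul, Finset.card_univ, Fintype.card_coe]
    ring
  have hdelay : ∑ g ∈ Ω, ∑ u ∈ F, ((be (g • u) - Bv (topEnd ord (g • u)) : ℕ) : ℝ) ≤
      4 * (k : ℝ) * (c * V.card) := by
    have h1 : ∑ g ∈ Ω, ∑ u ∈ F, ((be (g • u) - Bv (topEnd ord (g • u)) : ℕ) : ℝ) =
        ∑ u ∈ Hf, (hit F Ω u : ℝ) * ((be u - Bv (topEnd ord u) : ℕ) : ℝ) := by
      calc _ = ∑ g ∈ Ω, ∑ u ∈ g • F, ((be u - Bv (topEnd ord u) : ℕ) : ℝ) := by
            refine Finset.sum_congr rfl fun g _ => ?_
            rw [Finset.smul_finset_def, Finset.sum_image fun a _ b _ h => smul_left_cancel g h]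
        _ = ∑ g ∈ Ω, ∑ u ∈ Hf, if u ∈ g • F then ((be u - Bv (topEnd ord u) : ℕ) : ℝ) else 0 :=
            Finset.sum_congr rfl fun g hg => by
              rw [Finset.sum_ite_mem, Finset.inter_eq_right.2 ((hΩm g).1 hg)]
        _ = _ := by
            rw [Finset.sum_comm]
            refine Finset.sum_congr rfl fun u _ => ?_
            rw [← Finset.sum_filter, Finset.sum_const, nsmul_eq_mul]
            rfl
    have h2 : ∀ u ∈ Hf, (hit F Ω u : ℝ) * ((be u - Bv (topEnd ord u) : ℕ) : ℝ) ≤
        2 * (Mv (topEnd ord u) : ℝ) := by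
      intro u _
      rcases Nat.eq_zero_or_pos (be u - Bv (topEnd ord u)) with h | h
      · rw [h, Nat.cast_zero, mul_zero]; positivity
      set δ := be u - Bv (topEnd ord u) with hδ
      set B := Bv (topEnd ord u) with hB
      have hlt : B < J := by
        have := bandOf_le J ((hit F Ω u : ℝ) / c)
        rw [← hbe'] at this
        omega
      have hg1 := bandOf_gt J (m := (Mv (topEnd ord u) : ℝ) / c) hlt
      have hg2 := bandOf_spec J (hfr' u)
      rw [← hbe', show be u = δ + B by omega, pow_add] at hg2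
      change 1 < (Mv (topEnd ord u) : ℝ) / c * 2 ^ (B + 1) at hg1
      rw [pow_succ, div_mul_eq_mul_div, lt_div_iff₀ hc0, one_mul] at hg1
      rw [div_mul_eq_mul_div, div_le_iff₀ hc0, one_mul] at hg2
      have hd2 : (δ : ℝ) ≤ 2 ^ δ := by exact_mod_cast Nat.lt_two_pow_self.le
      have hB0 : (0 : ℝ) < 2 ^ B := by positivity
      refine le_of_mul_le_mul_right (le_trans ?_ hg1.le |>.trans (le_of_eq (by ring))) hB0
      calc (hit F Ω u : ℝ) * δ * 2 ^ B ≤ (hit F Ω u : ℝ) * 2 ^ δ * 2 ^ B := by gcongr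
        _ ≤ c := by linarith
    rw [h1]
    refine (Finset.sum_le_sum h2).trans ?_
    rw [← Finset.sum_fiberwise_of_maps_to (fun u _ => mem_univ (topEnd ord u))]
    calc ∑ z : Fin n, ∑ u ∈ Hf with topEnd ord u = z, 2 * (Mv (topEnd ord u) : ℝ)
        = ∑ z : Fin n, (#{u ∈ Hf | topEnd ord u = z} : ℝ) * (2 * (Mv z : ℝ)) :=
          Finset.sum_congr rfl fun z _ => by
            rw [Finset.sum_congr rfl fun u hu => by rw [(mem_filter.1 hu).2], Finset.sum_const,
              nsmul_eq_mul]
      _ ≤ ∑ z : Fin n, ((2 * k : ℕ) : ℝ) * (2 * (Mv z : ℝ)) := by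
          refine Finset.sum_le_sum fun z _ => ?_
          gcongr
          refine le_trans (le_trans (card_le_card ?_) (card_image_le (f := fun y => s(z, y)))) (hback z)
          intro u hu
          obtain ⟨huH, hz⟩ := mem_filter.1 hu
          induction u using Sym2.ind with
          | _ a b =>
            rw [topEnd_spec ord hord] at hz
            have hab : a ≠ b := fun h => hloop a (by rw [← h] at huH; exact huH)
            simp only [mem_image, mem_filter, mem_univ, true_and]
            split_ifs at hz with h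
            · subst hz; exact ⟨b, ⟨huH, h⟩, rfl⟩
            · subst hz
              refine ⟨a, ⟨by rw [Sym2.eq_swap]; exact huH, ?_⟩, Sym2.eq_swap⟩
              exact lt_of_le_of_ne (not_lt.1 h) (fun h' => hab (hord h'))
      _ = _ := by
          rw [← Finset.mul_sum, ← Finset.mul_sum]
          have : ∑ z : Fin n, (Mv z : ℝ) = c * V.card := by
            have h' : ∑ z : Fin n, Mv z = ∑ g ∈ Ω, #{z : Fin n | z ∈ V.image fun a => g a} := by
              simp only [hMv, Finset.card_filter]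
              exact Finset.sum_comm
            have h'' : ∀ g ∈ Ω, #{z : Fin n | z ∈ V.image fun a => g a} = V.card := fun g _ => by
              rw [Finset.filter_univ_mem, card_image_of_injective _ g.injective]
            rw [Finset.sum_congr rfl h'', Finset.sum_const, smul_eq_mul] at h'
            rw [hc]
            exact_mod_cast h'
          rw [this]
          push_cast
          ring
  have havg : (∑ g ∈ Ω, -Real.log (w (cl g))) / c ≤
      (F.card : ℝ) * 34 + (V.card : ℝ) * Real.log ((J : ℝ) + 1) := by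
    rw [div_le_iff₀ hc0]
    simp only [hlw, Finset.sum_add_distrib, Finset.sum_const, nsmul_eq_mul, ← Finset.mul_sum,
      ← hc, mul_add]
    have hl2 : Real.log 2 ≤ 1 := by linarith [Real.log_two_lt_d9]
    have hl20 : 0 ≤ Real.log 2 := Real.log_nonneg (by norm_num)
    have hkv' : (k : ℝ) * V.card ≤ 8 * F.card := by exact_mod_cast hkv
    have hd1 : Real.log 2 * ∑ g ∈ Ω, ∑ u ∈ F,
        ((be (g • u) - Bv (topEnd ord (g • u)) : ℕ) : ℝ) ≤ 32 * c * F.card := by
      refine le_trans (mul_le_of_le_one_left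
        (Finset.sum_nonneg fun g _ => Finset.sum_nonneg fun u _ => Nat.cast_nonneg _) hl2) ?_
      refine hdelay.trans ?_
      nlinarith
    have he : c * ((F.card : ℝ) * Real.log 2) ≤ c * F.card := by
      gcongr; exact mul_le_of_le_one_right (Nat.cast_nonneg _) hl2
    linarith
  refine hmain.trans ?_
  calc (n.factorial : ℝ) * (Ceng * q) ^ F.card *
        Real.exp ((∑ g ∈ Ω, -Real.log (w (cl g))) / c)
      ≤ (n.factorial : ℝ) * (Ceng * q) ^ F.card *
        Real.exp ((F.card : ℝ) * 34 + (V.card : ℝ) * Real.log ((J : ℝ) + 1)) := by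
        refine mul_le_mul_of_nonneg_left (Real.exp_le_exp.2 havg) ?_
        unfold Ceng; positivity
    _ = _ := by
        rw [Real.exp_add, Real.exp_nat_mul, Real.exp_nat_mul, Real.exp_log (by positivity),
          mul_pow, mul_pow, mul_pow]
        ring

/-- normalisation for injective placements -/
noncomputable def rho (n v : ℕ) : ℝ := (n : ℝ) ^ v / (n.descFactorial v : ℝ)

lemma rho_pos (hn : 0 < n) {v : ℕ} (hv : v ≤ n) : 0 < rho n v := by
  unfold rho
  have : (0 : ℝ) < n.descFactorial v := by exact_mod_cast Nat.pos_of_ne_zero (by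
    rw [Ne, Nat.descFactorial_eq_zero_iff_lt]; omega)
  positivity

lemma rho_succ {v : ℕ} (hv : v < n) :
    rho n (v + 1) = rho n v * ((n : ℝ) / ((n - v : ℕ) : ℝ)) := by
  have h1 : (0 : ℝ) < n.descFactorial v := by exact_mod_cast Nat.pos_of_ne_zero (by
    rw [Ne, Nat.descFactorial_eq_zero_iff_lt]; omega)
  have h2 : (0 : ℝ) < ((n - v : ℕ) : ℝ) := by exact_mod_cast (by omega : 0 < n - v)
  unfold rho
  rw [Nat.descFactorial_succ, Nat.cast_mul, pow_succ]
  field_simp

lemma rho_mono (hn : 0 < n) {v v' : ℕ} (h : v ≤ v') (hv' : v' ≤ n) : rho n v ≤ rho n v' := by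
  induction v', h using Nat.le_induction with
  | base => exact le_rfl
  | succ m hm ih =>
    rw [rho_succ (by omega)]
    refine (ih (by omega)).trans (le_mul_of_one_le_right (rho_pos hn (by omega)).le ?_)
    have h2 : (0 : ℝ) < ((n - m : ℕ) : ℝ) := by exact_mod_cast (by omega : 0 < n - m)
    rw [one_le_div h2]
    exact_mod_cast Nat.sub_le n m

lemma rho_le_nine {e v : ℕ} (hv : v ≤ n) (hve : v ≤ 2 * e) :
    rho n v ≤ (9 : ℝ) ^ e := by
  unfold rho
  have h1 : (0 : ℝ) < n.descFactorial v := by exact_mod_cast Nat.pos_of_ne_zero (by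
    rw [Ne, Nat.descFactorial_eq_zero_iff_lt]; omega)
  have ha : (n : ℝ) ^ v * (v.factorial : ℝ) ≤ (v : ℝ) ^ v * (n.descFactorial v : ℝ) := by
    exact_mod_cast pow_le_descFactorial v hv
  have hf : (0 : ℝ) < (v.factorial : ℝ) := by exact_mod_cast v.factorial_pos
  have hb : (v : ℝ) ^ v / (v.factorial : ℝ) ≤ Real.exp v :=
    Real.pow_div_factorial_le_exp _ (Nat.cast_nonneg v) v
  have hc : Real.exp (v : ℝ) ≤ (9 : ℝ) ^ e := by
    rw [show (v : ℝ) = (v : ℝ) * 1 by ring, Real.exp_nat_mul, show (9 : ℝ) = 3 ^ 2 by norm_num,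
      ← pow_mul]
    exact (pow_le_pow_left₀ (Real.exp_pos 1).le Real.exp_one_lt_three.le v).trans
      (pow_le_pow_right₀ (by norm_num) hve)
  refine le_trans ?_ (hb.trans hc)
  rw [div_le_div_iff₀ h1 hf]
  exact ha

/-- peeling one pattern vertex -/
lemma cnt_peel (Hf F : Finset (Sym2 (Fin n))) (x : Fin n) (hx : x ∈ spanV F) (R : ℝ)
    (hloop : ∀ a : Fin n, s(a, a) ∉ F)
    (hR' : ∀ g : Equiv.Perm (Fin n), g • F.filter (fun u => x ∉ u) ⊆ Hf →
      (#{z : Fin n | ∀ y, s(x, y) ∈ F → s(g y, z) ∈ Hf} : ℝ) ≤ R) :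
    ((n - ((spanV F).card - 1) : ℕ) : ℝ) * (cnt (G := Equiv.Perm (Fin n)) Hf F : ℝ) ≤
      R * (cnt (G := Equiv.Perm (Fin n)) Hf (F.filter fun u => x ∉ u) : ℝ) := by
  classical
  set W := (spanV F).erase x with hW
  set F' := F.filter (fun u => x ∉ u) with hF'
  set Ω : Finset (Equiv.Perm (Fin n)) := univ.filter fun g => g • F ⊆ Hf with hΩ
  set Ω' : Finset (Equiv.Perm (Fin n)) := univ.filter fun g => g • F' ⊆ Hf with hΩ'
  set N : Equiv.Perm (Fin n) → Finset (Fin n) :=
    fun g => univ.filter fun z => ∀ y, s(x, y) ∈ F → s(g y, z) ∈ Hf with hN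
  have hfree : ∀ g : Equiv.Perm (Fin n), #(univ \ W.image g) = n - ((spanV F).card - 1) := by
    intro g
    rw [card_sdiff_of_subset (subset_univ _), card_image_of_injective _ g.injective, hW,
      card_erase_of_mem hx, card_univ, Fintype.card_fin]
  have hagree : ∀ (g : Equiv.Perm (Fin n)) (y : Fin n), y ∉ W.image g → ∀ a ∈ W,
      (Equiv.swap (g x) y * g) a = g a := by
    intro g y hy a ha
    refine Equiv.swap_apply_of_ne_of_ne (fun h => ?_) (fun h => hy (h ▸ mem_image_of_mem g ha))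
    exact (mem_erase.1 ha).1 (g.injective h)
  have hinj : (Ω.sigma fun g => univ \ W.image g).card ≤ (Ω'.sigma N).card := by
    refine Finset.card_le_card_of_injOn (fun p => ⟨Equiv.swap (p.1 x) p.2 * p.1, p.1 x⟩) ?_ ?_
    · intro p hp
      obtain ⟨h1, h2⟩ := mem_sigma.1 (mem_coe.1 hp)
      have h2' := (mem_sdiff.1 h2).2
      have hg : p.1 • F ⊆ Hf := (mem_filter.1 h1).2
      refine mem_coe.2 (mem_sigma.2 ⟨mem_filter.2 ⟨mem_univ _, ?_⟩, mem_filter.2 ⟨mem_univ _, ?_⟩⟩)
      · have hcg : (Equiv.swap (p.1 x) p.2 * p.1) • F' = p.1 • F' := by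
          refine smul_congr fun a ha => hagree p.1 p.2 h2' a ?_
          refine mem_erase.2 ⟨?_, spanV_mono (filter_subset _ _) ha⟩
          rintro rfl
          obtain ⟨u, hu, hau⟩ := mem_spanV.1 ha
          exact (mem_filter.1 hu).2 hau
        rw [hcg]
        exact (Finset.smul_finset_subset_smul_finset (filter_subset _ _)).trans hg
      · intro y hy
        have hyW : y ∈ W := mem_erase.2 ⟨fun h => hloop x (by rw [h] at hy; exact hy),
          mem_spanV.2 ⟨_, hy, Sym2.mem_mk_right _ _⟩⟩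
        show s((Equiv.swap (p.1 x) p.2 * p.1) y, p.1 x) ∈ Hf
        rw [hagree p.1 p.2 h2' y hyW, Sym2.eq_swap, ← pair_smul_mk]
        exact hg (Finset.smul_mem_smul_finset hy)
    · rintro ⟨g, y⟩ _ ⟨g', y'⟩ _ h
      simp only [Sigma.mk.injEq, heq_eq_eq] at h
      obtain ⟨h1, h2⟩ := h
      have hy : y = y' := by
        have := congrArg (fun f : Equiv.Perm (Fin n) => f x) h1
        simpa using this
      subst hy
      rw [h2] at h1
      rw [mul_left_cancel h1]
  rw [card_sigma, card_sigma, Finset.sum_congr rfl (fun g _ => hfree g), Finset.sum_const,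
    smul_eq_mul] at hinj
  calc _ = ((Ω.card * (n - ((spanV F).card - 1)) : ℕ) : ℝ) := by
        rw [Nat.cast_mul, mul_comm]; rfl
    _ ≤ ∑ g ∈ Ω', ((N g).card : ℝ) := by exact_mod_cast hinj
    _ ≤ ∑ _g ∈ Ω', R := Finset.sum_le_sum fun g hg => hR' g (mem_filter.1 hg).2
    _ = _ := by rw [Finset.sum_const, nsmul_eq_mul, mul_comm]; rfl

/-- the constant of the dense spread bound -/
noncomputable def Cd : ℝ := 16 * Ceng * Real.exp 34

lemma nine_le_Cd : 9 ≤ Cd := by
  have h1 := Real.add_one_le_exp (34 : ℝ)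
  have h2 := Real.add_one_le_exp (20 : ℝ)
  unfold Cd Ceng
  nlinarith

/-- symmetric spread with loss `(1 + log n)^(2/(d+1))` when `log n ≤ n q^d` -/
theorem cnt_le_dense (q : ℝ) (hq : 0 < q) (hq1 : q ≤ 1) (Hf : Finset (Sym2 (Fin n)))
    (hloop : ∀ a : Fin n, s(a, a) ∉ Hf) (hG : Good (Equiv.Perm (Fin n)) q Hf) (hn : 2 ≤ n)
    (d₀ : ℕ) (hdense₀ : Real.log n ≤ (n : ℝ) * q ^ d₀) (F : Finset (Sym2 (Fin n))) :
    (cnt (G := Equiv.Perm (Fin n)) Hf F : ℝ) ≤ (n.factorial : ℝ) *
      (9 * Cd * (1 + Real.log n) ^ (2 / ((d₀ : ℝ) + 1)) * q) ^ F.card := by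
  classical
  have hn0 : (0 : ℝ) < n := by exact_mod_cast (by omega : 0 < n)
  have hn2 : (2 : ℝ) ≤ n := by exact_mod_cast hn
  have hl : 0 < Real.log n := Real.log_pos (by linarith)
  set L := (1 + Real.log n) ^ (2 / ((d₀ : ℝ) + 1)) with hL
  have hL1 : 1 ≤ L := Real.one_le_rpow (by linarith) (by positivity)
  have hCd := nine_le_Cd
  have hperm : ∀ S : Finset (Sym2 (Fin n)),
      (cnt (G := Equiv.Perm (Fin n)) Hf S : ℝ) ≤ (n.factorial : ℝ) := by
    intro S
    have : cnt (G := Equiv.Perm (Fin n)) Hf S ≤ Fintype.card (Equiv.Perm (Fin n)) :=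
      card_le_univ _
    rw [Fintype.card_perm, Fintype.card_fin] at this
    exact_mod_cast this
  rcases hq1.eq_or_lt with h1 | hlt
  · refine (hperm F).trans (le_mul_of_one_le_right (by positivity) (one_le_pow₀ ?_))
    rw [h1]
    nlinarith
  have hex : ∃ j, (n : ℝ) * q ^ j < Real.log n := by
    obtain ⟨j, hj⟩ := exists_pow_lt_of_lt_one (show 0 < Real.log n / n by positivity) hlt
    exact ⟨j, by rw [lt_div_iff₀ hn0] at hj; linarith⟩
  obtain ⟨d, hdd, hdense, hsparse⟩ : ∃ d, d₀ ≤ d ∧ Real.log n ≤ (n : ℝ) * q ^ d ∧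
      (n : ℝ) * q ^ (d + 1) < Real.log n := by
    have hf := Nat.find_spec hex
    set f := Nat.find hex
    have hgt : d₀ < f := by
      by_contra h
      rw [not_lt] at h
      have := mul_le_mul_of_nonneg_left (pow_le_pow_of_le_one hq.le hq1 h) hn0.le
      linarith
    refine ⟨f - 1, by omega, not_lt.1 (Nat.find_min hex (by omega)), ?_⟩
    rwa [Nat.sub_add_cancel (by omega)]
  obtain ⟨ord, hinj, -, hback⟩ := exists_order Hf hloop (4 * (d + 1))
    (fun U hU hne => density_le q hq Hf U hG hn d hsparse hU hne) univ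
  have hord : ord.Injective := by rwa [coe_univ, Set.injOn_univ] at hinj
  set σ := Cd * L * q with hσ
  have hσ0 : 0 < σ := by positivity
  have hJ : ((Hf.card.size : ℝ) + 1) ≤ 4 * (1 + Real.log n) := by
    rcases Nat.eq_zero_or_pos Hf.card with h | h
    · rw [h, Nat.size_zero, Nat.cast_zero]; linarith
    have hm : (Hf.card : ℝ) ≤ (n : ℝ) ^ 2 := by
      have h1 : Hf.card ≤ Fintype.card (Sym2 (Fin n)) := card_le_univ _
      have h2 : Fintype.card (Sym2 (Fin n)) ≤ Fintype.card (Fin n × Fin n) :=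
        Fintype.card_le_of_surjective (fun p : Fin n × Fin n => s(p.1, p.2))
          (fun u => ⟨(endA u, endB u), mk_ends u⟩)
      rw [Fintype.card_prod, Fintype.card_fin, ← sq] at h2
      exact_mod_cast h1.trans h2
    have hs := Nat.size_pos.2 h
    have h2 : ((2 : ℝ)) ^ (Hf.card.size - 1) ≤ Hf.card := by
      exact_mod_cast Nat.lt_size.1 (by omega : Hf.card.size - 1 < Hf.card.size)
    have h3 := Real.log_le_log (by positivity) (h2.trans hm)
    rw [Real.log_pow, Real.log_pow, Nat.cast_sub (by omega)] at h3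
    push_cast at h3
    have h4 : (1 : ℝ) ≤ Hf.card.size := by exact_mod_cast hs
    have h5 := Real.log_two_gt_d9
    nlinarith
  have main : ∀ S : Finset (Sym2 (Fin n)), (cnt (G := Equiv.Perm (Fin n)) Hf S : ℝ) ≤
      (n.factorial : ℝ) * σ ^ S.card * rho n (spanV S).card := by
    intro S
    induction S using Finset.strongInduction with
    | _ S ih =>
    have hvn : (spanV S).card ≤ n := by simpa using card_le_univ (spanV S)
    rcases S.eq_empty_or_nonempty with hS | hS
    · subst hS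
      simpa [spanV, rho] using hperm ∅
    have hr1 : 1 ≤ rho n (spanV S).card :=
      le_trans (by simp [rho]) (rho_mono (by omega) (Nat.zero_le _) hvn)
    rcases Nat.eq_zero_or_pos (cnt (G := Equiv.Perm (Fin n)) Hf S) with h0 | h0
    · rw [h0, Nat.cast_zero]
      have := rho_pos (n := n) (by omega) hvn
      positivity
    obtain ⟨g₀, hg₀⟩ := card_pos.1 h0
    have hg₀' : g₀ • S ⊆ Hf := (mem_filter.1 hg₀).2
    have hSloop : ∀ a : Fin n, s(a, a) ∉ S := by
      intro a ha
      have := hg₀' (Finset.smul_mem_smul_finset ha)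
      rw [pair_smul_mk] at this
      exact hloop _ this
    by_cases hcore : ∀ x ∈ spanV S, d + 1 ≤ degAt S x
    · have hv2 : (spanV S).card * (d + 1) ≤ 2 * S.card := by
        have := Finset.card_nsmul_le_sum (spanV S) _ _ hcore
        rw [smul_eq_mul] at this
        exact this.trans (sum_degAt S)
      have hc := cnt_core q hq Hf (4 * (d + 1)) hG ord hord
        (fun x => by simpa using hback x (mem_univ x)) hloop S hS (by nlinarith)
      refine le_trans hc (le_trans ?_ (le_mul_of_one_le_right (by positivity) hr1))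
      rw [mul_assoc]
      refine mul_le_mul_of_nonneg_left ?_ (by positivity)
      have hpow : ((Hf.card.size : ℝ) + 1) ^ (spanV S).card ≤ (16 * L) ^ S.card := by
        have hb1 : (1 : ℝ) ≤ 4 * (1 + Real.log n) := by linarith
        calc ((Hf.card.size : ℝ) + 1) ^ (spanV S).card
            ≤ (4 * (1 + Real.log n)) ^ ((spanV S).card : ℝ) := by
              rw [Real.rpow_natCast]; gcongr
          _ ≤ (4 * (1 + Real.log n)) ^ (2 / ((d₀ : ℝ) + 1) * (S.card : ℝ)) := by
              refine Real.rpow_le_rpow_of_exponent_le hb1 ?_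
              rw [div_mul_eq_mul_div, le_div_iff₀ (by positivity)]
              have h' : (spanV S).card * (d₀ + 1) ≤ 2 * S.card :=
                le_trans (Nat.mul_le_mul_left _ (by omega)) hv2
              exact_mod_cast h'
          _ = ((4 * (1 + Real.log n)) ^ (2 / ((d₀ : ℝ) + 1))) ^ S.card := by
              rw [Real.rpow_mul (by positivity), Real.rpow_natCast]
          _ ≤ _ := by
              gcongr
              rw [Real.mul_rpow (by norm_num) (by linarith)]
              refine mul_le_mul_of_nonneg_right ?_ (by positivity)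
              calc (4 : ℝ) ^ (2 / ((d₀ : ℝ) + 1)) ≤ (4 : ℝ) ^ (2 : ℝ) :=
                    Real.rpow_le_rpow_of_exponent_le (by norm_num)
                      (div_le_self (by norm_num) (by
                        have : (0 : ℝ) ≤ d₀ := Nat.cast_nonneg _
                        linarith))
                _ = 16 := by norm_num
      calc (Ceng * Real.exp 34 * q) ^ S.card * ((Hf.card.size : ℝ) + 1) ^ (spanV S).card
          ≤ (Ceng * Real.exp 34 * q) ^ S.card * (16 * L) ^ S.card :=
            mul_le_mul_of_nonneg_left hpow (by unfold Ceng; positivity)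
        _ = _ := by rw [← mul_pow, hσ, Cd]; ring
    push Not at hcore
    obtain ⟨x, hx, hxd⟩ := hcore
    set S' := S.filter (fun u => x ∉ u) with hS'
    set Y := univ.filter (fun y : Fin n => s(x, y) ∈ S) with hY
    have hj : Y.card = degAt S x := by
      refine Finset.card_bij (fun y _ => s(x, y)) ?_ ?_ ?_
      · intro y hy
        exact mem_filter.2 ⟨(mem_filter.1 hy).2, Sym2.mem_mk_left _ _⟩
      · intro a _ b _ h
        exact Sym2.congr_right.1 h
      · intro u hu
        obtain ⟨huS, hxu⟩ := mem_filter.1 hu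
        obtain ⟨y, rfl⟩ := Sym2.mem_iff_exists.1 hxu
        exact ⟨y, mem_filter.2 ⟨mem_univ _, huS⟩, rfl⟩
    have hj1 : 1 ≤ Y.card := by
      rw [hj]
      obtain ⟨u, hu, hxu⟩ := mem_spanV.1 hx
      exact card_pos.2 ⟨u, mem_filter.2 ⟨hu, hxu⟩⟩
    have hcard : S'.card + Y.card = S.card := by
      rw [hj, degAt, hS', add_comm]
      exact card_filter_add_card_filter_not _
    have hss : S' ⊂ S := (filter_subset _ _).ssubset_of_ne fun h => by
      have : S'.card = S.card := congrArg card h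
      omega
    set v := (spanV S).card with hv
    have hv1 : 1 ≤ v := card_pos.2 ⟨x, hx⟩
    have hspan : (spanV S').card ≤ v - 1 := by
      rw [hv, ← card_erase_of_mem hx]
      refine card_le_card fun a ha => ?_
      refine mem_erase.2 ⟨?_, spanV_mono (filter_subset _ _) ha⟩
      rintro rfl
      obtain ⟨u, hu, hau⟩ := mem_spanV.1 ha
      exact (mem_filter.1 hu).2 hau
    set R : ℝ := (n : ℝ) * (9 * q) ^ Y.card with hR
    have hpeel := cnt_peel Hf S x hx R hSloop (by
      intro g _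
      have hc := common_le q hq hq1 Hf hloop hG hn d hdense (Y.image g)
        (by rw [card_image_of_injective _ g.injective]; omega)
        (by rw [card_image_of_injective _ g.injective]; omega)
      rw [card_image_of_injective _ g.injective] at hc
      refine le_trans (le_of_eq ?_) hc
      congr 2
      ext z
      simp [hY])
    rw [← hv, ← hS'] at hpeel
    have hih := (ih S' hss).trans (mul_le_mul_of_nonneg_left
      (rho_mono (n := n) (by omega) hspan (by omega)) (by positivity))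
    have hrs := rho_succ (n := n) (v := v - 1) (by omega)
    rw [Nat.sub_add_cancel hv1] at hrs
    set den := ((n - (v - 1) : ℕ) : ℝ) with hden
    have hden0 : 0 < den := by rw [hden]; exact_mod_cast (by omega : 0 < n - (v - 1))
    refine le_of_mul_le_mul_left ?_ hden0
    calc den * _ ≤ R * ((n.factorial : ℝ) * σ ^ S'.card * rho n (v - 1)) :=
          hpeel.trans (mul_le_mul_of_nonneg_left hih (by positivity))
      _ = (n.factorial : ℝ) * ((9 * q) ^ Y.card * σ ^ S'.card) * (den * rho n v) := by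
          rw [hrs, hR]; field_simp
      _ ≤ (n.factorial : ℝ) * (σ ^ Y.card * σ ^ S'.card) * (den * rho n v) := by
          have := rho_pos (n := n) (by omega) hvn
          gcongr
          rw [hσ]
          gcongr
          exact hCd.trans (le_mul_of_one_le_right (by linarith) hL1)
      _ = _ := by rw [← pow_add, add_comm, hcard]; ring
  have hvn : (spanV F).card ≤ n := by simpa using card_le_univ (spanV F)
  refine (main F).trans ?_
  calc (n.factorial : ℝ) * σ ^ F.card * rho n (spanV F).card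
      ≤ (n.factorial : ℝ) * σ ^ F.card * 9 ^ F.card :=
        mul_le_mul_of_nonneg_left (rho_le_nine hvn (spanV_card_le F)) (by positivity)
    _ = _ := by rw [mul_assoc, ← mul_pow, hσ]; ring

end Vale.Agent.P064
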