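import Mathlib

/-!
Scalar estimates for one stage of the merge tree: a node with `c` leaves is joined `k` times to a
node growing from `c` to `(k + 1) c` leaves.
-/

open Finset

namespace Vale.Agent.P064.Merge

/-- expected description length at one join, for an element of marginal `m` -/
noncomputable def jx (δ D L Λ m : ℝ) (a b : ℕ) : ℝ :=
  (a * m * (1 - m) ^ (a - 1)) * ((1 - (1 - m) ^ b) * D + 2 * δ) +
    L * ((1 - (1 - m) ^ a) - a * m * (1 - m) ^ (a - 1)) * (1 - (1 - m) ^ b) +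
    (a * m - a * m * (1 - m) ^ (a - 1)) * ((b : ℝ) / a) * (1 - m) ^ b +
    Λ * (1 - (1 - m) ^ a) * (1 - (1 - m) ^ b)

/-- monotone potential in the number of doublings -/
noncomputable def psi (m : ℝ) (l : ℕ) : ℝ := min 1 (2 ^ l * m) - min 1 ((2 : ℝ) ^ l * m)⁻¹

lemma psi_mem {m : ℝ} (hm : 0 ≤ m) (l : ℕ) : -1 ≤ psi m l ∧ psi m l ≤ 1 := by
  have h1 : 0 ≤ min 1 (2 ^ l * m) := le_min zero_le_one (by positivity)
  have h2 : 0 ≤ min 1 ((2 : ℝ) ^ l * m)⁻¹ := le_min zero_le_one (by positivity)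
  have h3 := min_le_left 1 (2 ^ l * m)
  have h4 := min_le_left 1 ((2 : ℝ) ^ l * m)⁻¹
  constructor <;> (unfold psi; linarith)

lemma psi_mono {m : ℝ} (hm : 0 < m) : Monotone (psi m) := by
  intro l l' h
  have hp : (2 : ℝ) ^ l * m ≤ 2 ^ l' * m := by gcongr; norm_num
  unfold psi
  exact sub_le_sub (min_le_min le_rfl hp) (min_le_min le_rfl (inv_anti₀ (by positivity) hp))

/-- the gain of the potential over at least one doubling -/
lemma phi_le {m : ℝ} (hm : 0 < m) {l l' : ℕ} (h : l < l') :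
    min 1 (2 ^ l' * m) * min 1 ((2 : ℝ) ^ l * m)⁻¹ ≤ 2 * (psi m l' - psi m l) := by
  set a := (2 : ℝ) ^ l * m with ha
  set M := (2 : ℝ) ^ l' * m with hM
  have ha0 : 0 < a := by rw [ha]; positivity
  have h2 : 2 * a ≤ M := by
    rw [ha, hM, ← mul_assoc, ← pow_succ']
    gcongr
    · norm_num
    · exact h
  have hM0 : 0 < M := by linarith
  unfold psi
  rw [← ha, ← hM]
  have hinv : M⁻¹ ≤ (2 : ℝ)⁻¹ * a⁻¹ :=
    (inv_anti₀ (by positivity) h2).trans_eq (mul_inv _ _)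
  rcases le_or_gt 1 a with h1 | h1
  · have e1 : min 1 M = 1 := min_eq_left (by linarith)
    have e2 : min 1 a = 1 := min_eq_left h1
    have e3 : min 1 a⁻¹ = a⁻¹ := min_eq_right (inv_le_one_of_one_le₀ h1)
    have := min_le_right 1 M⁻¹
    rw [e1, e2, e3]
    linarith
  have e2 : min 1 a = a := min_eq_right h1.le
  have e3 : min 1 a⁻¹ = 1 := min_eq_left (one_le_inv_iff₀.2 ⟨ha0, h1.le⟩)
  rw [e2, e3, mul_one]
  rcases le_or_gt M 1 with h3 | h3
  · have := min_le_left 1 M⁻¹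
    rw [min_eq_right h3]
    linarith
  rw [min_eq_left h3.le]
  have h4 := min_le_right 1 M⁻¹
  have h4' := min_le_left 1 M⁻¹
  rcases le_or_gt a (1 / 2) with h5 | h5
  · linarith
  have h6 : a + (2⁻¹ : ℝ) * a⁻¹ ≤ 3 / 2 := by
    refine le_of_mul_le_mul_left ?_ ha0
    have e : a * (a + (2⁻¹ : ℝ) * a⁻¹) = a * a + 2⁻¹ := by field_simp
    rw [e]
    nlinarith
  linarith

lemma geom_two (z : ℝ) : ∀ k : ℕ, (∑ i ∈ range k, ((i : ℝ) + 2) * z ^ i) * (1 - z) ^ 2 =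
    (2 - z) - z ^ k * (((k : ℝ) + 2) * (1 - z) + z)
  | 0 => by simp; ring
  | k + 1 => by
    rw [Finset.sum_range_succ, add_mul, geom_two z k]
    push_cast
    ring

section

variable {m : ℝ} (h0 : 0 ≤ m) (h1 : m ≤ 1)
include h0 h1

lemma seen_mem (a : ℕ) : 0 ≤ 1 - (1 - m) ^ a ∧ 1 - (1 - m) ^ a ≤ 1 ∧
    1 - (1 - m) ^ a ≤ a * m := by
  have := pow_le_one₀ (n := a) (by linarith : 0 ≤ 1 - m) (by linarith)
  have := pow_nonneg (by linarith : 0 ≤ 1 - m) a
  have h := one_add_mul_le_pow (show (-2 : ℝ) ≤ -m by linarith) a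
  rw [show (1 : ℝ) + -m = 1 - m by ring] at h
  refine ⟨by linarith, by linarith, by linarith⟩

lemma one_le_seen (a : ℕ) : (a : ℝ) * m * (1 - m) ^ (a - 1) ≤ 1 - (1 - m) ^ a := by
  have e : 1 - (1 - m) ^ a = m * ∑ i ∈ range a, (1 - m) ^ i := by
    have h := geom_sum_mul (1 - m) a
    linarith [show (∑ i ∈ range a, (1 - m) ^ i) * (1 - m - 1) =
      -(m * ∑ i ∈ range a, (1 - m) ^ i) by ring]
  rw [e]
  have := Finset.card_nsmul_le_sum (range a) (fun i => (1 - m) ^ i) ((1 - m) ^ (a - 1))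
    fun i hi => pow_le_pow_of_le_one (by linarith) (by linarith) (by
      have := Finset.mem_range.1 hi; omega)
  rw [card_range, nsmul_eq_mul] at this
  calc (a : ℝ) * m * (1 - m) ^ (a - 1) = m * (a * (1 - m) ^ (a - 1)) := by ring
    _ ≤ _ := mul_le_mul_of_nonneg_left this h0

lemma avoid_mul (a : ℕ) : (1 - m) ^ a * (1 + a * m) ≤ 1 := by
  have h := one_add_mul_le_pow (show (-2 : ℝ) ≤ m by linarith) a
  have h' : (1 - m) ^ a * (1 + m) ^ a ≤ 1 := by
    rw [← mul_pow]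
    exact pow_le_one₀ (by nlinarith) (by nlinarith)
  exact le_trans (mul_le_mul_of_nonneg_left h (pow_nonneg (by linarith) a)) h'

lemma discover_sum (c k : ℕ) :
    ∑ j ∈ range k, ((((j + 1) * c : ℕ) : ℝ) * m * (1 - m) ^ ((j + 1) * c - 1)) *
      (1 - (1 - m) ^ c) ≤ 3 := by
  rcases k with _ | k
  · simp
  rw [Finset.sum_range_succ']
  set z := (1 - m) ^ c with hz
  have hz0 : 0 ≤ z := pow_nonneg (by linarith) c
  obtain ⟨hπ0, hπ1, -⟩ := seen_mem h0 h1 c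
  have hy : (c : ℝ) * m * z ≤ 1 - z := by
    have := avoid_mul h0 h1 c
    rw [← hz] at this
    linarith
  have hfirst : (((0 + 1) * c : ℕ) : ℝ) * m * (1 - m) ^ ((0 + 1) * c - 1) * (1 - z) ≤ 1 := by
    simp only [zero_add, one_mul]
    have h2 := one_le_seen h0 h1 c
    rw [← hz] at h2
    have h3 := pow_nonneg (by linarith : 0 ≤ 1 - m) (c - 1)
    calc _ ≤ (1 - z) * (1 - z) := mul_le_mul_of_nonneg_right h2 hπ0
      _ ≤ 1 := mul_le_one₀ hπ1 hπ0 hπ1
  have hrest : ∑ j ∈ range k, ((((j + 1 + 1) * c : ℕ) : ℝ) * m *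
      (1 - m) ^ ((j + 1 + 1) * c - 1)) * (1 - z) ≤ 2 := by
    set S := ∑ j ∈ range k, ((j : ℝ) + 2) * z ^ j with hS
    have hS0 : 0 ≤ S := Finset.sum_nonneg fun j _ => by positivity
    calc _ ≤ ∑ j ∈ range k, ((j : ℝ) + 2) * z ^ j * ((c : ℝ) * m * z * (1 - z)) := by
          refine Finset.sum_le_sum fun j _ => ?_
          have hp : (1 - m) ^ ((j + 1 + 1) * c - 1) ≤ z ^ (j + 1) := by
            rw [hz, ← pow_mul]
            refine pow_le_pow_of_le_one (by linarith) (by linarith) ?_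
            rcases c with _ | c
            · simp
            · simp only [Nat.mul_comm (c + 1), Nat.add_mul]; omega
          calc _ ≤ (((j + 1 + 1) * c : ℕ) : ℝ) * m * z ^ (j + 1) * (1 - z) := by gcongr
            _ = _ := by push_cast; ring
      _ = S * ((c : ℝ) * m * z * (1 - z)) := by rw [hS, Finset.sum_mul]
      _ ≤ S * ((1 - z) * (1 - z)) := by gcongr
      _ = S * (1 - z) ^ 2 := by ring
      _ ≤ 2 := by
          rw [hS, geom_two]
          have : 0 ≤ z ^ k * (((k : ℝ) + 2) * (1 - z) + z) := by positivity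
          linarith
  linarith

lemma join_bound {δ D L Λ : ℝ} (hδ : 0 ≤ δ) (hL : 0 ≤ L) (hΛ : 0 ≤ Λ) {a c : ℕ}
    (ha : 0 < a) (hc : 0 < c) (hm : 0 < m) {M : ℝ} (haM : (a : ℝ) * m ≤ M) :
    jx δ D L Λ m a c ≤
      (a : ℝ) * m * (1 - m) ^ (a - 1) * (1 - (1 - m) ^ c) * D + 2 * δ * M +
        (L + Λ + 1) * (min 1 M * ((c : ℝ) * m * min 1 ((c : ℝ) * m)⁻¹)) := by
  obtain ⟨hb0, hb1, hby⟩ := seen_mem h0 h1 c
  obtain ⟨ha0, ha1, ha2⟩ := seen_mem h0 h1 a
  obtain ⟨hc0, hc1, hc2⟩ := seen_mem h0 h1 (a - 1)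
  have hP0 : 0 ≤ (a : ℝ) * m * (1 - m) ^ (a - 1) :=
    mul_nonneg (by positivity) (pow_nonneg (by linarith) _)
  have hPle : (a : ℝ) * m * (1 - m) ^ (a - 1) ≤ M :=
    (mul_le_of_le_one_right (by positivity) (pow_le_one₀ (by linarith) (by linarith))).trans haM
  set y : ℝ := (c : ℝ) * m with hy
  have hy0 : 0 < y := by rw [hy]; positivity
  set T := min 1 M * (y * min 1 y⁻¹) with hT
  have hmy : min 1 y = y * min 1 y⁻¹ := by
    rw [mul_min_of_nonneg _ _ hy0.le, mul_one, mul_inv_cancel₀ hy0.ne', min_comm]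
  have hzy : (1 - m) ^ c ≤ min 1 y⁻¹ := by
    refine le_min (by linarith) ?_
    rw [inv_eq_one_div, le_div_iff₀ hy0]
    have h := avoid_mul h0 h1 c
    rw [← hy] at h
    linarith [pow_nonneg (by linarith : 0 ≤ 1 - m) c]
  have hsa : 1 - (1 - m) ^ a ≤ min 1 M := le_min ha1 (ha2.trans haM)
  have hsb : 1 - (1 - m) ^ c ≤ y * min 1 y⁻¹ := by rw [← hmy]; exact le_min hb1 hby
  have hab : (1 - (1 - m) ^ a) * (1 - (1 - m) ^ c) ≤ T :=
    mul_le_mul hsa hsb hb0 (ha0.trans hsa)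
  have hmid : L * ((1 - (1 - m) ^ a) - (a : ℝ) * m * (1 - m) ^ (a - 1)) * (1 - (1 - m) ^ c) ≤
      L * T := by
    rw [mul_assoc]
    refine mul_le_mul_of_nonneg_left (le_trans ?_ hab) hL
    exact mul_le_mul_of_nonneg_right (by linarith) hb0
  have hlam : Λ * (1 - (1 - m) ^ a) * (1 - (1 - m) ^ c) ≤ Λ * T := by
    rw [mul_assoc]
    exact mul_le_mul_of_nonneg_left hab hΛ
  have hlast : ((a : ℝ) * m - (a : ℝ) * m * (1 - m) ^ (a - 1)) * ((c : ℝ) / a) * (1 - m) ^ c ≤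
      T := by
    have e : ((a : ℝ) * m - (a : ℝ) * m * (1 - m) ^ (a - 1)) * ((c : ℝ) / a) =
        y * (1 - (1 - m) ^ (a - 1)) := by
      simp only [hy]
      field_simp
    rw [e]
    have h2 : 1 - (1 - m) ^ (a - 1) ≤ min 1 M := by
      refine le_min hc1 (hc2.trans (le_trans ?_ haM))
      gcongr
      exact Nat.sub_le a 1
    calc y * (1 - (1 - m) ^ (a - 1)) * (1 - m) ^ c ≤ y * min 1 M * min 1 y⁻¹ :=
          mul_le_mul (mul_le_mul_of_nonneg_left h2 hy0.le) hzy (pow_nonneg (by linarith) c)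
            (mul_nonneg hy0.le (le_trans hc0 h2))
      _ = T := by rw [hT]; ring
  have hd : (a : ℝ) * m * (1 - m) ^ (a - 1) * (2 * δ) ≤ 2 * δ * M := by
    rw [mul_comm]
    exact mul_le_mul_of_nonneg_left hPle (by linarith)
  unfold jx
  rw [mul_add]
  linarith [show (L + Λ + 1) * T = L * T + Λ * T + T by ring,
    show (a : ℝ) * m * (1 - m) ^ (a - 1) * ((1 - (1 - m) ^ c) * D) =
      (a : ℝ) * m * (1 - m) ^ (a - 1) * (1 - (1 - m) ^ c) * D by ring]

lemma discovery_le (hm : 0 < m) {c k l' : ℕ} (hl : 0 < l')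
    (haM : ∀ j ∈ range k, (((j + 1) * c : ℕ) : ℝ) * m ≤ 2 ^ l' * m)
    (hkc : (k : ℝ) * ((c : ℝ) * m) ≤ 2 ^ l' * m) :
    ∑ j ∈ range k, ((((j + 1) * c : ℕ) : ℝ) * m * (1 - m) ^ ((j + 1) * c - 1)) *
      (1 - (1 - m) ^ c) ≤ (2 : ℝ) ^ l' * m * (6 * (psi m l' - psi m (l' - 1))) := by
  set M : ℝ := (2 : ℝ) ^ l' * m with hM
  have hM0 : 0 < M := by rw [hM]; positivity
  obtain ⟨hb0, hb1, hby⟩ := seen_mem h0 h1 c
  have hg := phi_le hm (show l' - 1 < l' by omega)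
  rw [← hM] at hg
  have hhalf : (2 : ℝ) ^ (l' - 1) * m = M / 2 := by
    rw [hM]
    conv_rhs => rw [show l' = (l' - 1) + 1 by omega, pow_succ]
    ring
  rw [hhalf] at hg
  rcases le_or_gt M 1 with hle | hlt
  · rw [min_eq_right hle, min_eq_left (one_le_inv_iff₀.2 ⟨by positivity, by linarith⟩),
      mul_one] at hg
    calc _ ≤ ∑ _j ∈ range k, M * ((c : ℝ) * m) :=
          Finset.sum_le_sum fun j hj =>
            mul_le_mul ((mul_le_of_le_one_right (by positivity)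
              (pow_le_one₀ (by linarith) (by linarith))).trans (haM j hj)) hby hb0 hM0.le
      _ = M * ((k : ℝ) * ((c : ℝ) * m)) := by
          rw [Finset.sum_const, card_range, nsmul_eq_mul]; ring
      _ ≤ M * M := by gcongr
      _ ≤ _ := mul_le_mul_of_nonneg_left (by linarith) hM0.le
  · rw [min_eq_left hlt.le, one_mul] at hg
    have h5 : M⁻¹ ≤ min 1 (M / 2)⁻¹ :=
      le_min (inv_le_one_of_one_le₀ hlt.le) (inv_anti₀ (by positivity) (by linarith))
    have h7 := mul_le_mul_of_nonneg_left (h5.trans hg) hM0.le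
    rw [mul_inv_cancel₀ hM0.ne'] at h7
    linarith [discover_sum h0 h1 c k]

lemma stage_bound {δ D L Λ : ℝ} (hδ : 0 ≤ δ) (hD : 0 ≤ D) (hL : 0 ≤ L) (hΛ : 0 ≤ Λ)
    (hm : 0 < m) (l l' : ℕ) (hll : l < l') :
    ∑ j ∈ range (2 ^ (l' - l) - 1), jx δ D L Λ m ((j + 1) * 2 ^ l) (2 ^ l) ≤
      (2 : ℝ) ^ l' * m * (6 * D * (psi m l' - psi m (l' - 1)) + 2 * δ * (2 : ℝ) ^ (l' - l) +
        2 * (L + Λ + 1) * (psi m l' - psi m l)) := by
  have hphi := phi_le hm hll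
  have hcy : ((2 ^ l : ℕ) : ℝ) * m = (2 : ℝ) ^ l * m := by push_cast; ring
  rw [← hcy] at hphi
  set c : ℕ := 2 ^ l with hc
  set M : ℝ := (2 : ℝ) ^ l' * m with hM
  set R : ℝ := (2 : ℝ) ^ (l' - l) with hR
  have hRy : R * ((c : ℝ) * m) = M := by
    rw [hcy, hM, hR, ← mul_assoc, ← pow_add, Nat.sub_add_cancel hll.le]
  set k : ℕ := 2 ^ (l' - l) - 1 with hk
  have hkR : (k : ℝ) ≤ R := by
    rw [hR]; exact_mod_cast (Nat.sub_le (2 ^ (l' - l)) 1)
  have hM0 : 0 < M := by rw [hM]; positivity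
  have haM : ∀ j ∈ range k, (((j + 1) * c : ℕ) : ℝ) * m ≤ M := by
    intro j hj
    rw [Finset.mem_range] at hj
    rw [← hRy]
    push_cast
    rw [mul_assoc]
    gcongr
    rw [hR]
    exact_mod_cast (by omega : j + 1 ≤ 2 ^ (l' - l))
  have hkc : (k : ℝ) * ((c : ℝ) * m) ≤ M := by
    rw [← hRy]; gcongr
  have hA := mul_le_mul_of_nonneg_right (discovery_le h0 h1 hm (by omega) haM hkc) hD
  set T := min 1 M * ((c : ℝ) * m * min 1 ((c : ℝ) * m)⁻¹) with hT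
  have hT0 : 0 ≤ T := by
    have h5 : 0 ≤ min 1 M := le_min zero_le_one hM0.le
    have h6 : 0 ≤ min 1 ((c : ℝ) * m)⁻¹ := le_min zero_le_one (by positivity)
    positivity
  have hK : 0 ≤ L + Λ + 1 := by linarith
  calc _ ≤ ∑ j ∈ range k, ((((j + 1) * c : ℕ) : ℝ) * m * (1 - m) ^ ((j + 1) * c - 1) *
        (1 - (1 - m) ^ c) * D + 2 * δ * M + (L + Λ + 1) * T) :=
        Finset.sum_le_sum fun j hj => join_bound h0 h1 hδ hL hΛ
          (by rw [hc]; positivity) (by rw [hc]; positivity) hm (haM j hj)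
    _ = (∑ j ∈ range k, (((j + 1) * c : ℕ) : ℝ) * m * (1 - m) ^ ((j + 1) * c - 1) *
          (1 - (1 - m) ^ c)) * D + (k : ℝ) * (2 * δ * M) + (k : ℝ) * ((L + Λ + 1) * T) := by
        rw [Finset.sum_add_distrib, Finset.sum_add_distrib, ← Finset.sum_mul, Finset.sum_const,
          Finset.sum_const, card_range, nsmul_eq_mul, nsmul_eq_mul]
    _ ≤ M * (6 * (psi m l' - psi m (l' - 1))) * D + R * (2 * δ * M) +
        R * ((L + Λ + 1) * T) := by gcongr
    _ = M * (6 * D * (psi m l' - psi m (l' - 1)) + 2 * δ * R) +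
        (L + Λ + 1) * (R * ((c : ℝ) * m)) * (min 1 M * min 1 ((c : ℝ) * m)⁻¹) := by
        rw [hT]; ring
    _ ≤ M * (6 * D * (psi m l' - psi m (l' - 1)) + 2 * δ * R) +
        (L + Λ + 1) * M * (2 * (psi m l' - psi m l)) := by
        rw [hRy]
        gcongr
    _ = _ := by ring

end

end Vale.Agent.P064.Merge
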