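import Mathlib
import Vale.Agent.P064.Abstract

/-!
Merge trees of arbitrary shape.  A leaf is a copy of `F`.  When a node `B` joins a node `A`,
the overlap is described inside the union of `A` by a product code whose parameters depend only on
the multiplicities seen in `A`, and inside the union of `B` by the index of one of the few
translates of that overlap lying there (bounded by `cnt_le`).
-/

open scoped Pointwise
open Finset

namespace Vale.Agent.P064.Merge

universe u

/-- shapes of merge trees -/
inductive Sh : Type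
  | leaf : Sh
  | node (a b : Sh) : Sh

/-- number of leaves -/
def Sh.n : Sh → ℕ
  | .leaf => 1
  | .node a b => a.n + b.n

lemma Sh.n_pos : ∀ s : Sh, 0 < s.n
  | .leaf => Nat.one_pos
  | .node a b => Nat.add_pos_left a.n_pos b.n

/-- trees of a given shape with labelled leaves -/
def Tree (L : Type u) : Sh → Type u
  | .leaf => L
  | .node a b => Tree L a × Tree L b

/-- trees of finite type form a finite type -/
@[instance_reducible]
def treeFintype (L : Type u) [Fintype L] : ∀ s, Fintype (Tree L s)
  | .leaf => inferInstanceAs (Fintype L)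
  | .node a b =>
    haveI := treeFintype L a
    haveI := treeFintype L b
    inferInstanceAs (Fintype (Tree L a × Tree L b))

/-- success probability of an element of multiplicity `μ` in a node with `a` leaves, met by a
node with `b` leaves -/
noncomputable def pr (δ : ℝ) (a b μ : ℕ) : ℝ :=
  if μ ≤ 1 then δ else ((μ : ℝ) * b / a) / (1 + (μ : ℝ) * b / a)

lemma pr_mem {δ : ℝ} (hδ : 0 < δ ∧ δ < 1) {a b : ℕ} (ha : 0 < a) (hb : 0 < b) (μ : ℕ) :
    0 < pr δ a b μ ∧ pr δ a b μ < 1 := by
  unfold pr
  split_ifs with h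
  · exact hδ
  · have hμ : (0 : ℝ) < μ := by exact_mod_cast (by omega : 0 < μ)
    have h1 : 0 < (μ : ℝ) * b / a := by positivity
    refine ⟨by positivity, ?_⟩
    rw [div_lt_one (by positivity)]
    linarith

section

variable {G X : Type u} [Group G] [Fintype G] [DecidableEq X] [MulAction G X]

attribute [local instance] treeFintype

/-- product code of `V ∩ U` inside `U` -/
noncomputable def code (U : Finset X) (p : X → ℝ) (V : Finset X) : ℝ :=
  ∏ x ∈ U, if x ∈ V then p x else 1 - p x

/-- inverse of the bound on the number of positions of `v` elements inside a union of `u` -/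
noncomputable def pen (u v : ℕ) : ℝ := ((Acst * lfac u v) ^ v)⁻¹

lemma pen_pos (u v : ℕ) : 0 < pen u v := by
  have := one_le_lfac u v
  have : 0 < Acst := by norm_num [Acst]
  unfold pen
  positivity

lemma code_pos (U : Finset X) (p : X → ℝ) (hp : ∀ x, 0 < p x ∧ p x < 1) (V : Finset X) :
    0 < code U p V := by
  unfold code
  refine Finset.prod_pos fun x _ => ?_
  split_ifs <;> linarith [hp x]

lemma code_sum (U : Finset X) (p : X → ℝ) : ∑ V ∈ U.powerset, code U p V = 1 := by
  have h := Finset.prod_add p (fun x => 1 - p x) U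
  simp only [add_sub_cancel, Finset.prod_const_one] at h
  rw [h]
  refine Finset.sum_congr rfl fun V hV => ?_
  rw [mem_powerset] at hV
  unfold code
  rw [Finset.prod_ite, Finset.filter_mem_eq_inter, Finset.inter_eq_right.2 hV,
    Finset.filter_notMem_eq_sdiff]

lemma code_inter (U : Finset X) (p : X → ℝ) (V : Finset X) : code U p (U ∩ V) = code U p V := by
  unfold code
  refine Finset.prod_congr rfl fun x hx => ?_
  simp [hx]

lemma code_smul (h : G) (U V : Finset X) (p p' : X → ℝ) (hp : ∀ x, p' (h • x) = p x) :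
    code (h • U) p' (h • V) = code U p V := by
  unfold code
  rw [Finset.smul_finset_def, Finset.prod_image (fun a _ b _ hab => smul_left_cancel h hab)]
  refine Finset.prod_congr rfl fun x _ => ?_
  rw [hp]
  simp [← Finset.smul_finset_def, Finset.smul_mem_smul_finset_iff]

variable (F : Finset X)

/-- union of the copies at the leaves -/
def tU : ∀ s, Tree G s → Finset X
  | .leaf, g => (show G from g) • F
  | .node a b, A => tU a A.1 ∪ tU b A.2

/-- number of leaves containing an element -/
def mult : ∀ s, Tree G s → X → ℕ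
  | .leaf, g, x => if x ∈ (show G from g) • F then 1 else 0
  | .node a b, A, x => mult a A.1 x + mult b A.2 x

/-- weight of a tree -/
noncomputable def tw (δ : ℝ) : ∀ s, Tree G s → ℝ
  | .leaf, _ => 1
  | .node a b, A => tw δ a A.1 * tw δ b A.2 *
      code (tU F a A.1) (fun x => pr δ a.n b.n (mult F a A.1 x)) (tU F b A.2) *
      pen (tU F b A.2).card (tU F a A.1 ∩ tU F b A.2).card

/-- left translation of a tree -/
def tsmul (h : G) : ∀ s, Tree G s → Tree G s
  | .leaf, g => (h * (show G from g) : G)
  | .node a b, A => (tsmul h a A.1, tsmul h b A.2)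

lemma tw_pos {δ : ℝ} (hδ : 0 < δ ∧ δ < 1) : ∀ s (A : Tree G s), 0 < tw F δ s A
  | .leaf, _ => one_pos
  | .node a b, A => mul_pos (mul_pos (mul_pos (tw_pos hδ a A.1) (tw_pos hδ b A.2))
      (code_pos _ _ (fun _ => pr_mem hδ a.n_pos b.n_pos _) _)) (pen_pos _ _)

lemma tsmul_inv (h : G) : ∀ s (A : Tree G s), tsmul h⁻¹ s (tsmul h s A) = A
  | .leaf, A => inv_mul_cancel_left h A
  | .node a b, A => Prod.ext (tsmul_inv h a A.1) (tsmul_inv h b A.2)

/-- translation as a permutation of trees -/
def tsmulEquiv (h : G) (s : Sh) : Tree G s ≃ Tree G s where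
  toFun := tsmul h s
  invFun := tsmul h⁻¹ s
  left_inv A := tsmul_inv h s A
  right_inv A := by simpa using tsmul_inv h⁻¹ s A

lemma tU_smul (h : G) : ∀ s (A : Tree G s), tU F s (tsmul h s A) = h • tU F s A
  | .leaf, A => mul_smul h (show G from A) F
  | .node a b, A => by
    simp only [tU, tsmul, Finset.smul_finset_union]
    rw [tU_smul h a A.1, tU_smul h b A.2]

lemma mult_smul (h : G) : ∀ s (A : Tree G s) (x : X),
    mult F s (tsmul h s A) (h • x) = mult F s A x
  | .leaf, g, x => by
    change (if h • x ∈ (h * (show G from g)) • F then 1 else 0) = _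
    rw [mul_smul]
    simp only [Finset.smul_mem_smul_finset_iff]
    rfl
  | .node a b, A, x => by
    simp only [mult, tsmul]
    rw [mult_smul h a A.1 x, mult_smul h b A.2 x]

lemma mult_eq_zero : ∀ s (A : Tree G s) (x : X), mult F s A x = 0 ↔ x ∉ tU F s A
  | .leaf, A, x => by simp [mult, tU]
  | .node a b, A, x => by
    simp only [mult, tU, Nat.add_eq_zero_iff, notMem_union, mult_eq_zero a A.1 x,
      mult_eq_zero b A.2 x]

lemma card_tU : ∀ s (A : Tree G s), (tU F s A).card ≤ s.n * F.card
  | .leaf, A => by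
    change ((show G from A) • F).card ≤ 1 * F.card
    rw [Finset.card_smul_finset, one_mul]
  | .node a b, A => by
    simp only [tU, Sh.n, add_mul]
    exact (card_union_le _ _).trans (Nat.add_le_add (card_tU a A.1) (card_tU b A.2))

lemma tw_smul (δ : ℝ) (h : G) : ∀ s (A : Tree G s), tw F δ s (tsmul h s A) = tw F δ s A
  | .leaf, A => rfl
  | .node a b, A => by
    simp only [tw, tsmul]
    rw [tw_smul δ h a A.1, tw_smul δ h b A.2, tU_smul, tU_smul,
      code_smul h (tU F a A.1) (tU F b A.2) (fun x => pr δ a.n b.n (mult F a A.1 x))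
        (fun x => pr δ a.n b.n (mult F a (tsmul h a A.1) x))
        (fun x => by rw [mult_smul]),
      ← Finset.smul_finset_inter, Finset.card_smul_finset, Finset.card_smul_finset]

lemma cnt_le_sub (q : ℝ) (hq : 0 < q) (H : Finset X) (hH : Good G q H) (U : Finset X)
    (hU : ∃ h : G, h • U ⊆ H) (P : Finset X) :
    (cnt (G := G) U P : ℝ) * pen U.card P.card ≤ (Fintype.card G : ℝ) * q ^ P.card := by
  obtain ⟨h, hh⟩ := hU
  rcases P.eq_empty_or_nonempty with rfl | hP
  · simp only [pen, card_empty, pow_zero, inv_one, mul_one]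
    exact_mod_cast Finset.card_le_univ _
  have hg : Good G q (h • U) := fun W hW => hH W (hW.trans hh)
  have h1 := cnt_le q hq (h • U) hg P hP
  rw [cnt_smul, Finset.card_smul_finset] at h1
  have hpos : 0 < (Acst * lfac U.card P.card) ^ P.card := by
    have := one_le_lfac U.card P.card
    have : 0 < Acst := by norm_num [Acst]
    positivity
  unfold pen
  rw [← div_eq_mul_inv, div_le_iff₀ hpos]
  calc _ ≤ (Fintype.card G : ℝ) * (Acst * lfac U.card P.card * q) ^ P.card := h1
    _ = _ := by rw [mul_pow]; ring

lemma pair_bound (q : ℝ) (hq : 0 < q) (H : Finset X) (hH : Good G q H) (U U' : Finset X)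
    (p : X → ℝ) (hp : ∀ x, 0 < p x ∧ p x < 1) (hU' : ∃ h : G, h • U' ⊆ H) :
    ∑ h : G, q ^ (U ∪ h • U').card * code U p (h • U') * pen U'.card (U ∩ h • U').card ≤
      (Fintype.card G : ℝ) * q ^ U.card * q ^ U'.card := by
  classical
  let a : Finset X → ℝ := fun P =>
    q ^ U.card * q ^ U'.card / q ^ P.card * code U p P * pen U'.card P.card
  have ha : ∀ P, 0 ≤ a P := fun P => by
    have := code_pos U p hp P
    have := pen_pos U'.card P.card
    simp only [a]; positivity
  have e1 : ∀ h : G, q ^ (U ∪ h • U').card * code U p (h • U') *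
      pen U'.card (U ∩ h • U').card = a (U ∩ h • U') := by
    intro h
    simp only [a]
    rw [code_inter]
    congr 2
    have hc := Finset.card_union_add_card_inter U (h • U')
    rw [Finset.card_smul_finset] at hc
    rw [eq_div_iff (by positivity), ← pow_add, ← pow_add, hc]
  have e2 : ∀ P, (#{h : G | U ∩ h • U' = P} : ℝ) ≤ (cnt (G := G) U' P : ℝ) := by
    intro P
    unfold cnt
    refine Nat.cast_le.2 ((card_le_card ?_).trans (le_of_eq ((card_map
      ⟨fun g : G => g⁻¹, inv_injective⟩))))
    intro h hh
    simp only [mem_filter, mem_univ, true_and] at hh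
    refine mem_map.2 ⟨h⁻¹, mem_filter.2 ⟨mem_univ _, ?_⟩, by simp⟩
    rw [← hh]
    exact Finset.smul_finset_subset_iff.2 (by simpa using inter_subset_right)
  calc _ = ∑ h : G, a (U ∩ h • U') := Finset.sum_congr rfl fun h _ => e1 h
    _ = ∑ P ∈ U.powerset, (#{h : G | U ∩ h • U' = P} : ℝ) * a P := by
        rw [← Finset.sum_fiberwise_of_maps_to (t := U.powerset) (g := fun h : G => U ∩ h • U')
          (fun h _ => mem_powerset.2 inter_subset_left)]
        refine Finset.sum_congr rfl fun P _ => ?_
        rw [Finset.sum_congr rfl (fun h hh => by rw [(mem_filter.1 hh).2]), Finset.sum_const,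
          nsmul_eq_mul]
    _ ≤ ∑ P ∈ U.powerset, (Fintype.card G : ℝ) * q ^ U.card * q ^ U'.card * code U p P := by
        refine Finset.sum_le_sum fun P _ => ?_
        refine (mul_le_mul_of_nonneg_right (e2 P) (ha P)).trans ?_
        have h1 := cnt_le_sub q hq H hH U' hU' P
        have := code_pos U p hp P
        simp only [a]
        calc _ = (q ^ U.card * q ^ U'.card / q ^ P.card * code U p P) *
              ((cnt (G := G) U' P : ℝ) * pen U'.card P.card) := by ring
          _ ≤ (q ^ U.card * q ^ U'.card / q ^ P.card * code U p P) *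
              ((Fintype.card G : ℝ) * q ^ P.card) :=
              mul_le_mul_of_nonneg_left h1 (by positivity)
          _ = _ := by field_simp
    _ = _ := by rw [← Finset.mul_sum, code_sum, mul_one]

/-- weighted count of all trees with union inside a translate of `H` -/
noncomputable def tZ (δ q : ℝ) (H : Finset X) (s : Sh) : ℝ := by
  classical exact
    ∑ A : Tree G s, if ∃ h : G, h • tU F s A ⊆ H then q ^ (tU F s A).card * tw F δ s A else 0

lemma tZ_nonneg {δ : ℝ} (hδ : 0 < δ ∧ δ < 1) (q : ℝ) (hq : 0 < q) (H : Finset X) (s : Sh) :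
    0 ≤ tZ (G := G) F δ q H s := by
  classical
  unfold tZ
  refine Finset.sum_nonneg fun A _ => ?_
  have := tw_pos (G := G) F hδ s A
  split_ifs <;> positivity

lemma tZ_node {δ : ℝ} (hδ : 0 < δ ∧ δ < 1) (q : ℝ) (hq : 0 < q) (H : Finset X)
    (hH : Good G q H) (a b : Sh) :
    tZ (G := G) F δ q H (.node a b) ≤ tZ (G := G) F δ q H a * tZ (G := G) F δ q H b := by
  classical
  let ok : Finset X → Prop := fun U => ∃ h : G, h • U ⊆ H
  let φ : Tree G a → Tree G b → ℝ := fun A B =>
    if ok (tU F a A ∪ tU F b B) then q ^ (tU F a A ∪ tU F b B).card *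
      (tw F δ a A * tw F δ b B *
        code (tU F a A) (fun x => pr δ a.n b.n (mult F a A x)) (tU F b B) *
        pen (tU F b B).card (tU F a A ∩ tU F b B).card) else 0
  let g : ∀ s : Sh, Tree G s → ℝ := fun s A =>
    if ok (tU F s A) then q ^ (tU F s A).card * tw F δ s A else 0
  have hZ : ∀ s, tZ (G := G) F δ q H s = ∑ A, g s A := fun _ => rfl
  have hZ1 : tZ (G := G) F δ q H (.node a b) = ∑ A, ∑ B, φ A B :=
    Fintype.sum_prod_type (fun P : Tree G a × Tree G b => φ P.1 P.2)
  have hg0 : ∀ s A, 0 ≤ g s A := fun s A => by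
    have := tw_pos (G := G) F hδ s A
    simp only [g]
    split_ifs <;> positivity
  have hpair : ∀ A B, ∑ h : G, φ A (tsmul h b B) ≤ (Fintype.card G : ℝ) * (g a A * g b B) := by
    intro A B
    have hA := tw_pos (G := G) F hδ a A
    have hB := tw_pos (G := G) F hδ b B
    have hp : ∀ x, 0 < pr δ a.n b.n (mult F a A x) ∧ pr δ a.n b.n (mult F a A x) < 1 :=
      fun x => pr_mem hδ a.n_pos b.n_pos _
    by_cases hok : ok (tU F a A) ∧ ok (tU F b B)
    · have e1 : ∀ h : G, φ A (tsmul h b B) ≤ tw F δ a A * tw F δ b B *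
          (q ^ (tU F a A ∪ h • tU F b B).card *
            code (tU F a A) (fun x => pr δ a.n b.n (mult F a A x)) (h • tU F b B) *
            pen (tU F b B).card (tU F a A ∩ h • tU F b B).card) := by
        intro h
        have := code_pos (tU F a A) _ hp (h • tU F b B)
        have := pen_pos (tU F b B).card (tU F a A ∩ h • tU F b B).card
        simp only [φ, tU_smul, tw_smul, Finset.card_smul_finset]
        split_ifs
        · exact le_of_eq (by ring)
        · positivity
      calc _ ≤ _ := Finset.sum_le_sum fun h _ => e1 h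
        _ ≤ tw F δ a A * tw F δ b B * ((Fintype.card G : ℝ) *
            q ^ (tU F a A).card * q ^ (tU F b B).card) := by
            rw [← Finset.mul_sum]
            exact mul_le_mul_of_nonneg_left (pair_bound q hq H hH _ _ _ hp hok.2) (by positivity)
        _ = _ := by simp only [g, if_pos hok.1, if_pos hok.2]; ring
    · have e1 : ∀ h : G, φ A (tsmul h b B) = 0 := by
        intro h
        simp only [φ, tU_smul]
        refine if_neg fun ⟨c, hc⟩ => hok ⟨⟨c, ?_⟩, ⟨c * h, ?_⟩⟩
        · exact (Finset.smul_finset_subset_smul_finset subset_union_left).trans hc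
        · rw [mul_smul]
          exact (Finset.smul_finset_subset_smul_finset subset_union_right).trans hc
      rw [Finset.sum_eq_zero fun h _ => e1 h]
      have := hg0 a A
      have := hg0 b B
      positivity
  have hN : (0 : ℝ) < Fintype.card G := by exact_mod_cast Fintype.card_pos
  refine le_of_mul_le_mul_left ?_ hN
  calc (Fintype.card G : ℝ) * tZ (G := G) F δ q H (.node a b)
      = ∑ A, (Fintype.card G : ℝ) * ∑ B, φ A B := by rw [hZ1, Finset.mul_sum]
    _ = ∑ A, ∑ B, ∑ h : G, φ A (tsmul h b B) := by
        refine Finset.sum_congr rfl fun A _ => ?_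
        rw [Finset.sum_comm]
        have : ∀ h : G, ∑ B, φ A (tsmul h b B) = ∑ B, φ A B := fun h =>
          Fintype.sum_equiv (tsmulEquiv h b) _ _ fun B => rfl
        rw [Finset.sum_congr rfl fun h _ => this h, Finset.sum_const, nsmul_eq_mul,
          Finset.card_univ]
    _ ≤ ∑ A, ∑ B, (Fintype.card G : ℝ) * (g a A * g b B) :=
        Finset.sum_le_sum fun A _ => Finset.sum_le_sum fun B _ => hpair A B
    _ = _ := by
        rw [hZ a, hZ b, Finset.sum_mul_sum]
        simp only [Finset.mul_sum]

lemma tZ_le {δ : ℝ} (hδ : 0 < δ ∧ δ < 1) (q : ℝ) (hq : 0 < q) (H : Finset X)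
    (hH : Good G q H) : ∀ s, tZ (G := G) F δ q H s ≤
      ((Fintype.card G : ℝ) * q ^ F.card) ^ s.n
  | .leaf => by
    classical
    simp only [Sh.n, pow_one]
    calc tZ (G := G) F δ q H .leaf ≤ ∑ _A : Tree G .leaf, q ^ F.card := by
          unfold tZ
          refine Finset.sum_le_sum fun A _ => ?_
          have hc : (tU F .leaf A).card = F.card := Finset.card_smul_finset _ _
          simp only [hc, tw, mul_one]
          split_ifs
          · exact le_rfl
          · positivity
      _ = _ := by
          rw [Finset.sum_const, nsmul_eq_mul, Finset.card_univ]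
          rfl
  | .node a b => by
    have h0 := tZ_nonneg (G := G) F hδ q hq H b
    refine (tZ_node F hδ q hq H hH a b).trans ?_
    simp only [Sh.n, pow_add]
    exact mul_le_mul (tZ_le hδ q hq H hH a) (tZ_le hδ q hq H hH b) h0 (by positivity)

/-- genuine trees: every leaf is a copy inside `H` -/
noncomputable def tT (Ω : Finset G) : ∀ s, Finset (Tree G s)
  | .leaf => Ω
  | .node a b => tT Ω a ×ˢ tT Ω b

lemma card_tT (Ω : Finset G) : ∀ s, (tT Ω s).card = Ω.card ^ s.n
  | .leaf => (pow_one _).symm
  | .node a b => by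
    unfold tT
    exact (card_product _ _).trans (by rw [card_tT Ω a, card_tT Ω b, ← pow_add]; rfl)

lemma tT_subset (H : Finset X) (Ω : Finset G) (hΩ : ∀ g ∈ Ω, g • F ⊆ H) :
    ∀ s, ∀ A ∈ tT Ω s, tU F s A ⊆ H
  | .leaf, A, hA => hΩ A hA
  | .node a b, A, hA => by
    unfold tT at hA
    obtain ⟨h1, h2⟩ := mem_product.1 hA
    exact union_subset (tT_subset H Ω hΩ a _ h1) (tT_subset H Ω hΩ b _ h2)

lemma sum_tT_le {δ : ℝ} (hδ : 0 < δ ∧ δ < 1) (q : ℝ) (hq : 0 < q) (H : Finset X)
    (hH : Good G q H) (Ω : Finset G) (hΩ : ∀ g ∈ Ω, g • F ⊆ H) (s : Sh) :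
    ∑ A ∈ tT Ω s, tw F δ s A ≤ 2 ^ (H.card + 1) * tZ (G := G) F δ q H s := by
  classical
  have hW : ∀ W ∈ H.powerset,
      ∑ A ∈ tT Ω s with tU F s A = W, tw F δ s A ≤ 2 * tZ (G := G) F δ q H s := by
    intro W hW
    rw [mem_powerset] at hW
    let S : Finset X → ℝ := fun W' => ∑ A : Tree G s with tU F s A = W', tw F δ s A
    have hw0 : ∀ A : Tree G s, 0 ≤ tw F δ s A := fun A => (tw_pos F hδ s A).le
    have hS0 : ∀ W', 0 ≤ S W' := fun W' => Finset.sum_nonneg fun A _ => hw0 A
    have h1 : ∑ A ∈ tT Ω s with tU F s A = W, tw F δ s A ≤ S W :=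
      Finset.sum_le_sum_of_subset_of_nonneg
        (Finset.filter_subset_filter _ (subset_univ _)) fun A _ _ => hw0 A
    have h2 : ∀ W' ∈ orbitF (G := G) W, S W' = S W := by
      intro W' hW'
      obtain ⟨a, rfl⟩ := mem_orbitF.1 hW'
      refine Finset.sum_equiv (tsmulEquiv a s).symm (fun A => ?_) (fun A _ => ?_)
      · simp only [mem_filter, mem_univ, true_and]
        change tU F s A = a • W ↔ tU F s (tsmul a⁻¹ s A) = W
        rw [tU_smul, inv_smul_eq_iff]
      · exact (tw_smul F δ a⁻¹ s A).symm
    have h3 : ((orbitF (G := G) W).card : ℝ) * q ^ W.card * S W ≤ tZ (G := G) F δ q H s := by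
      calc _ = ∑ W' ∈ orbitF (G := G) W, q ^ W.card * S W' := by
            rw [Finset.sum_congr rfl fun W' hW' => by rw [h2 W' hW'], Finset.sum_const,
              nsmul_eq_mul, mul_assoc]
        _ = ∑ A : Tree G s with tU F s A ∈ orbitF (G := G) W, q ^ W.card * tw F δ s A := by
            rw [← Finset.sum_fiberwise_of_maps_to (t := orbitF (G := G) W)
              (g := tU F s) (fun A hA => (mem_filter.1 hA).2)]
            refine Finset.sum_congr rfl fun W' hW' => ?_
            rw [Finset.filter_filter, Finset.mul_sum]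
            refine Finset.sum_congr ?_ fun A _ => rfl
            ext A
            simp only [mem_filter, mem_univ, true_and]
            exact ⟨fun h => ⟨h ▸ hW', h⟩, fun h => h.2⟩
        _ ≤ tZ (G := G) F δ q H s := by
            unfold tZ
            rw [Finset.sum_filter]
            refine Finset.sum_le_sum fun A _ => ?_
            have := hw0 A
            split_ifs with hA hB hB
            · obtain ⟨a, ha⟩ := mem_orbitF.1 hA
              rw [← ha, Finset.card_smul_finset]
            · obtain ⟨a, ha⟩ := mem_orbitF.1 hA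
              exact absurd ⟨a⁻¹, by rw [← ha, inv_smul_smul]; exact hW⟩ hB
            · positivity
            · exact le_rfl
    have h4 := hH W hW
    nlinarith [hS0 W]
  calc _ = ∑ W ∈ H.powerset, ∑ A ∈ tT Ω s with tU F s A = W, tw F δ s A :=
        (Finset.sum_fiberwise_of_maps_to
          (fun A hA => mem_powerset.2 (tT_subset F H Ω hΩ s A hA)) _).symm
    _ ≤ ∑ _W ∈ H.powerset, 2 * tZ (G := G) F δ q H s := Finset.sum_le_sum hW
    _ = _ := by rw [Finset.sum_const, card_powerset, nsmul_eq_mul]; push_cast; ring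

end

end Vale.Agent.P064.Merge
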