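import Mathlib
import Vale.Agent.P064.Engine
import Vale.Agent.P064.MergeTree
import Vale.Agent.P064.MergeScalar

/-!
Average weight of a genuine merge tree and the resulting bound on the number of copies.
-/

open scoped Pointwise
open Finset

namespace Vale.Agent.P064.Merge

set_option linter.unusedSectionVars false

universe u

variable {G X : Type u} [Group G] [Fintype G] [DecidableEq X] [MulAction G X]

attribute [local instance] treeFintype

/-- expectation over genuine trees -/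
noncomputable def av (Ω : Finset G) (s : Sh) (f : Tree G s → ℝ) : ℝ :=
  (∑ A ∈ tT Ω s, f A) / (Ω.card : ℝ) ^ s.n

variable (F : Finset X) (Ω : Finset G)

lemma av_add (s : Sh) (f g : Tree G s → ℝ) :
    av Ω s (fun A => f A + g A) = av Ω s f + av Ω s g := by
  unfold av
  rw [Finset.sum_add_distrib, add_div]

lemma av_sub (s : Sh) (f g : Tree G s → ℝ) :
    av Ω s (fun A => f A - g A) = av Ω s f - av Ω s g := by
  unfold av
  rw [Finset.sum_sub_distrib, sub_div]

lemma av_smul (s : Sh) (k : ℝ) (f : Tree G s → ℝ) :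
    av Ω s (fun A => k * f A) = k * av Ω s f := by
  unfold av
  rw [← Finset.mul_sum, mul_div_assoc]

lemma av_mono (s : Sh) (f g : Tree G s → ℝ) (h : ∀ A ∈ tT Ω s, f A ≤ g A) :
    av Ω s f ≤ av Ω s g := by
  unfold av
  gcongr with A hA
  exact h A hA

lemma av_sum {κ : Type*} (S : Finset κ) (s : Sh) (f : κ → Tree G s → ℝ) :
    av Ω s (fun A => ∑ i ∈ S, f i A) = ∑ i ∈ S, av Ω s (f i) := by
  unfold av
  rw [Finset.sum_comm, Finset.sum_div]

lemma av_const (hne : Ω.Nonempty) (s : Sh) (k : ℝ) : av Ω s (fun _ => k) = k := by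
  have : (0 : ℝ) < (Ω.card : ℝ) := by exact_mod_cast hne.card_pos
  unfold av
  rw [Finset.sum_const, card_tT, nsmul_eq_mul]
  push_cast
  field_simp

lemma av_node (a b : Sh) (f : Tree G a → ℝ) (g : Tree G b → ℝ) :
    av Ω (.node a b) (fun P => f P.1 * g P.2) = av Ω a f * av Ω b g := by
  unfold av
  rw [div_mul_div_comm, Finset.sum_mul_sum, Sh.n, pow_add]
  congr 1
  exact Finset.sum_product (tT Ω a) (tT Ω b) (fun P => f P.1 * g P.2)

lemma av_fst (hne : Ω.Nonempty) (a b : Sh) (f : Tree G a → ℝ) :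
    av Ω (.node a b) (fun P => f P.1) = av Ω a f := by
  have h := av_node Ω a b f (fun _ => 1)
  simp only [mul_one, av_const Ω hne] at h
  exact h

lemma av_snd (hne : Ω.Nonempty) (a b : Sh) (g : Tree G b → ℝ) :
    av Ω (.node a b) (fun P => g P.2) = av Ω b g := by
  have h := av_node Ω a b (fun _ => 1) g
  simp only [one_mul, av_const Ω hne] at h
  exact h

lemma av_node_four (a b : Sh) (f1 f2 f3 f4 : Tree G a → ℝ) (g1 g2 g3 g4 : Tree G b → ℝ) :
    av Ω (.node a b) (fun P => f1 P.1 * g1 P.2 + f2 P.1 * g2 P.2 + f3 P.1 * g3 P.2 +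
      f4 P.1 * g4 P.2) =
      av Ω a f1 * av Ω b g1 + av Ω a f2 * av Ω b g2 + av Ω a f3 * av Ω b g3 +
        av Ω a f4 * av Ω b g4 := by
  rw [← av_node Ω a b f1 g1, ← av_node Ω a b f2 g2, ← av_node Ω a b f3 g3, ← av_node Ω a b f4 g4]
  exact (av_add Ω (.node a b) _ _).trans (congrArg (· + _) ((av_add Ω (.node a b) _ _).trans
    (congrArg (· + _) (av_add Ω (.node a b) _ _))))

/-- marginal of `x` among the copies in `Ω` -/
noncomputable def mg (x : X) : ℝ := (#{g ∈ Ω | x ∈ g • F} : ℝ) / Ω.card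

lemma mg_mem (x : X) : 0 ≤ mg F Ω x ∧ mg F Ω x ≤ 1 := by
  refine ⟨by unfold mg; positivity, ?_⟩
  unfold mg
  exact div_le_one_of_le₀ (by exact_mod_cast card_filter_le _ _) (by positivity)

/-- indicator of a multiplicity -/
def ind (s : Sh) (A : Tree G s) (x : X) (k : ℕ) : ℝ := if mult F s A x = k then 1 else 0

lemma av_ind_zero (hne : Ω.Nonempty) (x : X) : ∀ s,
    av Ω s (fun A => ind F s A x 0) = (1 - mg F Ω x) ^ s.n
  | .leaf => by
    have hc : (0 : ℝ) < (Ω.card : ℝ) := by exact_mod_cast hne.card_pos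
    change (∑ g ∈ Ω, if (if x ∈ g • F then 1 else 0) = (0 : ℕ) then (1 : ℝ) else 0) /
      (Ω.card : ℝ) ^ 1 = (1 - mg F Ω x) ^ 1
    have h1 : ∀ g ∈ Ω, (if (if x ∈ g • F then 1 else 0) = (0 : ℕ) then (1 : ℝ) else 0) =
        1 - (if x ∈ g • F then (1 : ℝ) else 0) := fun g _ => by split_ifs <;> simp_all
    rw [Finset.sum_congr rfl h1, Finset.sum_sub_distrib, Finset.sum_const, Finset.sum_boole,
      nsmul_eq_mul, mul_one, pow_one, pow_one, mg]
    field_simp
  | .node a b => by
    have h : ∀ P : Tree G a × Tree G b, ind F (.node a b) P x 0 =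
        ind F a P.1 x 0 * ind F b P.2 x 0 := fun P => by
      simp only [ind, mult, Nat.add_eq_zero_iff]
      split_ifs <;> simp_all
    refine (congrArg (av Ω (.node a b)) (funext h)).trans ?_
    rw [av_node Ω a b (fun A => ind F a A x 0) (fun B => ind F b B x 0), av_ind_zero hne x a, av_ind_zero hne x b, Sh.n, pow_add]

lemma av_ind_one (hne : Ω.Nonempty) (x : X) : ∀ s,
    av Ω s (fun A => ind F s A x 1) = s.n * mg F Ω x * (1 - mg F Ω x) ^ (s.n - 1)
  | .leaf => by
    change (∑ g ∈ Ω, if (if x ∈ g • F then 1 else 0) = (1 : ℕ) then (1 : ℝ) else 0) /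
      (Ω.card : ℝ) ^ 1 = ((1 : ℕ) : ℝ) * mg F Ω x * (1 - mg F Ω x) ^ 0
    have h1 : ∀ g ∈ Ω, (if (if x ∈ g • F then 1 else 0) = (1 : ℕ) then (1 : ℝ) else 0) =
        (if x ∈ g • F then (1 : ℝ) else 0) := fun g _ => by split_ifs <;> simp_all
    rw [Finset.sum_congr rfl h1, Finset.sum_boole, pow_one, pow_zero, mg]
    simp
  | .node a b => by
    have h : ∀ P : Tree G a × Tree G b, ind F (.node a b) P x 1 =
        ind F a P.1 x 1 * ind F b P.2 x 0 + ind F a P.1 x 0 * ind F b P.2 x 1 := fun P => by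
      change (if mult F a P.1 x + mult F b P.2 x = 1 then (1 : ℝ) else 0) = _
      simp only [ind]
      generalize mult F a P.1 x = i
      generalize mult F b P.2 x = j
      rcases i with _ | _ | i <;> rcases j with _ | _ | j <;> simp <;> omega
    refine (congrArg (av Ω (.node a b)) (funext h)).trans ?_
    rw [av_add, av_node Ω a b (fun A => ind F a A x 1) (fun B => ind F b B x 0),
      av_node Ω a b (fun A => ind F a A x 0) (fun B => ind F b B x 1), av_ind_zero F Ω hne x a, av_ind_zero F Ω hne x b,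
      av_ind_one hne x a, av_ind_one hne x b, Sh.n]
    have ha := a.n_pos
    have hb := b.n_pos
    rw [show a.n + b.n - 1 = (a.n - 1) + (b.n - 1) + 1 by omega]
    conv_lhs => rw [show b.n = (b.n - 1) + 1 by omega, show a.n = (a.n - 1) + 1 by omega]
    conv_rhs => rw [show b.n = (b.n - 1) + 1 by omega, show a.n = (a.n - 1) + 1 by omega]
    simp only [Nat.add_sub_cancel]
    push_cast
    ring

lemma av_mult (hne : Ω.Nonempty) (x : X) : ∀ s,
    av Ω s (fun A => (mult F s A x : ℝ)) = s.n * mg F Ω x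
  | .leaf => by
    change (∑ g ∈ Ω, ((if x ∈ g • F then 1 else 0 : ℕ) : ℝ)) / (Ω.card : ℝ) ^ 1 =
      ((1 : ℕ) : ℝ) * mg F Ω x
    rw [pow_one, mg]
    push_cast
    rw [Finset.sum_boole, one_mul]
  | .node a b => by
    have h : ∀ P : Tree G a × Tree G b, (mult F (.node a b) P x : ℝ) =
        (mult F a P.1 x : ℝ) + (mult F b P.2 x : ℝ) := fun P => by
      simp only [mult]; push_cast; rfl
    refine (congrArg (av Ω (.node a b)) (funext h)).trans ?_
    rw [av_add, av_fst Ω hne a b (fun A => (mult F a A x : ℝ)),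
      av_snd Ω hne a b (fun B => (mult F b B x : ℝ)), av_mult hne x a, av_mult hne x b, Sh.n]
    push_cast
    ring

lemma sum_mg (H : Finset X) (hΩ : ∀ g ∈ Ω, g • F ⊆ H) (hne : Ω.Nonempty) :
    ∑ x ∈ H, mg F Ω x = F.card := by
  have hc : (0 : ℝ) < (Ω.card : ℝ) := by exact_mod_cast hne.card_pos
  unfold mg
  rw [← Finset.sum_div, div_eq_iff hc.ne']
  have h1 : ∑ x ∈ H, #{g ∈ Ω | x ∈ g • F} = ∑ g ∈ Ω, #{x ∈ H | x ∈ g • F} := by
    simp only [Finset.card_filter]
    exact Finset.sum_comm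
  have h2 : ∀ g ∈ Ω, #{x ∈ H | x ∈ g • F} = F.card := fun g hg => by
    rw [Finset.filter_mem_eq_inter, Finset.inter_eq_right.2 (hΩ g hg), Finset.card_smul_finset]
  rw [Finset.sum_congr rfl h2, Finset.sum_const, smul_eq_mul, mul_comm] at h1
  exact_mod_cast h1

lemma log_max_le {r θ : ℝ} (hθ : 1 ≤ θ) (hr : 0 ≤ r) :
    Real.log (max 1 r) ≤ Real.log θ + r / θ := by
  have h1 : 0 ≤ Real.log θ := Real.log_nonneg hθ
  have h2 : 0 ≤ r / θ := by positivity
  rcases le_or_gt r 1 with h | h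
  · rw [max_eq_left h, Real.log_one]; linarith
  · rw [max_eq_right h.le]
    have h3 := Real.log_le_sub_one_of_pos (show 0 < r / θ by positivity)
    rw [Real.log_div (by linarith) (by linarith)] at h3
    linarith

lemma neg_log_pen (u v : ℕ) {θ : ℝ} (hθ : 1 ≤ θ) :
    -Real.log (pen u v) ≤
      (v : ℝ) * (Real.log Acst + Real.log (1 + Real.log θ)) + (u : ℝ) / θ := by
  have hA : 0 < Acst := by norm_num [Acst]
  have hl := one_le_lfac u v
  unfold pen
  rw [Real.log_inv, neg_neg, Real.log_pow, Real.log_mul hA.ne' (by linarith)]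
  rcases Nat.eq_zero_or_pos v with rfl | hv
  · simp; positivity
  have hv' : (0 : ℝ) < v := by exact_mod_cast hv
  set θ' := 1 + Real.log θ with hθ'
  have h1 : 1 ≤ θ' := by rw [hθ']; linarith [Real.log_nonneg hθ]
  have h2 := Real.log_le_sub_one_of_pos (show 0 < lfac u v / θ' by positivity)
  rw [Real.log_div (by linarith) (by linarith)] at h2
  have h4 : lfac u v / θ' ≤ 1 + (u : ℝ) / v / θ := by
    have h3 := log_max_le (r := (u : ℝ) / v) hθ (by positivity)
    have h5 : lfac u v ≤ θ' + (u : ℝ) / v / θ := by unfold lfac; rw [hθ']; linarith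
    rw [div_le_iff₀ (by linarith)]
    refine h5.trans ?_
    rw [add_mul, one_mul]
    have h6 : 0 ≤ (u : ℝ) / v / θ := by positivity
    nlinarith
  have h7 : (v : ℝ) * ((u : ℝ) / v / θ) = (u : ℝ) / θ := by field_simp
  nlinarith

lemma neg_log_code {δ D L : ℝ} (hδ : 0 < δ ∧ δ ≤ 1 / 2) (hD : -Real.log δ ≤ D) (a b : Sh)
    (hL : Real.log (1 + (a.n : ℝ) / b.n) ≤ L) (A : Tree G a) (B : Tree G b) (H : Finset X)
    (hA : tU F a A ⊆ H) :
    -Real.log (code (tU F a A) (fun x => pr δ a.n b.n (mult F a A x)) (tU F b B)) ≤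
      ∑ x ∈ H, (ind F a A x 1 * ((1 - ind F b B x 0) * D + 2 * δ) +
        L * ((1 - ind F a A x 0) - ind F a A x 1) * (1 - ind F b B x 0) +
        ((mult F a A x : ℝ) - ind F a A x 1) * ((b.n : ℝ) / a.n) * ind F b B x 0) := by
  have ha : (0 : ℝ) < a.n := by exact_mod_cast a.n_pos
  have hb : (0 : ℝ) < b.n := by exact_mod_cast b.n_pos
  have hp : ∀ x, 0 < pr δ a.n b.n (mult F a A x) ∧ pr δ a.n b.n (mult F a A x) < 1 :=
    fun x => pr_mem ⟨hδ.1, by linarith⟩ a.n_pos b.n_pos _
  unfold code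
  rw [Real.log_prod (fun x _ => by split_ifs <;> linarith [hp x]), ← Finset.sum_neg_distrib]
  refine le_trans (le_of_eq (Finset.sum_congr rfl fun x hx => ?_)) (le_trans
    (Finset.sum_le_sum_of_subset_of_nonneg (f := fun x => if x ∈ tU F a A then
      -Real.log (if x ∈ tU F b B then pr δ a.n b.n (mult F a A x)
        else 1 - pr δ a.n b.n (mult F a A x)) else 0) hA fun x _ hx => le_of_eq (if_neg hx).symm)
    (Finset.sum_le_sum fun x _ => ?_))
  · rw [if_pos hx]
  by_cases hxA : x ∈ tU F a A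
  swap
  · have h0 : mult F a A x = 0 := (mult_eq_zero F a A x).2 hxA
    rw [if_neg hxA]
    simp [ind, h0]
  have hne0 : mult F a A x ≠ 0 := fun h => (mult_eq_zero F a A x).1 h hxA
  rw [if_pos hxA]
  simp only [ind, if_neg hne0]
  by_cases h1 : mult F a A x = 1
  · simp only [if_pos h1, pr, h1, le_refl, if_true]
    by_cases hxB : x ∈ tU F b B
    · have hb0 : mult F b B x ≠ 0 := fun h => (mult_eq_zero F b B x).1 h hxB
      rw [if_pos hxB, if_neg hb0]
      push_cast
      linarith [hδ.1]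
    · rw [if_neg hxB, if_pos ((mult_eq_zero F b B x).2 hxB)]
      push_cast
      have h2 := Real.one_sub_inv_le_log_of_pos (show 0 < 1 - δ by linarith)
      have h3 : (1 - δ)⁻¹ ≤ 1 + 2 * δ := by
        rw [inv_le_iff_one_le_mul₀ (by linarith)]; nlinarith
      linarith
  · have h2 : 2 ≤ mult F a A x := by omega
    simp only [if_neg h1, pr, if_neg (by omega : ¬ mult F a A x ≤ 1)]
    set μ : ℝ := (mult F a A x : ℝ) with hμ
    have hμ2 : (2 : ℝ) ≤ μ := by rw [hμ]; exact_mod_cast h2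
    have hs : 0 < μ * b.n / a.n := by positivity
    by_cases hxB : x ∈ tU F b B
    · have hb0 : mult F b B x ≠ 0 := fun h => (mult_eq_zero F b B x).1 h hxB
      rw [if_pos hxB, if_neg hb0, ← Real.log_inv, inv_div]
      have e : (1 + μ * b.n / a.n) / (μ * b.n / a.n) = 1 + (a.n : ℝ) / (μ * b.n) := by
        field_simp; ring
      rw [e]
      have h3 : 1 + (a.n : ℝ) / (μ * b.n) ≤ 1 + (a.n : ℝ) / b.n := by
        gcongr
        exact le_mul_of_one_le_left hb.le (by linarith)
      have h4 := (Real.log_le_log (by positivity) h3).trans hL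
      linarith
    · rw [if_neg hxB, if_pos ((mult_eq_zero F b B x).2 hxB)]
      have e : 1 - μ * b.n / a.n / (1 + μ * b.n / a.n) = (1 + μ * b.n / a.n)⁻¹ := by
        field_simp; ring
      rw [e, Real.log_inv, neg_neg]
      have h3 := Real.log_le_sub_one_of_pos (show 0 < 1 + μ * b.n / a.n by positivity)
      have e2 : μ * ((b.n : ℝ) / a.n) = μ * b.n / a.n := by ring
      linarith

/-- average description length of a genuine tree -/
noncomputable def cost (δ : ℝ) (s : Sh) : ℝ := av Ω s (fun A => -Real.log (tw F δ s A))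

lemma cost_node (hne : Ω.Nonempty) (H : Finset X) (hΩ : ∀ g ∈ Ω, g • F ⊆ H) {δ D L θ : ℝ}
    (hδ : 0 < δ ∧ δ ≤ 1 / 2) (hD : -Real.log δ ≤ D) (hθ : 1 ≤ θ) (a b : Sh)
    (hL : Real.log (1 + (a.n : ℝ) / b.n) ≤ L) :
    cost F Ω δ (.node a b) ≤ cost F Ω δ a + cost F Ω δ b +
      (∑ x ∈ H, jx δ D L (Real.log Acst + Real.log (1 + Real.log θ)) (mg F Ω x) a.n b.n) +
      (b.n : ℝ) * F.card / θ := by
  set Λ := Real.log Acst + Real.log (1 + Real.log θ) with hΛdef
  have hA : 1 ≤ Acst := by norm_num [Acst]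
  have hΛ : 0 ≤ Λ := by
    have := Real.log_nonneg hA
    have := Real.log_nonneg (show 1 ≤ 1 + Real.log θ by linarith [Real.log_nonneg hθ])
    linarith
  have hδ' : 0 < δ ∧ δ < 1 := ⟨hδ.1, by linarith⟩
  let T : X → Tree G a × Tree G b → ℝ := fun x P =>
    ind F a P.1 x 1 * ((1 - ind F b P.2 x 0) * D + 2 * δ) +
      L * ((1 - ind F a P.1 x 0) - ind F a P.1 x 1) * (1 - ind F b P.2 x 0) +
      ((mult F a P.1 x : ℝ) - ind F a P.1 x 1) * ((b.n : ℝ) / a.n) * ind F b P.2 x 0 +
      Λ * (1 - ind F a P.1 x 0) * (1 - ind F b P.2 x 0)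
  have hpoint : ∀ P ∈ tT Ω (.node a b), -Real.log (tw F δ (.node a b) P) ≤
      -Real.log (tw F δ a P.1) + -Real.log (tw F δ b P.2) + ∑ x ∈ H, T x P +
        (b.n : ℝ) * F.card / θ := by
    intro P hP
    obtain ⟨hPa, hPb⟩ := mem_product.1 hP
    have hsub := tT_subset F H Ω hΩ a _ hPa
    have h1 := tw_pos F hδ' a P.1
    have h2 := tw_pos F hδ' b P.2
    have h3 := code_pos (tU F a P.1) (fun x => pr δ a.n b.n (mult F a P.1 x))
      (fun x => pr_mem hδ' a.n_pos b.n_pos _) (tU F b P.2)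
    have h4 := pen_pos (tU F b P.2).card (tU F a P.1 ∩ tU F b P.2).card
    have hcode := neg_log_code F hδ hD a b hL P.1 P.2 H hsub
    have hpen := neg_log_pen (tU F b P.2).card (tU F a P.1 ∩ tU F b P.2).card hθ
    have hu : ((tU F b P.2).card : ℝ) / θ ≤ (b.n : ℝ) * F.card / θ := by
      gcongr
      exact_mod_cast card_tU F b P.2
    have hv : ((tU F a P.1 ∩ tU F b P.2).card : ℝ) * Λ ≤
        ∑ x ∈ H, Λ * (1 - ind F a P.1 x 0) * (1 - ind F b P.2 x 0) := by
      refine le_of_eq ?_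
      rw [← Finset.inter_eq_right.2 (inter_subset_left.trans hsub), ← Finset.filter_mem_eq_inter,
        Finset.card_filter, Nat.cast_sum, Finset.sum_mul]
      refine Finset.sum_congr rfl fun x _ => ?_
      simp only [ind, mult_eq_zero, mem_inter]
      split_ifs <;> simp_all
    simp only [tw]
    rw [Real.log_mul (by positivity) (by positivity), Real.log_mul (by positivity) (by positivity),
      Real.log_mul (by positivity) (by positivity)]
    simp only [T, Finset.sum_add_distrib] at hcode ⊢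
    linarith
  refine le_trans (av_mono Ω (.node a b) _ _ hpoint) (le_of_eq ?_)
  rw [av_add, av_add, av_add, av_fst Ω hne a b (fun A => -Real.log (tw F δ a A)),
    av_snd Ω hne a b (fun B => -Real.log (tw F δ b B)), av_const Ω hne, av_sum]
  congr 2
  refine Finset.sum_congr rfl fun x _ => ?_
  set p1 : Tree G a → ℝ := fun A => ind F a A x 1
  set q0 : Tree G b → ℝ := fun B => ind F b B x 0
  have e : T x = fun P => (p1 P.1 * ((fun B => (1 - q0 B) * D + 2 * δ) P.2) +
      (fun A => L * ((1 - ind F a A x 0) - p1 A)) P.1 * (fun B => 1 - q0 B) P.2 +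
      (fun A => ((b.n : ℝ) / a.n) * ((mult F a A x : ℝ) - p1 A)) P.1 * q0 P.2 +
      (fun A => Λ * (1 - ind F a A x 0)) P.1 * (fun B => 1 - q0 B) P.2) := by
    funext P; simp only [T, p1, q0]; ring
  refine (congrArg (av Ω (.node a b)) e).trans ?_
  refine (av_node_four Ω a b p1 (fun A => L * ((1 - ind F a A x 0) - p1 A))
    (fun A => ((b.n : ℝ) / a.n) * ((mult F a A x : ℝ) - p1 A))
    (fun A => Λ * (1 - ind F a A x 0)) (fun B => (1 - q0 B) * D + 2 * δ) (fun B => 1 - q0 B) q0
    (fun B => 1 - q0 B)).trans ?_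
  have hq : (fun B => (1 - q0 B) * D + 2 * δ) = fun B => D * (1 - q0 B) + 2 * δ := by
    funext B; ring
  simp only [hq, av_add, av_smul, av_sub, av_const Ω hne]
  simp only [p1, q0, av_ind_zero F Ω hne x, av_ind_one F Ω hne x, av_mult F Ω hne x]
  unfold jx
  ring

/-- `k` further copies of `C` joined one after another to a first one -/
def chain (C : Sh) : ℕ → Sh
  | 0 => C
  | k + 1 => .node (chain C k) C

lemma chain_n (C : Sh) : ∀ k, (chain C k).n = (k + 1) * C.n
  | 0 => by simp [chain]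
  | k + 1 => by simp only [chain, Sh.n, chain_n C k]; ring

lemma cost_chain (hne : Ω.Nonempty) (H : Finset X) (hΩ : ∀ g ∈ Ω, g • F ⊆ H) {δ D L θ : ℝ}
    (hδ : 0 < δ ∧ δ ≤ 1 / 2) (hD : -Real.log δ ≤ D) (hθ : 1 ≤ θ) (C : Sh) (R : ℕ)
    (hL : Real.log (1 + R) ≤ L) : ∀ k, k ≤ R →
    cost F Ω δ (chain C k) ≤ ((k : ℝ) + 1) * cost F Ω δ C +
      (∑ j ∈ range k, ∑ x ∈ H,
        jx δ D L (Real.log Acst + Real.log (1 + Real.log θ)) (mg F Ω x) ((j + 1) * C.n) C.n) +
      (k : ℝ) * ((C.n : ℝ) * F.card / θ)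
  | 0, _ => by simp [chain]
  | k + 1, hk => by
    have h0 : (0 : ℝ) < C.n := by exact_mod_cast C.n_pos
    have hL' : Real.log (1 + ((chain C k).n : ℝ) / C.n) ≤ L := by
      refine le_trans (Real.log_le_log (by positivity) ?_) hL
      rw [chain_n]
      push_cast
      rw [mul_div_assoc, div_self h0.ne', mul_one]
      have : ((k : ℝ) + 1) ≤ R := by exact_mod_cast hk
      linarith
    have h1 := cost_node F Ω hne H hΩ hδ hD hθ (chain C k) C hL'
    have h2 := cost_chain hne H hΩ hδ hD hθ C R hL k (by omega)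
    rw [chain_n] at h1
    rw [Finset.sum_range_succ]
    change cost F Ω δ (.node (chain C k) C) ≤ _
    push_cast
    linarith

end Vale.Agent.P064.Merge
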