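import Mathlib
import Vale.Agent.P064.MergeCost

/-!
Averaging over the phase of the stage boundaries: copies of `F` in `H` are at most
`(q * exp (K * sqrt (log log |H|))) ^ |F|` times the size of the group.
-/

open scoped Pointwise
open Finset

namespace Vale.Agent.P064.Merge

universe u

/-- the logarithm of the node size at a stage boundary -/
def lv (s r : ℕ) : ℕ → ℕ
  | 0 => 0
  | i + 1 => r + 1 + s * i

lemma lv_step {s r : ℕ} (hr : r < s) : ∀ i, lv s r i < lv s r (i + 1) ∧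
    lv s r (i + 1) - lv s r i ≤ s
  | 0 => by simp only [lv, mul_zero, add_zero]; omega
  | i + 1 => by simp only [lv, Nat.mul_succ]; omega

/-- merge tree with stage boundaries `lv s r` -/
def ph (s r : ℕ) : ℕ → Sh
  | 0 => .leaf
  | i + 1 => chain (ph s r i) (2 ^ (lv s r (i + 1) - lv s r i) - 1)

lemma ph_n {s r : ℕ} (hr : r < s) : ∀ i, (ph s r i).n = 2 ^ lv s r i
  | 0 => rfl
  | i + 1 => by
    rw [ph, chain_n, ph_n hr i, Nat.sub_add_cancel Nat.one_le_two_pow, ← pow_add,
      Nat.sub_add_cancel (lv_step hr i).1.le]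

lemma psi_double (m : ℝ) (s : ℕ) : ∀ I,
    ∑ r ∈ range s, ∑ t ∈ range I, (psi m (lv s r (t + 1)) - psi m (lv s r (t + 1) - 1)) =
      psi m (s * I) - psi m 0
  | 0 => by simp
  | I + 1 => by
    simp only [Finset.sum_range_succ _ I, Finset.sum_add_distrib, psi_double m s I]
    have h : ∑ r ∈ range s, (psi m (lv s r (I + 1)) - psi m (lv s r (I + 1) - 1)) =
        psi m (s * I + s) - psi m (s * I) := by
      have h0 := Finset.sum_range_sub (fun r => psi m (s * I + r)) s
      simp only [add_zero] at h0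
      rw [← h0]
      refine Finset.sum_congr rfl fun r _ => ?_
      simp only [lv]
      rw [show r + 1 + s * I = s * I + (r + 1) by ring, show s * I + (r + 1) - 1 = s * I + r by omega]
    rw [h, Nat.mul_succ]
    ring

section

variable {G X : Type u} [Group G] [Fintype G] [DecidableEq X] [MulAction G X]

attribute [local instance] treeFintype

/-- the bound for one element at one stage -/
noncomputable def stg (δ D K m : ℝ) (s r t : ℕ) : ℝ :=
  m * (6 * D * (psi m (lv s r (t + 1)) - psi m (lv s r (t + 1) - 1)) + 2 * δ * 2 ^ s +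
    2 * K * (psi m (lv s r (t + 1)) - psi m (lv s r t)))

lemma cost_ph (F : Finset X) (Ω : Finset G) (hne : Ω.Nonempty) (H : Finset X)
    (hΩ : ∀ g ∈ Ω, g • F ⊆ H) {δ D L θ : ℝ} (hδ : 0 < δ ∧ δ ≤ 1 / 2) (hD : -Real.log δ ≤ D)
    (hθ : 1 ≤ θ) (s r : ℕ) (hr : r < s) (hL : Real.log (1 + (2 : ℝ) ^ s) ≤ L) : ∀ i,
    cost F Ω δ (ph s r i) ≤ (2 : ℝ) ^ lv s r i * ∑ t ∈ range i,
      ((∑ x ∈ H, stg δ D (L + (Real.log Acst + Real.log (1 + Real.log θ)) + 1) (mg F Ω x) s r t) +
        F.card / θ)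
  | 0 => by
    have : cost F Ω δ (ph s r 0) = 0 := by
      change av Ω .leaf (fun A => -Real.log (tw F δ .leaf A)) = 0
      simp [av, tw]
    rw [this]
    simp
  | i + 1 => by
    obtain ⟨hll, hld⟩ := lv_step hr i
    set l := lv s r i with hl
    set l' := lv s r (i + 1) with hl'
    set Λ := Real.log Acst + Real.log (1 + Real.log θ) with hΛdef
    have hΛ : 0 ≤ Λ := by
      have := Real.log_nonneg (show 1 ≤ Acst by norm_num [Acst])
      have := Real.log_nonneg (show 1 ≤ 1 + Real.log θ by linarith [Real.log_nonneg hθ])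
      linarith
    have hL0 : 0 ≤ L := le_trans (Real.log_nonneg (by linarith [pow_pos (two_pos (α := ℝ)) s])) hL
    have hD0 : 0 ≤ D := le_trans (neg_nonneg.2 (Real.log_nonpos hδ.1.le (by linarith [hδ.2]))) hD
    set k := 2 ^ (l' - l) - 1 with hk
    have hk2 : k ≤ 2 ^ s := (Nat.sub_le _ _).trans (Nat.pow_le_pow_right two_pos hld)
    have h1 := cost_chain F Ω hne H hΩ hδ hD hθ (ph s r i) (2 ^ s) (by push_cast; exact hL) k hk2
    have hn : (ph s r i).n = 2 ^ l := ph_n hr i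
    rw [hn, Finset.sum_comm] at h1
    have hkc : ((k : ℝ) + 1) * 2 ^ l = (2 : ℝ) ^ l' := by
      have : (k + 1) * 2 ^ l = 2 ^ l' := by
        rw [hk, Nat.sub_add_cancel Nat.one_le_two_pow, ← pow_add, Nat.sub_add_cancel hll.le]
      exact_mod_cast this
    have hjx : ∀ x ∈ H, ∑ j ∈ range k, jx δ D L Λ (mg F Ω x) ((j + 1) * 2 ^ l) (2 ^ l) ≤
        (2 : ℝ) ^ l' * stg δ D (L + Λ + 1) (mg F Ω x) s r i := by
      intro x _
      obtain ⟨hm0, hm1⟩ := mg_mem F Ω x
      rcases hm0.eq_or_lt with h0 | hpos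
      · refine le_of_eq ?_
        rw [← h0]
        simp [stg, jx]
      refine (stage_bound hm0 hm1 hδ.1.le hD0 hL0 hΛ hpos l l' hll).trans ?_
      unfold stg
      rw [← hl, ← hl', mul_assoc]
      have hd : (2 : ℝ) ^ (l' - l) ≤ 2 ^ s := by gcongr; norm_num
      have hδ0 := hδ.1
      gcongr
    have h2 := cost_ph F Ω hne H hΩ hδ hD hθ s r hr hL i
    have hk0 : (0 : ℝ) ≤ (k : ℝ) + 1 := by positivity
    change cost F Ω δ (chain (ph s r i) k) ≤ _
    refine h1.trans ?_
    rw [Finset.sum_range_succ, mul_add, mul_add]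
    have e1 := mul_le_mul_of_nonneg_left h2 hk0
    rw [← mul_assoc, hkc] at e1
    have e2 := Finset.sum_le_sum hjx
    rw [← Finset.mul_sum] at e2
    have e3 : (k : ℝ) * (((2 ^ l : ℕ) : ℝ) * F.card / θ) ≤ (2 : ℝ) ^ l' * (F.card / θ) := by
      rw [← hkc]
      push_cast
      rw [show (k : ℝ) * (2 ^ l * (F.card : ℝ) / θ) = (k : ℝ) * 2 ^ l * (F.card / θ) by ring]
      gcongr
      linarith
    linarith

/-- one element, summed over all stages and phases -/
lemma stg_sum {δ D K m : ℝ} (hm0 : 0 ≤ m) (hD : 0 ≤ D) (hK : 0 ≤ K) (s I : ℕ) :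
    ∑ r ∈ range s, ∑ t ∈ range I, stg δ D K m s r t ≤
      m * (12 * D + (s : ℝ) * (2 * δ * 2 ^ s * I + 4 * K)) := by
  simp only [stg, ← Finset.mul_sum]
  refine mul_le_mul_of_nonneg_left ?_ hm0
  have hin : ∀ r, ∑ t ∈ range I,
      (6 * D * (psi m (lv s r (t + 1)) - psi m (lv s r (t + 1) - 1)) + 2 * δ * 2 ^ s +
        2 * K * (psi m (lv s r (t + 1)) - psi m (lv s r t))) =
      6 * D * (∑ t ∈ range I, (psi m (lv s r (t + 1)) - psi m (lv s r (t + 1) - 1))) +
        (I : ℝ) * (2 * δ * 2 ^ s) + 2 * K * (psi m (lv s r I) - psi m (lv s r 0)) := by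
    intro r
    rw [Finset.sum_add_distrib, Finset.sum_add_distrib, Finset.sum_const, card_range, nsmul_eq_mul,
      ← Finset.mul_sum, ← Finset.mul_sum, Finset.sum_range_sub (fun t => psi m (lv s r t))]
  rw [Finset.sum_congr rfl fun r _ => hin r, Finset.sum_add_distrib, Finset.sum_add_distrib,
    Finset.sum_const, card_range, nsmul_eq_mul, ← Finset.mul_sum, ← Finset.mul_sum, psi_double]
  have hp := fun l => psi_mem hm0 l
  have h1 : psi m (s * I) - psi m 0 ≤ 2 := by linarith [(hp (s * I)).2, (hp 0).1]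
  have h2 : ∑ r ∈ range s, (psi m (lv s r I) - psi m (lv s r 0)) ≤ (s : ℝ) * 2 := by
    refine (Finset.sum_le_card_nsmul _ _ 2 fun r _ => ?_).trans (le_of_eq (by simp))
    linarith [(hp (lv s r I)).2, (hp (lv s r 0)).1]
  have h3 := mul_le_mul_of_nonneg_left h1 (show (0 : ℝ) ≤ 6 * D by positivity)
  have h4 := mul_le_mul_of_nonneg_left h2 (show (0 : ℝ) ≤ 2 * K by positivity)
  linarith

/-- the constant in the exponent -/
noncomputable def Kst : ℝ := 80 + 4 * Real.log Acst

lemma Kst_pos : 0 < Kst := by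
  have := Real.log_nonneg (show 1 ≤ Acst by norm_num [Acst])
  unfold Kst
  linarith

lemma phase_arith {s w lA ll D K x : ℝ} (hw : 1 ≤ w) (hsw : w ≤ s) (hs2 : s ≤ 2 * w)
    (hlA : 0 ≤ lA) (hll : ll ≤ w) (hD : D = w * w + s) (hK : K = (s + 1) + (lA + ll) + 1)
    (hx : x ≤ 1) :
    12 * D + s * (1 / 2 + 4 * K) + s * x ≤ s * ((79 + 4 * lA) * w) := by
  have h1 : lA ≤ lA * w := le_mul_of_one_le_right hlA hw
  have h2 : w * w ≤ s * w := mul_le_mul_of_nonneg_right hsw (by linarith)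
  have h3 : K ≤ (5 + lA) * w := by rw [hK]; linarith
  have h4 : 12 * (w + 1) + (1 / 2 + 4 * K) + x ≤ (79 + 4 * lA) * w := by linarith
  have h5 := mul_le_mul_of_nonneg_left h4 (show 0 ≤ s by linarith)
  rw [hD]
  linarith

/-- the loss factor -/
noncomputable def subFac (m : ℕ) : ℝ :=
  Real.exp (Kst * Real.sqrt (Real.log (4 * (m.size : ℝ) + 8)))

theorem cnt_le_sub_loss (q : ℝ) (hq : 0 < q) (H F : Finset X) (hF : F.Nonempty)
    (hH : Good G q H) :
    (cnt (G := G) H F : ℝ) ≤ (Fintype.card G : ℝ) * (subFac H.card * q) ^ F.card := by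
  classical
  set Ω : Finset G := univ.filter fun g => g • F ⊆ H with hΩdef
  have hΩ : ∀ g ∈ Ω, g • F ⊆ H := fun g hg => (mem_filter.1 hg).2
  have hcnt : cnt (G := G) H F = Ω.card := rfl
  rw [hcnt]
  rcases Ω.eq_empty_or_nonempty with he | hne
  · rw [he, card_empty, Nat.cast_zero]
    have : 0 < subFac H.card := Real.exp_pos _
    positivity
  set c : ℝ := (Ω.card : ℝ) with hc
  have hc0 : 0 < c := by rw [hc]; exact_mod_cast hne.card_pos
  set e : ℝ := (F.card : ℝ) with he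
  have he1 : 1 ≤ e := by rw [he]; exact_mod_cast hF.card_pos
  set J := H.card.size with hJ
  set Q := Real.log (4 * (J : ℝ) + 8) with hQ
  have hQ1 : 1 ≤ Q := by
    rw [hQ, Real.le_log_iff_exp_le (by positivity)]
    have := Real.exp_one_lt_d9
    have : (0 : ℝ) ≤ J := Nat.cast_nonneg J
    linarith
  set w := Real.sqrt Q with hw
  have hw1 : 1 ≤ w := Real.one_le_sqrt.2 hQ1
  have hw2 : w * w = Q := Real.mul_self_sqrt (by linarith)
  set s := ⌈w⌉₊ with hs
  have hs0 : 0 < s := Nat.ceil_pos.2 (by linarith)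
  have hs1 : w ≤ s := Nat.le_ceil w
  have hs2 : (s : ℝ) ≤ 2 * w := by linarith [Nat.ceil_lt_add_one (show 0 ≤ w by linarith)]
  set I := J + 1 with hI
  set θ : ℝ := (J : ℝ) + 2 with hθ
  have hθ1 : 1 ≤ θ := by rw [hθ]; linarith [Nat.cast_nonneg (α := ℝ) J]
  set δ : ℝ := 1 / (4 * (I : ℝ) * 2 ^ s) with hδdef
  have h2s : (1 : ℝ) ≤ 2 ^ s := one_le_pow₀ (by norm_num)
  have hI1 : (1 : ℝ) ≤ I := by rw [hI]; push_cast; linarith [Nat.cast_nonneg (α := ℝ) J]
  have hδ : 0 < δ ∧ δ ≤ 1 / 2 := by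
    refine ⟨by rw [hδdef]; positivity, ?_⟩
    rw [hδdef]
    gcongr
    nlinarith
  set D := Q + (s : ℝ) with hDdef
  have hD : -Real.log δ ≤ D := by
    rw [hδdef, one_div, Real.log_inv, neg_neg, Real.log_mul (by positivity) (by positivity),
      Real.log_pow]
    have h1 : Real.log (4 * (I : ℝ)) ≤ Q := by
      rw [hQ]
      refine Real.log_le_log (by positivity) ?_
      rw [hI]; push_cast; linarith
    have h2 : (s : ℝ) * Real.log 2 ≤ s :=
      mul_le_of_le_one_right (Nat.cast_nonneg s) (by linarith [Real.log_two_lt_d9])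
    linarith
  set L := (s : ℝ) + 1 with hLdef
  have hL : Real.log (1 + (2 : ℝ) ^ s) ≤ L := by
    refine (Real.log_le_log (by positivity) (show 1 + (2 : ℝ) ^ s ≤ 2 ^ (s + 1) by
      rw [pow_succ]; linarith)).trans ?_
    rw [Real.log_pow, hLdef]
    push_cast
    exact mul_le_of_le_one_right (by positivity) (by linarith [Real.log_two_lt_d9])
  have hlθ : Real.log θ ≤ Q := by
    rw [hθ, hQ]
    refine Real.log_le_log (by positivity) ?_
    linarith [Nat.cast_nonneg (α := ℝ) J]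
  have hlθ2 : Real.log (1 + Real.log θ) ≤ w :=
    (log_one_add_le_sqrt (Real.log_nonneg hθ1)).trans (Real.sqrt_le_sqrt hlθ)
  set K := L + (Real.log Acst + Real.log (1 + Real.log θ)) + 1 with hK
  have hlA := Real.log_nonneg (show 1 ≤ Acst by norm_num [Acst])
  have hK0 : 0 ≤ K := by
    have := Real.log_nonneg (show 1 ≤ 1 + Real.log θ by linarith [Real.log_nonneg hθ1])
    rw [hK, hLdef]; positivity
  -- average over phases
  have hper : ∀ x ∈ H, ∑ r ∈ range s, ∑ t ∈ range I, stg δ D K (mg F Ω x) s r t ≤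
      mg F Ω x * (12 * D + (s : ℝ) * (2 * δ * 2 ^ s * I + 4 * K)) := fun x _ =>
    stg_sum (mg_mem F Ω x).1 (by rw [hDdef]; positivity) hK0 s I
  have hall : ∑ r ∈ range s, ∑ t ∈ range I,
      ((∑ x ∈ H, stg δ D K (mg F Ω x) s r t) + e / θ) ≤
      e * (12 * D + (s : ℝ) * (2 * δ * 2 ^ s * I + 4 * K)) + (s : ℝ) * (e * (I / θ)) := by
    have e1 : ∑ r ∈ range s, ∑ t ∈ range I, ∑ x ∈ H, stg δ D K (mg F Ω x) s r t =
        ∑ x ∈ H, ∑ r ∈ range s, ∑ t ∈ range I, stg δ D K (mg F Ω x) s r t := by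
      rw [Finset.sum_comm (s := H)]
      exact Finset.sum_congr rfl fun r _ => Finset.sum_comm
    simp only [Finset.sum_add_distrib, Finset.sum_const, card_range, nsmul_eq_mul]
    rw [e1]
    have h5 := Finset.sum_le_sum hper
    rw [← Finset.sum_mul, sum_mg F Ω H hΩ hne, ← he] at h5
    have e2 : (s : ℝ) * ((I : ℝ) * (e / θ)) = (s : ℝ) * (e * (I / θ)) := by ring
    linarith
  have h6 : e * (12 * D + (s : ℝ) * (2 * δ * 2 ^ s * I + 4 * K)) + (s : ℝ) * (e * (I / θ)) ≤
      (range s).card • (e * ((Kst - 1) * w)) := by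
    rw [card_range, nsmul_eq_mul]
    have h7 : 2 * δ * 2 ^ s * (I : ℝ) = 1 / 2 := by
      rw [hδdef]; field_simp; ring
    have h8 : (I : ℝ) / θ ≤ 1 := by
      rw [div_le_one (by linarith), hI, hθ]; push_cast; linarith
    rw [h7]
    have h11 := phase_arith (K := K) hw1 hs1 hs2 hlA hlθ2 (hDdef.trans (by rw [hw2]))
      (by rw [hK, hLdef]) h8
    have h12 := mul_le_mul_of_nonneg_left h11 (show 0 ≤ e by linarith)
    have e3 : Kst - 1 = 79 + 4 * Real.log Acst := by unfold Kst; ring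
    rw [e3]
    linarith
  obtain ⟨r, hr, hrle⟩ := Finset.exists_le_of_sum_le (g := fun _ => e * ((Kst - 1) * w))
    ⟨0, Finset.mem_range.2 hs0⟩ ((hall.trans h6).trans (le_of_eq (Finset.sum_const _).symm))
  rw [Finset.mem_range] at hr
  set T := ph s r I with hT
  have hcost : cost F Ω δ T ≤ (T.n : ℝ) * (e * ((Kst - 1) * w)) := by
    refine (cost_ph F Ω hne H hΩ hδ hD hθ1 s r hr hL I).trans ?_
    rw [hT, ph_n hr]
    push_cast
    exact mul_le_mul_of_nonneg_left hrle (by positivity)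
  -- counting
  have hn : H.card + 1 ≤ T.n := by
    rw [hT, ph_n hr]
    refine le_trans (Nat.lt_size_self H.card) (Nat.pow_le_pow_right two_pos ?_)
    simp only [hI, lv, ← hJ]
    have := Nat.le_mul_of_pos_left J hs0
    omega
  have hδ' : 0 < δ ∧ δ < 1 := ⟨hδ.1, by linarith [hδ.2]⟩
  set N : ℝ := (Fintype.card G : ℝ) with hN
  have hN0 : 0 < N := by rw [hN]; exact_mod_cast Fintype.card_pos
  set B : ℝ := N * q ^ F.card with hB
  have hB0 : 0 < B := by positivity
  have hTc : ((tT Ω T).card : ℝ) = c ^ T.n := by rw [card_tT, hc]; push_cast; ring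
  have hTne : (tT Ω T).Nonempty := card_pos.1 (by rw [card_tT]; exact pow_pos hne.card_pos _)
  have hpos : ∀ A ∈ tT Ω T, 0 < tw F δ T A := fun A _ => tw_pos F hδ' T A
  have hjen := sum_log_le (tT Ω T) hTne (tw F δ T) hpos
  rw [hTc, Real.log_pow] at hjen
  set S := ∑ A ∈ tT Ω T, tw F δ T A with hS
  have hS0 : 0 < S := Finset.sum_pos hpos hTne
  have hcT : 0 < c ^ T.n := by positivity
  have hjen' : (T.n : ℝ) * Real.log c ≤ Real.log S + cost F Ω δ T := by
    refine le_of_mul_le_mul_left (hjen.trans (le_of_eq ?_)) hcT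
    unfold cost av
    rw [← hc, mul_add, mul_div_cancel₀ _ hcT.ne']
  have hSB : S ≤ 2 ^ (H.card + 1) * B ^ T.n :=
    (sum_tT_le F hδ' q hq H hH Ω hΩ T).trans
      (mul_le_mul_of_nonneg_left (tZ_le F hδ' q hq H hH T) (by positivity))
  have hlS : Real.log S ≤ (T.n : ℝ) * 1 + (T.n : ℝ) * Real.log B := by
    have h1 := Real.log_le_log hS0 hSB
    rw [Real.log_mul (by positivity) (by positivity), Real.log_pow, Real.log_pow] at h1
    have h2 : ((H.card + 1 : ℕ) : ℝ) * Real.log 2 ≤ (T.n : ℝ) * 1 :=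
      mul_le_mul (by exact_mod_cast hn) (by linarith [Real.log_two_lt_d9])
        (Real.log_nonneg (by norm_num)) (Nat.cast_nonneg _)
    linarith
  have hTn : (0 : ℝ) < T.n := by exact_mod_cast T.n_pos
  have hkey : Real.log c ≤ Real.log B + (1 + e * ((Kst - 1) * w)) := by
    refine le_of_mul_le_mul_left (hjen'.trans ?_) hTn
    linarith
  have hkey2 : Real.log c ≤ Real.log B + e * (Kst * w) := by
    have : (1 : ℝ) ≤ e * w := one_le_mul_of_one_le_of_one_le he1 hw1
    linarith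
  calc c = Real.exp (Real.log c) := (Real.exp_log hc0).symm
    _ ≤ Real.exp (Real.log B + e * (Kst * w)) := Real.exp_le_exp.2 hkey2
    _ = _ := by
        rw [Real.exp_add, Real.exp_log hB0, hB, he, Real.exp_nat_mul, subFac, ← hJ, ← hQ, ← hw,
          mul_pow]
        ring

end

end Vale.Agent.P064.Merge
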