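import Mathlib

/-!
Coding a random subset `V` of a random set `U`.  The elements are scanned in uniformly random
order; with the scanned part `z` of `V` known, `x ∈ U` is predicted to lie in `V` with probability
`(t / n) * P(x ∈ U | z) ^ (1/8) / 4`, where `t` elements are left.  Hence `H(V | U)` is at most
`H(V) / 8 + 3 E|V| + M / 2`, where `M` bounds `E ∑ x, P(x ∈ U | z) ^ (9/8)`.
-/

open Finset

namespace Vale.Agent.P064.Spread

/-- Gibbs' inequality -/
lemma gibbs {ι : Type*} (s : Finset ι) (a b : ι → ℝ) (ha : ∀ i ∈ s, 0 ≤ a i)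
    (hb : ∀ i ∈ s, 0 ≤ b i) (hab : ∀ i ∈ s, 0 < a i → 0 < b i) :
    ∑ i ∈ s, a i - ∑ i ∈ s, b i ≤ ∑ i ∈ s, a i * (Real.log (a i) - Real.log (b i)) := by
  rw [← Finset.sum_sub_distrib]
  refine Finset.sum_le_sum fun i hi => ?_
  rcases (ha i hi).eq_or_lt with h | h
  · rw [← h, zero_mul]
    linarith [hb i hi]
  · have hb' := hab i hi h
    have hlog := Real.log_le_sub_one_of_pos (div_pos hb' h)
    rw [Real.log_div hb'.ne' h.ne'] at hlog
    have h2 := mul_le_mul_of_nonneg_left hlog h.le
    have h3 : a i * (b i / a i - 1) = b i - a i := by field_simp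
    linarith

variable {X : Type*} [Fintype X] [DecidableEq X]

/-- probability of containing an element -/
noncomputable def marg (μ : Finset X → ℝ) (x : X) : ℝ := ∑ U with x ∈ U, μ U

/-- law of `U` together with the part of `V` outside `T` -/
noncomputable def rZ (r : Finset X → Finset X → ℝ) (T U z : Finset X) : ℝ :=
  ∑ V with V \ T = z, r U V

/-- law of the part of `V` outside `T` -/
noncomputable def pZ (r : Finset X → Finset X → ℝ) (T z : Finset X) : ℝ := ∑ U, rZ r T U z

/-- law of `U` given the part of `V` outside `T` -/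
noncomputable def condZ (r : Finset X → Finset X → ℝ) (T z U : Finset X) : ℝ :=
  rZ r T U z / pZ r T z

/-- expectation -/
noncomputable def ev (r : Finset X → Finset X → ℝ) (f : Finset X → Finset X → ℝ) : ℝ :=
  ∑ U, ∑ V, r U V * f U V

variable {r : Finset X → Finset X → ℝ}

omit [Fintype X] in
lemma sdiff_erase_of_mem {T V : Finset X} {x : X} (hx : x ∈ T) :
    V \ T.erase x = if x ∈ V then insert x (V \ T) else V \ T := by
  ext y
  by_cases hy : y = x
  · subst hy
    split_ifs with hv <;> simp [hv, hx]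
  · split_ifs <;> simp [hy]

lemma ev_rZ (T : Finset X) (f : Finset X → Finset X → ℝ) :
    ∑ U, ∑ z, rZ r T U z * f U z = ev r fun U V => f U (V \ T) := by
  refine Finset.sum_congr rfl fun U _ => ?_
  simp only [rZ, Finset.sum_mul]
  rw [← Finset.sum_fiberwise univ (fun V => V \ T) fun V => r U V * f U (V \ T)]
  refine Finset.sum_congr rfl fun z _ => Finset.sum_congr rfl fun V hV => ?_
  rw [(mem_filter.1 hV).2]

lemma ev_add (f g : Finset X → Finset X → ℝ) :
    ev r (fun U V => f U V + g U V) = ev r f + ev r g := by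
  simp only [ev, mul_add, Finset.sum_add_distrib]

lemma ev_sub (f g : Finset X → Finset X → ℝ) :
    ev r (fun U V => f U V - g U V) = ev r f - ev r g := by
  simp only [ev, mul_sub, Finset.sum_sub_distrib]

lemma ev_smul (c : ℝ) (f : Finset X → Finset X → ℝ) :
    ev r (fun U V => c * f U V) = c * ev r f := by
  simp only [ev, Finset.mul_sum]
  exact Finset.sum_congr rfl fun U _ => Finset.sum_congr rfl fun V _ => mul_left_comm _ _ _

lemma ev_sum {κ : Type*} (s : Finset κ) (f : κ → Finset X → Finset X → ℝ) :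
    ev r (fun U V => ∑ i ∈ s, f i U V) = ∑ i ∈ s, ev r (f i) := by
  simp only [ev, Finset.mul_sum]
  rw [Finset.sum_comm (s := s)]
  exact Finset.sum_congr rfl fun U _ => Finset.sum_comm

section

variable (h0 : ∀ U V, 0 ≤ r U V)
include h0

lemma rZ_nonneg (T U z : Finset X) : 0 ≤ rZ r T U z := Finset.sum_nonneg fun V _ => h0 U V

lemma pZ_nonneg (T z : Finset X) : 0 ≤ pZ r T z := Finset.sum_nonneg fun U _ => rZ_nonneg h0 T U z

lemma le_rZ (T U V : Finset X) : r U V ≤ rZ r T U (V \ T) :=
  Finset.single_le_sum (fun V _ => h0 U V) (by simp)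

lemma rZ_le_pZ (T U z : Finset X) : rZ r T U z ≤ pZ r T z :=
  Finset.single_le_sum (fun U _ => rZ_nonneg h0 T U z) (mem_univ U)

lemma marg_condZ_mem (T z : Finset X) (x : X) :
    0 ≤ marg (condZ r T z) x ∧ marg (condZ r T z) x ≤ 1 := by
  simp only [marg, condZ]
  rw [← Finset.sum_div]
  refine ⟨div_nonneg (Finset.sum_nonneg fun U _ => rZ_nonneg h0 T U z) (pZ_nonneg h0 T z), ?_⟩
  exact div_le_one_of_le₀ (Finset.sum_le_sum_of_subset_of_nonneg (subset_univ _)
    fun U _ _ => rZ_nonneg h0 T U z) (pZ_nonneg h0 T z)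

variable (hsupp : ∀ U V, r U V ≠ 0 → V ⊆ U)
include hsupp

/-- the posterior chance that `x` is in `U` is at least the chance that it is in `V` -/
lemma pZ_erase_le_marg (T z : Finset X) {x : X} (hx : x ∈ T) (hz : x ∉ z) :
    pZ r (T.erase x) (insert x z) ≤ ∑ U with x ∈ U, rZ r T U z := by
  rw [pZ, Finset.sum_filter]
  refine Finset.sum_le_sum fun U _ => ?_
  have hiff : ∀ V, V \ T.erase x = insert x z → x ∈ V ∧ V \ T = z := by
    intro V hV
    rw [sdiff_erase_of_mem hx] at hV
    split_ifs at hV with hv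
    · refine ⟨hv, ?_⟩
      have h1 : x ∉ V \ T := by simp [hx]
      rw [← Finset.erase_insert h1, hV, Finset.erase_insert hz]
    · exact absurd (Finset.mem_sdiff.1 (hV ▸ Finset.mem_insert_self x z)).1 hv
  split_ifs with hU
  · unfold rZ
    refine Finset.sum_le_sum_of_subset_of_nonneg (fun V hV => ?_) fun V _ _ => h0 U V
    simp only [mem_filter, mem_univ, true_and] at hV ⊢
    exact (hiff V hV).2
  · refine (Finset.sum_eq_zero fun V hV => ?_).le
    by_contra hne
    exact hU (hsupp U V hne (hiff V (mem_filter.1 hV).2).1)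

variable (hsum : ∑ U, ∑ V, r U V = 1)
include hsum

/-- one scanned element -/
lemma step (T : Finset X) {x : X} (hx : x ∈ T) :
    ev r (fun U V => Real.log (rZ r T U (V \ T)) -
        Real.log (rZ r (T.erase x) U (V \ T.erase x))) ≤
      (1 / 8) * ev r (fun _ V => Real.log (pZ r T (V \ T)) -
          Real.log (pZ r (T.erase x) (V \ T.erase x))) +
        (Real.log 4 + Real.log (Fintype.card X) - Real.log T.card) *
          ev r (fun _ V => if x ∈ V then 1 else 0) +
        (1 / 2) * ((T.card : ℝ) / Fintype.card X) *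
          ∑ z, pZ r T z * marg (condZ r T z) x ^ (9 / 8 : ℝ) := by
  classical
  set n : ℝ := (Fintype.card X : ℝ) with hn
  set t : ℝ := (T.card : ℝ) with ht
  have ht0 : 0 < t := by rw [ht]; exact_mod_cast card_pos.2 ⟨x, hx⟩
  have hn0 : 0 < n := by rw [hn]; exact_mod_cast Fintype.card_pos_iff.2 ⟨x⟩
  have htn : t / n ≤ 1 := div_le_one_of_le₀ (by rw [ht, hn]; exact_mod_cast card_le_univ T) hn0.le
  set m : Finset X → ℝ := fun z => marg (condZ r T z) x with hm
  have hm01 : ∀ z, 0 ≤ m z ∧ m z ≤ 1 := fun z => marg_condZ_mem h0 T z x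
  let q : Finset X → Finset X → ℝ := fun U z =>
    if x ∈ U then 1 / 4 * (t / n) * m z ^ (1 / 8 : ℝ) else 0
  have hq : ∀ U z, 0 ≤ q U z ∧ q U z ≤ 1 / 4 := by
    intro U z
    have h1 := Real.rpow_nonneg (hm01 z).1 (1 / 8 : ℝ)
    have h2 : m z ^ (1 / 8 : ℝ) ≤ 1 := Real.rpow_le_one (hm01 z).1 (hm01 z).2 (by norm_num)
    simp only [q]
    split_ifs
    · refine ⟨by positivity, ?_⟩
      nlinarith [div_nonneg ht0.le hn0.le]
    · norm_num
  let b : Finset X → Finset X → ℝ := fun U w =>
    rZ r T U (w.erase x) * (if x ∈ w then q U (w.erase x) else 1 - q U (w.erase x))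
  have hb0 : ∀ U w, 0 ≤ b U w := fun U w => by
    have := rZ_nonneg h0 T U (w.erase x)
    have := hq U (w.erase x)
    simp only [b]
    split_ifs <;> exact mul_nonneg (by assumption) (by linarith)
  have hz : ∀ V, (V \ T.erase x).erase x = V \ T := fun V => by
    have h1 : x ∉ V \ T := by simp [hx]
    rw [sdiff_erase_of_mem hx]
    split_ifs
    · exact Finset.erase_insert h1
    · exact Finset.erase_eq_of_notMem h1
  have hzmem : ∀ V, x ∈ V \ T.erase x ↔ x ∈ V := fun V => by simp
  have hqpos : ∀ U V, 0 < r U V → x ∈ V → 0 < m (V \ T) ∧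
      pZ r (T.erase x) (V \ T.erase x) ≤ pZ r T (V \ T) * m (V \ T) := by
    intro U V hr hv
    have hp : 0 < pZ r T (V \ T) :=
      (hr.trans_le (le_rZ h0 T U V)).trans_le (rZ_le_pZ h0 T U _)
    have he : pZ r T (V \ T) * m (V \ T) = ∑ U with x ∈ U, rZ r T U (V \ T) := by
      simp only [hm, marg, condZ, ← Finset.sum_div]
      field_simp
    have h1 : pZ r (T.erase x) (V \ T.erase x) ≤ pZ r T (V \ T) * m (V \ T) := by
      rw [he, sdiff_erase_of_mem hx, if_pos hv]
      exact pZ_erase_le_marg h0 hsupp T _ hx (by simp [hx])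
    refine ⟨?_, h1⟩
    have h2 : 0 < pZ r (T.erase x) (V \ T.erase x) :=
      (hr.trans_le (le_rZ h0 _ U V)).trans_le (rZ_le_pZ h0 _ U _)
    exact (pos_iff_pos_of_mul_pos (h2.trans_le h1)).1 hp
  have hab : ∀ U w, 0 < rZ r (T.erase x) U w → 0 < b U w := by
    intro U w h
    obtain ⟨V, hV, hne⟩ := Finset.exists_ne_zero_of_sum_ne_zero h.ne'
    have hr : 0 < r U V := (h0 U V).lt_of_ne' hne
    obtain rfl := (mem_filter.1 hV).2
    simp only [b, hzmem, hz]
    refine mul_pos (hr.trans_le (le_rZ h0 T U V)) ?_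
    split_ifs with hv
    · have := Real.rpow_pos_of_pos (hqpos U V hr hv).1 (1 / 8 : ℝ)
      simp only [q, if_pos (hsupp U V hne hv)]
      positivity
    · linarith [hq U (V \ T)]
  -- the code is a sub-probability
  have hbsum : ∑ p : Finset X × Finset X, b p.1 p.2 ≤ 1 := by
    rw [Fintype.sum_prod_type, ← hsum]
    refine Finset.sum_le_sum fun U _ => ?_
    have hu : (univ : Finset (Finset X)) = (insert x ((univ : Finset X).erase x)).powerset := by
      rw [Finset.insert_erase (mem_univ x), Finset.powerset_univ]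
    rw [hu, Finset.sum_powerset_insert (notMem_erase _ _), ← Finset.sum_add_distrib, ← hu]
    calc ∑ w ∈ ((univ : Finset X).erase x).powerset, (b U w + b U (insert x w))
        = ∑ w ∈ ((univ : Finset X).erase x).powerset, rZ r T U w := by
          refine Finset.sum_congr rfl fun w hw => ?_
          have hxw : x ∉ w := fun h => notMem_erase x univ (mem_powerset.1 hw h)
          simp only [b, if_neg hxw, Finset.erase_eq_of_notMem hxw, Finset.mem_insert_self, if_true,
            Finset.erase_insert hxw]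
          ring
      _ ≤ ∑ z, rZ r T U z :=
          Finset.sum_le_sum_of_subset_of_nonneg (subset_univ _) fun z _ _ => rZ_nonneg h0 T U z
      _ = ∑ V, r U V := Finset.sum_fiberwise univ (fun V => V \ T) (r U)
  have hasum : ∑ p : Finset X × Finset X, rZ r (T.erase x) p.1 p.2 = 1 := by
    rw [Fintype.sum_prod_type, ← hsum]
    exact Finset.sum_congr rfl fun U _ => Finset.sum_fiberwise univ (fun V => V \ T.erase x) (r U)
  have hg := gibbs univ (fun p : Finset X × Finset X => rZ r (T.erase x) p.1 p.2)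
    (fun p => b p.1 p.2) (fun p _ => rZ_nonneg h0 _ _ _) (fun p _ => hb0 _ _) fun p _ => hab _ _
  rw [hasum] at hg
  have hg' : 0 ≤ ev r fun U V => Real.log (rZ r (T.erase x) U (V \ T.erase x)) -
      Real.log (b U (V \ T.erase x)) := by
    rw [← ev_rZ (T.erase x) fun U w => Real.log (rZ r (T.erase x) U w) - Real.log (b U w)]
    simp only [Fintype.sum_prod_type] at hg hbsum
    linarith
  -- pointwise cost
  have hpt : ∀ U V, r U V * (Real.log (rZ r T U (V \ T)) - Real.log (b U (V \ T.erase x))) ≤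
      r U V * ((1 / 8) * (Real.log (pZ r T (V \ T)) -
          Real.log (pZ r (T.erase x) (V \ T.erase x))) +
        (Real.log 4 + Real.log n - Real.log t) * (if x ∈ V then 1 else 0) +
        2 * q U (V \ T)) := by
    intro U V
    rcases (h0 U V).eq_or_lt with h | hr
    · simp [← h]
    refine mul_le_mul_of_nonneg_left ?_ hr.le
    have hz0 : 0 < rZ r T U (V \ T) := hr.trans_le (le_rZ h0 T U V)
    have hq' := hq U (V \ T)
    have hp' : 0 < pZ r (T.erase x) (V \ T.erase x) :=
      (hr.trans_le (le_rZ h0 _ U V)).trans_le (rZ_le_pZ h0 _ U _)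
    simp only [b, hzmem, hz]
    split_ifs with hv
    · obtain ⟨hm0, hle⟩ := hqpos U V hr hv
      have hp0 : 0 < pZ r T (V \ T) := hz0.trans_le (rZ_le_pZ h0 T U _)
      have hl := Real.log_le_log hp' hle
      rw [Real.log_mul hp0.ne' hm0.ne'] at hl
      have hqe : q U (V \ T) = 1 / 4 * (t / n) * m (V \ T) ^ (1 / 8 : ℝ) :=
        if_pos (hsupp U V hr.ne' hv)
      have hqp : 0 < q U (V \ T) := by
        rw [hqe]; have := Real.rpow_pos_of_pos hm0 (1 / 8 : ℝ); positivity
      rw [Real.log_mul hz0.ne' hqp.ne', hqe, Real.log_mul (by positivity)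
        (Real.rpow_pos_of_pos hm0 _).ne', Real.log_rpow hm0,
        Real.log_mul (by norm_num) (by positivity), Real.log_div ht0.ne' hn0.ne',
        Real.log_div (by norm_num) (by norm_num), Real.log_one]
      nlinarith [Real.rpow_nonneg (hm01 (V \ T)).1 (1 / 8 : ℝ), div_nonneg ht0.le hn0.le]
    · rw [Real.log_mul hz0.ne' (by linarith : (1 : ℝ) - q U (V \ T) ≠ 0)]
      have h1 := Real.one_sub_inv_le_log_of_pos (by linarith : (0 : ℝ) < 1 - q U (V \ T))
      have h2 : (1 - q U (V \ T))⁻¹ ≤ 1 + 2 * q U (V \ T) := by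
        rw [inv_le_iff_one_le_mul₀ (by linarith)]
        nlinarith
      have h3 : pZ r (T.erase x) (V \ T.erase x) ≤ pZ r T (V \ T) := by
        refine Finset.sum_le_sum fun U' _ => ?_
        refine Finset.sum_le_sum_of_subset_of_nonneg (fun W hW => ?_) fun W _ _ => h0 U' W
        simp only [mem_filter, mem_univ, true_and] at hW ⊢
        rw [← hz W, hW, hz V]
      have hl := Real.log_le_log hp' h3
      linarith
  have hsumpt : ev r (fun U V => Real.log (rZ r T U (V \ T)) - Real.log (b U (V \ T.erase x))) ≤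
      ev r fun U V => (1 / 8) * (Real.log (pZ r T (V \ T)) -
          Real.log (pZ r (T.erase x) (V \ T.erase x))) +
        (Real.log 4 + Real.log n - Real.log t) * (if x ∈ V then 1 else 0) +
        2 * q U (V \ T) :=
    Finset.sum_le_sum fun U _ => Finset.sum_le_sum fun V _ => hpt U V
  -- the predicted mass
  have hqsum : ev r (fun U V => q U (V \ T)) =
      1 / 4 * (t / n) * ∑ z, pZ r T z * m z ^ (9 / 8 : ℝ) := by
    rw [← ev_rZ T q, Finset.sum_comm, Finset.mul_sum]
    refine Finset.sum_congr rfl fun z _ => ?_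
    rcases (pZ_nonneg h0 T z).eq_or_lt with h | hp
    · rw [← h, zero_mul, mul_zero]
      refine Finset.sum_eq_zero fun U _ => ?_
      rw [le_antisymm (h ▸ rZ_le_pZ h0 T U z) (rZ_nonneg h0 T U z), zero_mul]
    · have he : pZ r T z * m z = ∑ U with x ∈ U, rZ r T U z := by
        simp only [hm, marg, condZ, ← Finset.sum_div]
        field_simp
      simp only [q, mul_ite, mul_zero, ← Finset.sum_filter, ← Finset.sum_mul]
      rw [← he, show (9 / 8 : ℝ) = 1 + 1 / 8 by norm_num,
        Real.rpow_add_of_nonneg (hm01 z).1 (by norm_num) (by norm_num), Real.rpow_one]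
      ring
  rw [ev_add, ev_add, ev_smul, ev_smul, ev_smul, hqsum] at hsumpt
  rw [ev_sub] at hsumpt hg' ⊢
  simp only [hm] at hsumpt
  linarith

/-- the scan -/
lemma scan {M : ℝ} (hM : ∀ T : Finset X, ∑ z, pZ r T z * ∑ x, marg (condZ r T z) x ^ (9 / 8 : ℝ)
      ≤ M) : ∀ (k : ℕ) (T : Finset X), T.card = k →
    ev r (fun U V => Real.log (rZ r T U (V \ T)) - Real.log (r U V)) ≤
      (1 / 8) * ev r (fun _ V => Real.log (pZ r T (V \ T)) - Real.log (∑ U, r U V)) +
        (Real.log 4 + 1 + Real.log (Fintype.card X) - Real.log k) *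
          ev r (fun _ V => ((V ∩ T).card : ℝ)) +
        (1 / 2) * ((k : ℝ) / Fintype.card X) * M := by
  intro k
  induction k with
  | zero =>
    intro T hT
    obtain rfl := card_eq_zero.1 hT
    have h1 : ∀ U V, rZ r ∅ U V = r U V := fun U V => by
      simp [rZ, Finset.sum_filter]
    have h2 : ∀ V, pZ r ∅ V = ∑ U, r U V := fun V => by simp [pZ, h1]
    simp [ev, h1, h2]
  | succ k ih =>
    intro T hT
    set n : ℝ := (Fintype.card X : ℝ) with hn
    set Et : Finset X → ℝ :=
      fun T => ev r fun U V => Real.log (rZ r T U (V \ T)) - Real.log (r U V) with hEt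
    set Gt : Finset X → ℝ :=
      fun T => ev r fun _ V => Real.log (pZ r T (V \ T)) - Real.log (∑ U, r U V) with hGt
    set Pt : Finset X → ℝ := fun T => ev r fun _ V => ((V ∩ T).card : ℝ) with hPt
    set P1 : X → ℝ := fun x => ev r fun _ V => if x ∈ V then 1 else 0 with hP1
    set c : ℝ := Real.log 4 + 1 + Real.log n with hc
    have hsplit : ∀ x ∈ T, Pt (T.erase x) = Pt T - P1 x := fun x hx => by
      simp only [hPt, hP1, ← ev_sub]
      congr 1
      funext U V
      rw [Finset.inter_erase]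
      split_ifs with hv
      · rw [card_erase_of_mem (mem_inter.2 ⟨hv, hx⟩),
          Nat.cast_sub (card_pos.2 ⟨x, mem_inter.2 ⟨hv, hx⟩⟩)]
        simp
      · rw [erase_eq_of_notMem (fun h => hv (mem_inter.1 h).1), sub_zero]
    have hP1sum : ∑ x ∈ T, P1 x = Pt T := by
      simp only [hPt, hP1, ← ev_sum]
      congr 1
      funext U V
      rw [Finset.sum_boole, Finset.inter_comm, Finset.filter_mem_eq_inter]
    have hPt0 : 0 ≤ Pt T :=
      Finset.sum_nonneg fun U _ => Finset.sum_nonneg fun V _ => mul_nonneg (h0 U V) (by positivity)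
    have hx : ∀ x ∈ T, Et T ≤ (1 / 8) * Gt T + (c - Real.log k) * (Pt T - P1 x) +
        (c - 1 - Real.log (k + 1 : ℕ)) * P1 x + (1 / 2) * ((k : ℝ) / n) * M +
        (1 / 2) * (((k + 1 : ℕ) : ℝ) / n) *
          ∑ z, pZ r T z * marg (condZ r T z) x ^ (9 / 8 : ℝ) := by
      intro x hx
      have h1 := ih (T.erase x) (by rw [card_erase_of_mem hx, hT]; rfl)
      have h2 := step h0 hsupp hsum T hx
      rw [ev_sub, ev_sub, hT] at h2
      change Et (T.erase x) ≤ _ + _ * Pt (T.erase x) + _ at h1
      rw [hsplit x hx] at h1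
      simp only [hEt, hGt, hP1, ev_sub] at h1 ⊢
      simp only [hc, hn] at h1 ⊢
      linarith
    have hsum' := Finset.sum_le_sum hx
    simp only [Finset.sum_add_distrib, Finset.sum_const, nsmul_eq_mul, hT, ← Finset.mul_sum,
      Finset.sum_sub_distrib, hP1sum] at hsum'
    have hMT : ∑ x ∈ T, ∑ z, pZ r T z * marg (condZ r T z) x ^ (9 / 8 : ℝ) ≤ M := by
      refine le_trans ?_ (hM T)
      rw [Finset.sum_comm]
      refine Finset.sum_le_sum fun z _ => ?_
      rw [← Finset.mul_sum]
      exact mul_le_mul_of_nonneg_left (Finset.sum_le_sum_of_subset_of_nonneg (subset_univ T)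
        fun x _ _ => Real.rpow_nonneg (marg_condZ_mem h0 T z x).1 _) (pZ_nonneg h0 T z)
    have hkey : (k : ℝ) * (Real.log (k + 1 : ℕ) - Real.log k) ≤ 1 := by
      rcases Nat.eq_zero_or_pos k with h | h
      · simp [h]
      · have hk : (0 : ℝ) < k := by exact_mod_cast h
        rw [← Real.log_div (by positivity) hk.ne']
        have h' := Real.log_le_sub_one_of_pos
          (show (0 : ℝ) < ((k + 1 : ℕ) : ℝ) / k by positivity)
        calc (k : ℝ) * Real.log (((k + 1 : ℕ) : ℝ) / k)
            ≤ k * (((k + 1 : ℕ) : ℝ) / k - 1) := mul_le_mul_of_nonneg_left h' hk.le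
          _ = 1 := by push_cast; field_simp; ring
    have hn0 : 0 ≤ (1 / 2 : ℝ) * (((k + 1 : ℕ) : ℝ) / n) := by positivity
    refine le_of_mul_le_mul_left ?_ (show (0 : ℝ) < ((k + 1 : ℕ) : ℝ) by positivity)
    change ((k + 1 : ℕ) : ℝ) * Et T ≤ ((k + 1 : ℕ) : ℝ) *
      ((1 / 8) * Gt T + (c - Real.log (k + 1 : ℕ)) * Pt T + _)
    push_cast at hsum' hn0 hkey ⊢
    have hA := mul_le_mul_of_nonneg_right hkey hPt0
    have hB := mul_le_mul_of_nonneg_left hMT hn0
    linear_combination hsum' + hA + hB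

/-- entropy of `V` given `U` -/
theorem code_bound {M : ℝ}
    (hM : ∀ T : Finset X, ∑ z, pZ r T z * ∑ x, marg (condZ r T z) x ^ (9 / 8 : ℝ) ≤ M)
    (hM0 : 0 ≤ M) :
    ev r (fun U V => Real.log (∑ V', r U V') - Real.log (r U V)) ≤
      (1 / 8) * ev r (fun _ V => - Real.log (∑ U, r U V)) +
        3 * ev r (fun _ V => (V.card : ℝ)) + (1 / 2) * M := by
  have h := scan h0 hsupp hsum hM _ (univ : Finset X) rfl
  have h1 : ∀ U, rZ r univ U ∅ = ∑ V', r U V' := fun U => by simp [rZ]
  have h2 : pZ r univ ∅ = 1 := by simp [pZ, h1, hsum]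
  simp only [Finset.sdiff_eq_empty_iff_subset.2 (subset_univ _), Finset.inter_univ, card_univ, h1, h2, Real.log_one,
    zero_sub] at h
  refine h.trans ?_
  gcongr ?_ + ?_ + ?_
  · exact le_rfl
  · refine mul_le_mul_of_nonneg_right ?_ (Finset.sum_nonneg fun U _ => Finset.sum_nonneg fun V _ =>
      mul_nonneg (h0 U V) (by positivity))
    have h4 : Real.log 4 = 2 * Real.log 2 := by
      rw [show (4 : ℝ) = 2 ^ 2 by norm_num, Real.log_pow]; norm_num
    linarith [Real.log_two_lt_d9]
  · have hd : ((Fintype.card X : ℕ) : ℝ) / (Fintype.card X : ℝ) ≤ 1 := div_self_le_one _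
    nlinarith

end

end Vale.Agent.P064.Spread
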