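import Mathlib
import Vale.Agent.P064.Abstract
import Vale.Agent.P064.SpreadCode

/-!
The spread lemma with an absolute constant.  For a law `μ` on subsets of `H` let
`D μ = H(U) - H(hU) + E|U| log (1/q)`, `h` a uniform group element, and
`Ψ μ = D μ - 48 E|U| + 8 ∑ x, P(x ∈ U) ^ (9/8)`.  Replacing two independent sets by their union
and intersection shows that the supremum of `Ψ` is at most `0`.  For the uniform law on the copies
of `F` inside `H` this says `cnt H F ≤ |G| * (q * exp 48) ^ |F|`.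
-/

open scoped Pointwise
open Finset

namespace Vale.Agent.P064.Spread

section Av

variable {G Y : Type*} [Group G] [Fintype G] [MulAction G Y]

/-- average over translates -/
noncomputable def av (f : Y → ℝ) (y : Y) : ℝ := (∑ g : G, f (g • y)) / (Fintype.card G : ℝ)

lemma card_pos' : (0 : ℝ) < (Fintype.card G : ℝ) := by exact_mod_cast Fintype.card_pos

lemma av_smul (f : Y → ℝ) (h : G) (y : Y) : av (G := G) f (h • y) = av (G := G) f y := by
  unfold av
  congr 1
  exact Fintype.sum_equiv (Equiv.mulRight h) _ _ fun g => by simp [mul_smul]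

lemma av_nonneg {f : Y → ℝ} (hf : ∀ y, 0 ≤ f y) (y : Y) : 0 ≤ av (G := G) f y :=
  div_nonneg (Finset.sum_nonneg fun g _ => hf _) card_pos'.le

lemma av_pos {f : Y → ℝ} (hf : ∀ y, 0 ≤ f y) {y : Y} (h : 0 < f y) : 0 < av (G := G) f y := by
  refine div_pos (h.trans_le ?_) card_pos'
  exact le_of_eq_of_le (by rw [one_smul]) (Finset.single_le_sum (fun g _ => hf (g • y)) (mem_univ 1))

lemma exists_of_av_ne {f : Y → ℝ} {y : Y} (h : av (G := G) f y ≠ 0) : ∃ g : G, f (g • y) ≠ 0 := by
  by_contra hc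
  push Not at hc
  exact h (by simp [av, hc])

lemma sum_av_mul [Fintype Y] (f φ : Y → ℝ) (hφ : ∀ (g : G) y, φ (g • y) = φ y) :
    ∑ y, av (G := G) f y * φ y = ∑ y, f y * φ y := by
  unfold av
  simp only [div_mul_eq_mul_div, ← Finset.sum_div, Finset.sum_mul]
  rw [Finset.sum_comm]
  have h : ∀ g : G, ∑ y, f (g • y) * φ y = ∑ y, f y * φ y := fun g =>
    Fintype.sum_equiv (MulAction.toPerm g) _ _ fun y => by simp [hφ]
  rw [Finset.sum_congr rfl fun g _ => h g, Finset.sum_const, nsmul_eq_mul, Finset.card_univ]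
  field_simp [(card_pos' (G := G)).ne']

lemma sum_av [Fintype Y] (f : Y → ℝ) : ∑ y, av (G := G) f y = ∑ y, f y := by
  simpa using sum_av_mul (G := G) f (fun _ => 1) fun _ _ => rfl

end Av

variable {G X : Type*} [Group G] [Fintype G] [DecidableEq X] [Fintype X] [MulAction G X]

variable (G) in
/-- every subset of `H` is expected at least once -/
def Good1 (q : ℝ) (H : Finset X) : Prop :=
  ∀ U ⊆ H, 1 ≤ ((orbitF (G := G) U).card : ℝ) * q ^ U.card

/-- a law on subsets of `H` -/
structure Law (H : Finset X) (μ : Finset X → ℝ) : Prop where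
  nonneg : ∀ U, 0 ≤ μ U
  supp : ∀ U, μ U ≠ 0 → U ⊆ H
  sum : ∑ U, μ U = 1

variable (G) in
/-- the defect, homogeneous in `μ` -/
noncomputable def defect (q : ℝ) (μ : Finset X → ℝ) : ℝ :=
  ∑ U, μ U * (Real.log (av (G := G) μ U) - Real.log (μ U) - (U.card : ℝ) * Real.log q)

/-- sum of the powers `9/8` of the marginals -/
noncomputable def bank (μ : Finset X → ℝ) : ℝ := ∑ x, marg μ x ^ (9 / 8 : ℝ)

/-- expected size -/
noncomputable def size (μ : Finset X → ℝ) : ℝ := ∑ U, μ U * (U.card : ℝ)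

variable (G) in
/-- the potential -/
noncomputable def pot (q : ℝ) (μ : Finset X → ℝ) : ℝ :=
  defect G q μ - 48 * size μ + 8 * bank μ

variable {q : ℝ} {H : Finset X} {μ : Finset X → ℝ}

lemma Law.marg_mem (hμ : Law H μ) (x : X) : 0 ≤ marg μ x ∧ marg μ x ≤ 1 :=
  ⟨Finset.sum_nonneg fun U _ => hμ.nonneg U,
    (Finset.sum_le_sum_of_subset_of_nonneg (subset_univ _) fun U _ _ => hμ.nonneg U).trans_eq
      hμ.sum⟩

lemma Law.bank_nonneg (hμ : Law H μ) : 0 ≤ bank μ :=
  Finset.sum_nonneg fun x _ => Real.rpow_nonneg (hμ.marg_mem x).1 _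

/-- an averaged law charges no set more than `q` to its size -/
lemma av_le (hG : Good1 G q H) (hμ : Law H μ) {U : Finset X} (hU : U ⊆ H) :
    av (G := G) μ U ≤ q ^ U.card := by
  classical
  set O := orbitF (G := G) U with hO
  set k := #{g : G | g • U = U} with hk
  have hfib : ∀ W ∈ O, #{g : G | g • U = W} = k := by
    intro W hW
    obtain ⟨h, rfl⟩ := mem_orbitF.1 hW
    refine (Finset.card_equiv (Equiv.mulLeft h) fun g => ?_).symm
    simp [mul_smul]
  have hcard : Fintype.card G = O.card * k := by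
    rw [← Finset.card_univ, Finset.card_eq_sum_card_fiberwise (f := fun g : G => g • U) (t := O)
      fun g _ => mem_orbitF.2 ⟨g, rfl⟩]
    exact (Finset.sum_congr rfl hfib).trans (by rw [Finset.sum_const, smul_eq_mul])
  have hsum : ∑ g : G, μ (g • U) = (k : ℝ) * ∑ W ∈ O, μ W := by
    rw [← Finset.sum_fiberwise_of_maps_to (t := O) (g := fun g : G => g • U)
      fun g _ => mem_orbitF.2 ⟨g, rfl⟩, Finset.mul_sum]
    refine Finset.sum_congr rfl fun W hW => ?_
    rw [Finset.sum_congr rfl fun g hg => by rw [(mem_filter.1 hg).2], Finset.sum_const,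
      nsmul_eq_mul, hfib W hW]
  have hk0 : (0 : ℝ) < k := by exact_mod_cast card_pos.2 ⟨1, by simp [hk]⟩
  have h1 : ∑ W ∈ O, μ W ≤ 1 :=
    (Finset.sum_le_sum_of_subset_of_nonneg (subset_univ _) fun W _ _ => hμ.nonneg W).trans_eq hμ.sum
  unfold av
  rw [hsum, div_le_iff₀ card_pos', hcard, Nat.cast_mul]
  have h2 := hG U hU
  calc (k : ℝ) * ∑ W ∈ O, μ W ≤ (k : ℝ) * 1 := mul_le_mul_of_nonneg_left h1 hk0.le
    _ ≤ (k : ℝ) * ((O.card : ℝ) * q ^ U.card) := mul_le_mul_of_nonneg_left h2 hk0.le
    _ = _ := by ring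

lemma log_av_le (hG : Good1 G q H) (hμ : Law H μ) {U : Finset X} (hU : 0 < μ U) :
    Real.log (av (G := G) μ U) ≤ (U.card : ℝ) * Real.log q := by
  rw [← Real.log_pow]
  exact Real.log_le_log (av_pos hμ.nonneg hU) (av_le hG hμ (hμ.supp U hU.ne'))

lemma pot_bounded (hG : Good1 G q H) (hμ : Law H μ) :
    pot G q μ ≤ Fintype.card (Finset X) + 8 * Fintype.card X := by
  have h1 : defect G q μ ≤ Fintype.card (Finset X) := by
    refine (Finset.sum_le_sum (g := fun _ => (1 : ℝ)) fun U _ => ?_).trans_eq (by simp)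
    rcases (hμ.nonneg U).eq_or_lt with h | h
    · simp [← h]
    · have hl := log_av_le hG hμ h
      have hlog := Real.one_sub_inv_le_log_of_pos h
      have h3 := mul_le_mul_of_nonneg_left hlog h.le
      rw [mul_sub, mul_inv_cancel₀ h.ne', mul_one] at h3
      have h4 := mul_le_mul_of_nonneg_left hl h.le
      linarith
  have h2 : bank μ ≤ Fintype.card X := by
    refine (Finset.sum_le_sum (g := fun _ => (1 : ℝ)) fun x _ => ?_).trans_eq (by simp)
    exact Real.rpow_le_one (hμ.marg_mem x).1 (hμ.marg_mem x).2 (by norm_num)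
  have h3 : 0 ≤ size μ := Finset.sum_nonneg fun U _ => mul_nonneg (hμ.nonneg U) (by positivity)
  unfold pot
  linarith

/-- a split of a nearly maximal law cannot raise the bank much -/
lemma bank_split {V η : ℝ} (hμ : Law H μ) (hV : ∀ ν, Law H ν → pot G q ν ≤ V)
    (hη : V - η ≤ pot G q μ) (a : Finset X → Finset X → ℝ) (ha0 : ∀ U z, 0 ≤ a U z)
    (hmarg : ∀ U, ∑ z, a U z = μ U) :
    8 * ∑ z, (∑ U, a U z) * bank (fun U => a U z / ∑ U', a U' z) ≤
      8 * bank μ + η + ∑ U, ∑ z, a U z * -Real.log (∑ U', a U' z) := by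
  classical
  set p : Finset X → ℝ := fun z => ∑ U, a U z with hp
  set A : Finset X → Finset X → ℝ := fun z U => a U z with hA
  have hp0 : ∀ z, 0 ≤ p z := fun z => Finset.sum_nonneg fun U _ => ha0 U z
  have hp1 : ∑ z, p z = 1 := by
    simp only [hp]
    rw [Finset.sum_comm, ← hμ.sum]
    exact Finset.sum_congr rfl fun U _ => hmarg U
  -- the defect is concave up to the entropy of the label
  have hD : defect G q μ ≤ ∑ z, defect G q (A z) + ∑ U, ∑ z, a U z * -Real.log (p z) := by
    have hg := gibbs univ (fun i : Finset X × Finset X => av (G := G) (A i.1) i.2)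
      (fun i => p i.1 * av (G := G) μ i.2)
      (fun i _ => av_nonneg (fun U => ha0 U i.1) _)
      (fun i _ => mul_nonneg (hp0 _) (av_nonneg hμ.nonneg _))
      (fun i _ hpos => by
        obtain ⟨g, hg⟩ := exists_of_av_ne hpos.ne'
        have hpos' := (ha0 (g • i.2) i.1).lt_of_ne' hg
        refine mul_pos (hpos'.trans_le ?_) ?_
        · exact Finset.single_le_sum (fun U _ => ha0 U i.1) (mem_univ (g • i.2))
        · rw [← av_smul μ g i.2]
          refine av_pos hμ.nonneg (hpos'.trans_le ?_)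
          rw [← hmarg]
          exact Finset.single_le_sum (fun z _ => ha0 _ z) (mem_univ i.1))
    simp only [Fintype.sum_prod_type, sum_av, ← Finset.mul_sum, hμ.sum, mul_one] at hg
    change ∑ z, p z - ∑ z, p z ≤ _ at hg
    rw [sub_self] at hg
    have hmove : ∑ z, ∑ W, av (G := G) (A z) W * (Real.log (av (G := G) (A z) W) -
        Real.log (p z * av (G := G) μ W)) = ∑ z, ∑ U, a U z *
        (Real.log (av (G := G) (A z) U) - Real.log (p z * av (G := G) μ U)) :=
      Finset.sum_congr rfl fun z _ => sum_av_mul (G := G) (A z)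
        (fun W => Real.log (av (G := G) (A z) W) - Real.log (p z * av (G := G) μ W))
        fun g W => by simp only [av_smul]
    rw [hmove] at hg
    have hexp : defect G q μ = ∑ z, ∑ U, a U z * (Real.log (av (G := G) μ U) - Real.log (μ U) -
        (U.card : ℝ) * Real.log q) := by
      rw [Finset.sum_comm]
      refine Finset.sum_congr rfl fun U _ => ?_
      rw [← Finset.sum_mul, hmarg]
    rw [Finset.sum_comm (f := fun U z => a U z * -Real.log (p z)), hexp]
    simp only [defect, hA, ← Finset.sum_add_distrib]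
    refine le_of_sub_nonneg (hg.trans ?_)
    rw [← Finset.sum_sub_distrib]
    refine Finset.sum_le_sum fun z _ => ?_
    rw [← Finset.sum_sub_distrib]
    refine Finset.sum_le_sum fun U _ => ?_
    rcases (ha0 U z).eq_or_lt with h | h
    · simp [← h]
    · have h1 : a U z ≤ μ U := by
        rw [← hmarg]; exact Finset.single_le_sum (fun z _ => ha0 U z) (mem_univ z)
      have hpz : 0 < p z := h.trans_le (Finset.single_le_sum (fun U _ => ha0 U z) (mem_univ U))
      have h2 := mul_le_mul_of_nonneg_left (Real.log_le_log h h1) h.le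
      have h3 := Real.log_mul hpz.ne' (av_pos (G := G) hμ.nonneg (h.trans_le h1)).ne'
      rw [h3]
      linarith
  -- every piece is at most the supremum
  have hz : ∀ z, defect G q (A z) ≤ p z * V + 48 * size (A z) -
      8 * (p z * bank (fun U => a U z / p z)) := by
    intro z
    rcases (hp0 z).eq_or_lt with h | h
    · have h0 : ∀ U, a U z = 0 := fun U => le_antisymm
        (by rw [h]; exact Finset.single_le_sum (fun U _ => ha0 U z) (mem_univ U)) (ha0 U z)
      simp [defect, size, hA, h0, ← h]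
    · have hlaw : Law H fun U => a U z / p z :=
        ⟨fun U => div_nonneg (ha0 U z) h.le, fun U hU => hμ.supp U fun h0 => hU (by
          have h1 : a U z ≤ μ U := by
            rw [← hmarg]; exact Finset.single_le_sum (fun z _ => ha0 U z) (mem_univ z)
          rw [le_antisymm (h0 ▸ h1) (ha0 U z), zero_div]),
          by rw [← Finset.sum_div]; exact div_self h.ne'⟩
      have h1 := mul_le_mul_of_nonneg_left (hV _ hlaw) h.le
      have hs : p z * size (fun U => a U z / p z) = size (A z) := by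
        simp only [size, hA, Finset.mul_sum]
        exact Finset.sum_congr rfl fun U _ => by field_simp
      have hd : p z * defect G q (fun U => a U z / p z) = defect G q (A z) := by
        simp only [defect, hA, Finset.mul_sum]
        refine Finset.sum_congr rfl fun U _ => ?_
        rcases (ha0 U z).eq_or_lt with h2 | h2
        · simp [← h2]
        · have e : av (G := G) (fun U => a U z / p z) U = av (G := G) (fun U => a U z) U / p z := by
            simp only [av, ← Finset.sum_div]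
            exact div_right_comm _ _ _
          rw [e, Real.log_div h2.ne' h.ne', Real.log_div (av_pos (fun U => ha0 U z) h2).ne' h.ne']
          field_simp
          ring
      rw [pot, mul_add, mul_sub, hd, mul_left_comm (p z) 48, hs, mul_left_comm (p z) 8] at h1
      linarith
  have hsz : ∑ z, size (A z) = size μ := by
    simp only [size, hA]
    rw [Finset.sum_comm]
    exact Finset.sum_congr rfl fun U _ => by rw [← Finset.sum_mul, hmarg]
  have h1 := Finset.sum_le_sum fun z (_ : z ∈ (univ : Finset (Finset X))) => hz z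
  rw [Finset.sum_sub_distrib, Finset.sum_add_distrib, ← Finset.sum_mul, hp1, one_mul,
    ← Finset.mul_sum, ← Finset.mul_sum, hsz] at h1
  simp only [pot] at hη
  change 8 * ∑ z, p z * bank (fun U => a U z / p z) ≤ _
  linarith

/-! ### one doubling -/

/-- joint law of `U` and its overlap with an independent copy -/
noncomputable def ov (μ : Finset X → ℝ) (y : Finset X × Finset X) : ℝ :=
  μ y.1 * ∑ U' with y.1 ∩ U' = y.2, μ U'

variable (G) in
/-- the averaged overlap law -/
noncomputable def ovA (μ : Finset X → ℝ) (U V : Finset X) : ℝ := av (G := G) (ov μ) (U, V)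

variable (G) in
/-- a set, and an overlap resampled inside it -/
noncomputable def res (μ : Finset X → ℝ) (U V : Finset X) : ℝ :=
  μ U * ovA G μ U V / av (G := G) μ U

/-- law of the union of two independent sets -/
noncomputable def uni (μ : Finset X → ℝ) (W : Finset X) : ℝ :=
  ∑ U, ∑ U' with U ∪ U' = W, μ U * μ U'

/-- law of the overlap -/
noncomputable def cap (μ : Finset X → ℝ) (V : Finset X) : ℝ := ∑ U, ov μ (U, V)

/-- expectation over two independent sets -/
noncomputable def pe (μ : Finset X → ℝ) (f : Finset X → Finset X → ℝ) : ℝ :=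
  ∑ U, ∑ U', μ U * μ U' * f U U'

lemma pe_inter (μ : Finset X → ℝ) (f : Finset X → Finset X → ℝ) :
    pe μ (fun U U' => f U (U ∩ U')) = ∑ y : Finset X × Finset X, ov μ y * f y.1 y.2 := by
  rw [Fintype.sum_prod_type]
  refine Finset.sum_congr rfl fun U _ => ?_
  rw [← Finset.sum_fiberwise univ (fun U' => U ∩ U')]
  refine Finset.sum_congr rfl fun V _ => ?_
  simp only [ov, Finset.mul_sum, Finset.sum_mul]
  exact Finset.sum_congr rfl fun U' h => by rw [(mem_filter.1 h).2]

lemma pe_cap (μ : Finset X → ℝ) (f : Finset X → ℝ) :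
    pe μ (fun U U' => f (U ∩ U')) = ∑ V, cap μ V * f V := by
  rw [pe_inter μ fun _ V => f V, Fintype.sum_prod_type, Finset.sum_comm]
  exact Finset.sum_congr rfl fun V _ => by rw [cap, Finset.sum_mul]

lemma pe_uni (μ : Finset X → ℝ) (f : Finset X → ℝ) :
    pe μ (fun U U' => f (U ∪ U')) = ∑ W, uni μ W * f W := by
  simp only [uni, Finset.sum_mul]
  rw [Finset.sum_comm]
  refine Finset.sum_congr rfl fun U _ => ?_
  rw [← Finset.sum_fiberwise univ (fun U' => U ∪ U')]
  exact Finset.sum_congr rfl fun W _ => Finset.sum_congr rfl fun U' h => by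
    dsimp only
    rw [(mem_filter.1 h).2]

lemma pe_add (μ : Finset X → ℝ) (f g : Finset X → Finset X → ℝ) :
    pe μ (fun U U' => f U U' + g U U') = pe μ f + pe μ g := by
  simp only [pe, mul_add, Finset.sum_add_distrib]

lemma pe_swap (μ : Finset X → ℝ) (f : Finset X → Finset X → ℝ) :
    pe μ (fun U U' => f U' U) = pe μ f := by
  unfold pe
  rw [Finset.sum_comm]
  exact Finset.sum_congr rfl fun U _ => Finset.sum_congr rfl fun U' _ => by ring

lemma pe_fst (hμ : Law H μ) (f : Finset X → ℝ) : pe μ (fun U _ => f U) = ∑ U, μ U * f U := by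
  refine Finset.sum_congr rfl fun U _ => ?_
  rw [← Finset.sum_mul, ← Finset.mul_sum, hμ.sum, mul_one]

lemma Law.ov_nonneg (hμ : Law H μ) (y : Finset X × Finset X) : 0 ≤ ov μ y :=
  mul_nonneg (hμ.nonneg _) (Finset.sum_nonneg fun U' _ => hμ.nonneg U')

lemma Law.sum_ov (hμ : Law H μ) (U : Finset X) : ∑ V, ov μ (U, V) = μ U := by
  unfold ov
  dsimp only
  rw [← Finset.mul_sum]
  have h : ∑ V, ∑ U' with U ∩ U' = V, μ U' = ∑ U', μ U' :=
    Finset.sum_fiberwise univ (fun U' => U ∩ U') μ
  rw [h, hμ.sum, mul_one]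

lemma Law.ov_supp (hμ : Law H μ) {y : Finset X × Finset X} (h : ov μ y ≠ 0) :
    y.2 ⊆ y.1 ∧ y.1 ⊆ H ∧ μ y.1 ≠ 0 := by
  unfold ov at h
  obtain ⟨h1, h2⟩ := mul_ne_zero_iff.1 h
  obtain ⟨U', hU', -⟩ := Finset.exists_ne_zero_of_sum_ne_zero h2
  refine ⟨?_, hμ.supp _ h1, h1⟩
  rw [← (mem_filter.1 hU').2]
  exact inter_subset_left

lemma Law.ovA_fst (hμ : Law H μ) (U : Finset X) : ∑ V, ovA G μ U V = av (G := G) μ U := by
  unfold ovA av
  rw [← Finset.sum_div, Finset.sum_comm]
  congr 1
  refine Finset.sum_congr rfl fun g _ => ?_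
  rw [← hμ.sum_ov (g • U)]
  exact Fintype.sum_equiv (MulAction.toPerm g) _ _ fun V => rfl

lemma ovA_snd (μ : Finset X → ℝ) (V : Finset X) : ∑ U, ovA G μ U V = av (G := G) (cap μ) V := by
  unfold ovA av cap
  rw [← Finset.sum_div, Finset.sum_comm]
  congr 1
  refine Finset.sum_congr rfl fun g _ => ?_
  exact Fintype.sum_equiv (MulAction.toPerm g) _ _ fun U => rfl

lemma Law.ovA_pos (hμ : Law H μ) {U U' : Finset X} (hU : 0 < μ U) (hU' : 0 < μ U') :
    0 < ovA G μ U (U ∩ U') :=
  av_pos hμ.ov_nonneg <| mul_pos hU <|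
    hU'.trans_le (Finset.single_le_sum (fun W _ => hμ.nonneg W) (by simp))

lemma Law.res_nonneg (hμ : Law H μ) (U V : Finset X) : 0 ≤ res G μ U V :=
  div_nonneg (mul_nonneg (hμ.nonneg U) (av_nonneg hμ.ov_nonneg _)) (av_nonneg hμ.nonneg U)

lemma Law.res_supp (hμ : Law H μ) (U V : Finset X) (h : res G μ U V ≠ 0) :
    V ⊆ U ∧ U ⊆ H := by
  unfold res at h
  obtain ⟨h1, h2⟩ := mul_ne_zero_iff.1 (div_ne_zero_iff.1 h).1
  obtain ⟨g, hg⟩ := exists_of_av_ne (G := G) h2
  exact ⟨Finset.smul_finset_subset_smul_finset_iff.1 (hμ.ov_supp hg).1, hμ.supp U h1⟩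

lemma Law.res_fst (hμ : Law H μ) (U : Finset X) : ∑ V, res G μ U V = μ U := by
  unfold res
  rw [← Finset.sum_div, ← Finset.mul_sum, hμ.ovA_fst]
  rcases (hμ.nonneg U).eq_or_lt with h | h
  · simp [← h]
  · exact mul_div_cancel_right₀ _ (av_pos hμ.nonneg h).ne'

lemma Law.av_res (hμ : Law H μ) (y : Finset X × Finset X) :
    av (G := G) (fun y => res G μ y.1 y.2) y = av (G := G) (ov μ) y := by
  obtain ⟨U, V⟩ := y
  have h1 : ∀ g : G, res G μ (g • U) (g • V) =
      μ (g • U) * (ovA G μ U V / av (G := G) μ U) := fun g => by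
    unfold res ovA
    rw [av_smul μ g U, show (g • U, g • V) = g • (U, V) from rfl, av_smul (ov μ) g (U, V),
      mul_div_assoc]
  have h2 : av (G := G) (fun y => res G μ y.1 y.2) (U, V) =
      av (G := G) μ U * (ovA G μ U V / av (G := G) μ U) := by
    unfold av
    simp only [Prod.smul_mk, h1, ← Finset.sum_mul, div_mul_eq_mul_div]
    rfl
  rw [h2]
  rcases eq_or_ne (ovA G μ U V) 0 with h | h
  · rw [h, zero_div, mul_zero]
    exact h.symm
  · have hne : av (G := G) μ U ≠ 0 := by
      obtain ⟨g, hg⟩ := exists_of_av_ne (G := G) h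
      rw [← av_smul μ g U]
      exact (av_pos hμ.nonneg ((hμ.nonneg _).lt_of_ne' (hμ.ov_supp hg).2.2)).ne'
    exact mul_div_cancel₀ _ hne

/-- law of the resampled overlap -/
noncomputable def capR (G : Type*) {X : Type*} [Group G] [Fintype G] [DecidableEq X] [Fintype X]
    [MulAction G X] (μ : Finset X → ℝ) (V : Finset X) : ℝ := ∑ U, res G μ U V

lemma Law.capR_law (hμ : Law H μ) : Law H (capR G μ) := by
  refine ⟨fun V => Finset.sum_nonneg fun U _ => hμ.res_nonneg U V, fun V hV => ?_, ?_⟩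
  · obtain ⟨U, -, hU⟩ := Finset.exists_ne_zero_of_sum_ne_zero hV
    exact (hμ.res_supp U V hU).1.trans (hμ.res_supp U V hU).2
  · simp only [capR]
    rw [Finset.sum_comm, ← hμ.sum]
    exact Finset.sum_congr rfl fun U _ => hμ.res_fst U

lemma Law.av_capR (hμ : Law H μ) (V : Finset X) :
    av (G := G) (capR G μ) V = av (G := G) (cap μ) V := by
  rw [← ovA_snd]
  unfold ovA
  simp only [← hμ.av_res]
  unfold av capR
  rw [← Finset.sum_div, Finset.sum_comm (s := univ) (t := univ)
    (f := fun U g => res G μ (g • (U, V)).1 (g • (U, V)).2)]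
  congr 1
  refine Finset.sum_congr rfl fun g _ => ?_
  exact (Fintype.sum_equiv (MulAction.toPerm g) _ _ fun U => rfl).symm

lemma Law.cap_law (hμ : Law H μ) : Law H (cap μ) := by
  refine ⟨fun V => Finset.sum_nonneg fun U _ => hμ.ov_nonneg _, fun V hV => ?_, ?_⟩
  · obtain ⟨U, -, hU⟩ := Finset.exists_ne_zero_of_sum_ne_zero hV
    exact (hμ.ov_supp hU).1.trans (hμ.ov_supp hU).2.1
  · simp only [cap]
    rw [Finset.sum_comm, ← hμ.sum]
    exact Finset.sum_congr rfl fun U _ => hμ.sum_ov U

lemma Law.uni_law (hμ : Law H μ) : Law H (uni μ) := by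
  refine ⟨fun W => Finset.sum_nonneg fun U _ => Finset.sum_nonneg fun U' _ =>
    mul_nonneg (hμ.nonneg U) (hμ.nonneg U'), fun W hW => ?_, ?_⟩
  · obtain ⟨U, -, hU⟩ := Finset.exists_ne_zero_of_sum_ne_zero hW
    obtain ⟨U', hU', hne⟩ := Finset.exists_ne_zero_of_sum_ne_zero hU
    rw [← (mem_filter.1 hU').2]
    exact union_subset (hμ.supp U (mul_ne_zero_iff.1 hne).1) (hμ.supp U' (mul_ne_zero_iff.1 hne).2)
  · have h := pe_uni μ fun _ => (1 : ℝ)
    simp only [mul_one] at h
    rw [← h]
    simp only [pe, mul_one]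
    rw [← Finset.sum_mul_sum, hμ.sum, mul_one]

/-- the pair code has total mass at most one -/
lemma sum_pair_code (hμ : Law H μ) :
    ∑ U, ∑ U', uni μ (U ∪ U') / av (G := G) (uni μ) (U ∪ U') *
      (ovA G μ U (U ∩ U') * ovA G μ U' (U ∩ U') / av (G := G) (cap μ) (U ∩ U')) ≤ 1 := by
  classical
  set bb : Finset X × Finset X → ℝ := fun p => ovA G μ p.1 (p.1 ∩ p.2) *
    ovA G μ p.2 (p.1 ∩ p.2) / av (G := G) (cap μ) (p.1 ∩ p.2) with hbb
  have hbb0 : ∀ p, 0 ≤ bb p := fun p => div_nonneg
    (mul_nonneg (av_nonneg hμ.ov_nonneg _) (av_nonneg hμ.ov_nonneg _))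
    (av_nonneg hμ.cap_law.nonneg _)
  set B : Finset X → ℝ := fun W => ∑ p with p.1 ∪ p.2 = W, bb p with hB
  have hbinv : ∀ (g : G) p, bb (g • p) = bb p := by
    rintro g ⟨U, U'⟩
    simp only [hbb, Prod.smul_mk, ovA, ← Finset.smul_finset_inter, av_smul]
    rw [show (g • U, g • (U ∩ U')) = g • (U, U ∩ U') from rfl,
      show (g • U', g • (U ∩ U')) = g • (U', U ∩ U') from rfl, av_smul, av_smul]
  have hBinv : ∀ (g : G) W, B (g • W) = B W := by
    intro g W
    simp only [hB]
    refine (Finset.sum_equiv (MulAction.toPerm g) (fun p => ?_) fun p _ => ?_).symm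
    · simp [← Finset.smul_finset_union]
    · exact (hbinv g p).symm
  have hu0 := hμ.uni_law.nonneg
  calc ∑ U, ∑ U', uni μ (U ∪ U') / av (G := G) (uni μ) (U ∪ U') * bb (U, U')
      = ∑ W, uni μ W * (B W / av (G := G) (uni μ) W) := by
        rw [← Fintype.sum_prod_type (f := fun p : Finset X × Finset X =>
          uni μ (p.1 ∪ p.2) / av (G := G) (uni μ) (p.1 ∪ p.2) * bb p),
          ← Finset.sum_fiberwise univ (fun p : Finset X × Finset X => p.1 ∪ p.2)]
        refine Finset.sum_congr rfl fun W _ => ?_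
        simp only [hB, Finset.sum_div, Finset.mul_sum]
        refine Finset.sum_congr rfl fun p hp => ?_
        rw [(mem_filter.1 hp).2]
        ring
    _ = ∑ W, av (G := G) (uni μ) W * (B W / av (G := G) (uni μ) W) :=
        (sum_av_mul (G := G) (uni μ) _ fun g W => by rw [hBinv, av_smul]).symm
    _ ≤ ∑ W, B W := by
        refine Finset.sum_le_sum fun W _ => ?_
        rcases eq_or_ne (av (G := G) (uni μ) W) 0 with h | h
        · rw [h, zero_mul]; exact Finset.sum_nonneg fun p _ => hbb0 p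
        · rw [mul_div_cancel₀ _ h]
    _ = ∑ U, ∑ U', bb (U, U') := by
        rw [← Fintype.sum_prod_type (f := bb)]
        exact Finset.sum_fiberwise univ (fun p : Finset X × Finset X => p.1 ∪ p.2) bb
    _ ≤ ∑ U, ∑ U', ∑ V, ovA G μ U V * ovA G μ U' V / av (G := G) (cap μ) V := by
        refine Finset.sum_le_sum fun U _ => Finset.sum_le_sum fun U' _ => ?_
        exact Finset.single_le_sum (f := fun V => ovA G μ U V * ovA G μ U' V /
          av (G := G) (cap μ) V) (fun V _ => div_nonneg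
            (mul_nonneg (av_nonneg hμ.ov_nonneg _) (av_nonneg hμ.ov_nonneg _))
            (av_nonneg hμ.cap_law.nonneg _)) (mem_univ (U ∩ U'))
    _ = ∑ V, av (G := G) (cap μ) V * av (G := G) (cap μ) V / av (G := G) (cap μ) V := by
        simp only [← ovA_snd (G := G) μ, Finset.sum_mul_sum, Finset.sum_div]
        refine Eq.trans ?_ Finset.sum_comm
        exact Finset.sum_congr rfl fun U _ => Finset.sum_comm
    _ ≤ ∑ V, av (G := G) (cap μ) V := by
        refine Finset.sum_le_sum fun V _ => ?_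
        rw [mul_self_div_self]
    _ = 1 := by rw [sum_av, hμ.cap_law.sum]

/-- conditional entropy of the overlap given one set -/
noncomputable def capEnt (G : Type*) {X : Type*} [Group G] [Fintype G] [DecidableEq X] [Fintype X]
    [MulAction G X] (μ : Finset X → ℝ) : ℝ :=
  pe μ fun U U' => Real.log (av (G := G) μ U) - Real.log (ovA G μ U (U ∩ U'))

/-- slack of the overlap -/
noncomputable def slack (G : Type*) {X : Type*} [Group G] [Fintype G] [DecidableEq X] [Fintype X]
    [MulAction G X] (q : ℝ) (μ : Finset X → ℝ) : ℝ :=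
  ∑ V, cap μ V * ((V.card : ℝ) * Real.log q - Real.log (av (G := G) (cap μ) V))

lemma slack_nonneg (hG : Good1 G q H) (hμ : Law H μ) : 0 ≤ slack G q μ := by
  refine Finset.sum_nonneg fun V _ => ?_
  rcases (hμ.cap_law.nonneg V).eq_or_lt with h | h
  · simp [← h]
  · have := log_av_le hG hμ.cap_law h
    exact mul_nonneg h.le (by linarith)

lemma double (hμ : Law H μ) :
    2 * defect G q μ ≤ defect G q (uni μ) - slack G q μ + 2 * capEnt G μ := by
  classical
  set b : Finset X × Finset X → ℝ := fun p =>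
    uni μ (p.1 ∪ p.2) / av (G := G) (uni μ) (p.1 ∪ p.2) *
      (ovA G μ p.1 (p.1 ∩ p.2) * ovA G μ p.2 (p.1 ∩ p.2) / av (G := G) (cap μ) (p.1 ∩ p.2))
    with hb
  have hb0 : ∀ p, 0 ≤ b p := fun p => mul_nonneg
    (div_nonneg (hμ.uni_law.nonneg _) (av_nonneg hμ.uni_law.nonneg _))
    (div_nonneg (mul_nonneg (av_nonneg hμ.ov_nonneg _) (av_nonneg hμ.ov_nonneg _))
      (av_nonneg hμ.cap_law.nonneg _))
  have hpos : ∀ U U', 0 < μ U → 0 < μ U' → 0 < uni μ (U ∪ U') ∧
      0 < av (G := G) (uni μ) (U ∪ U') ∧ 0 < ovA G μ U (U ∩ U') ∧ 0 < ovA G μ U' (U ∩ U') ∧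
      0 < av (G := G) (cap μ) (U ∩ U') := by
    intro U U' hU hU'
    have hW : 0 < uni μ (U ∪ U') := (mul_pos hU hU').trans_le <|
      le_trans (Finset.single_le_sum (fun W _ => mul_nonneg (hμ.nonneg U) (hμ.nonneg W))
        (by simp : U' ∈ univ.filter fun W => U ∪ W = U ∪ U'))
        (Finset.single_le_sum (f := fun V => ∑ W with V ∪ W = U ∪ U', μ V * μ W)
          (fun V _ => Finset.sum_nonneg fun W _ => mul_nonneg (hμ.nonneg V) (hμ.nonneg W))
          (mem_univ U))
    have hV : 0 < cap μ (U ∩ U') := (mul_pos hU (hU'.trans_le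
      (Finset.single_le_sum (fun W _ => hμ.nonneg W) (by simp)))).trans_le
        (Finset.single_le_sum (f := fun V => ov μ (V, U ∩ U')) (fun V _ => hμ.ov_nonneg _)
          (mem_univ U))
    refine ⟨hW, av_pos hμ.uni_law.nonneg hW, hμ.ovA_pos hU hU', ?_, av_pos hμ.cap_law.nonneg hV⟩
    rw [Finset.inter_comm]
    exact hμ.ovA_pos hU' hU
  have hg := gibbs univ (fun p : Finset X × Finset X => μ p.1 * μ p.2) b
    (fun p _ => mul_nonneg (hμ.nonneg _) (hμ.nonneg _)) (fun p _ => hb0 p) (fun p _ h => by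
      have h1 : 0 < μ p.1 :=
        (hμ.nonneg _).lt_of_ne' fun h0 => by simp [h0] at h
      have h2 : 0 < μ p.2 :=
        (hμ.nonneg _).lt_of_ne' fun h0 => by simp [h0] at h
      obtain ⟨a1, a2, a3, a4, a5⟩ := hpos p.1 p.2 h1 h2
      exact mul_pos (div_pos a1 a2) (div_pos (mul_pos a3 a4) a5))
  simp only [Fintype.sum_prod_type, hb] at hg
  rw [← Finset.sum_mul_sum, hμ.sum, mul_one] at hg
  have hge : 0 ≤ pe μ fun U U' => Real.log (μ U * μ U') - Real.log (b (U, U')) := by
    have := sum_pair_code (G := G) hμ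
    simp only [hb, pe]
    linarith
  set cU : Finset X → ℝ := fun U =>
    Real.log (av (G := G) μ U) - Real.log (μ U) - (U.card : ℝ) * Real.log q with hcU
  have e1 : pe μ (fun U _ => cU U) = defect G q μ := pe_fst hμ _
  have e1' : pe μ (fun _ U' => cU U') = defect G q μ := (pe_swap μ fun U _ => cU U).trans e1
  have e2 : pe μ (fun U U' => Real.log (av (G := G) (uni μ) (U ∪ U')) -
      Real.log (uni μ (U ∪ U')) - ((U ∪ U').card : ℝ) * Real.log q) = defect G q (uni μ) :=
    pe_uni μ fun W => Real.log (av (G := G) (uni μ) W) - Real.log (uni μ W) -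
      (W.card : ℝ) * Real.log q
  have e3 : pe μ (fun U U' => ((U ∩ U').card : ℝ) * Real.log q -
      Real.log (av (G := G) (cap μ) (U ∩ U'))) = slack G q μ :=
    pe_cap μ fun V => (V.card : ℝ) * Real.log q - Real.log (av (G := G) (cap μ) V)
  have e4 : pe μ (fun U U' => Real.log (av (G := G) μ U') -
      Real.log (ovA G μ U' (U ∩ U'))) = capEnt G μ := by
    rw [capEnt, ← pe_swap μ fun U U' => Real.log (av (G := G) μ U) -
      Real.log (ovA G μ U (U ∩ U'))]
    simp only [Finset.inter_comm]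
  have key : pe μ (fun U _ => cU U) + pe μ (fun _ U' => cU U') +
      pe μ (fun U U' => ((U ∩ U').card : ℝ) * Real.log q -
        Real.log (av (G := G) (cap μ) (U ∩ U'))) +
      pe μ (fun U U' => Real.log (μ U * μ U') - Real.log (b (U, U'))) =
      pe μ (fun U U' => Real.log (av (G := G) (uni μ) (U ∪ U')) - Real.log (uni μ (U ∪ U')) -
        ((U ∪ U').card : ℝ) * Real.log q) +
      pe μ (fun U U' => Real.log (av (G := G) μ U) - Real.log (ovA G μ U (U ∩ U'))) +
      pe μ (fun U U' => Real.log (av (G := G) μ U') - Real.log (ovA G μ U' (U ∩ U'))) := by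
    simp only [← pe_add]
    refine Finset.sum_congr rfl fun U _ => Finset.sum_congr rfl fun U' _ => ?_
    rcases (hμ.nonneg U).eq_or_lt with h | hU
    · simp [← h]
    rcases (hμ.nonneg U').eq_or_lt with h | hU'
    · simp [← h]
    obtain ⟨a1, a2, a3, a4, a5⟩ := hpos U U' hU hU'
    congr 1
    have hc : ((U ∪ U').card : ℝ) + ((U ∩ U').card : ℝ) = U.card + U'.card := by
      exact_mod_cast card_union_add_card_inter U U'
    simp only [hb, hcU]
    rw [Real.log_mul hU.ne' hU'.ne', Real.log_mul (div_pos a1 a2).ne'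
      (div_pos (mul_pos a3 a4) a5).ne', Real.log_div a1.ne' a2.ne',
      Real.log_div (mul_pos a3 a4).ne' a5.ne', Real.log_mul a3.ne' a4.ne']
    linear_combination -(Real.log q) * hc.symm
  rw [e1, e1', e2, e3, e4] at key
  have : pe μ (fun U U' => Real.log (av (G := G) μ U) - Real.log (ovA G μ U (U ∩ U'))) =
    capEnt G μ := rfl
  linarith

lemma marg_uni (hμ : Law H μ) (x : X) : marg (uni μ) x = 2 * marg μ x - marg μ x ^ 2 := by
  have h := pe_uni μ fun W => if x ∈ W then 1 else 0
  simp only [mul_ite, mul_one, mul_zero, ← Finset.sum_filter] at h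
  change marg (uni μ) x = _
  rw [show marg (uni μ) x = ∑ W with x ∈ W, uni μ W from rfl, ← h]
  have hc : marg μ x = ∑ U, μ U * (if x ∈ U then 1 else 0) := by
    simp [marg, mul_ite, ← Finset.sum_filter]
  calc pe μ (fun U U' => if x ∈ U ∪ U' then 1 else 0)
      = pe μ (fun U _ => if x ∈ U then 1 else 0) + pe μ (fun _ U' => if x ∈ U' then 1 else 0) -
        pe μ (fun U U' => (if x ∈ U then 1 else 0) * if x ∈ U' then 1 else 0) := by
        rw [← pe_add, eq_sub_iff_add_eq, ← pe_add]
        refine Finset.sum_congr rfl fun U _ => Finset.sum_congr rfl fun U' _ => ?_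
        congr 1
        by_cases hU : x ∈ U <;> by_cases hU' : x ∈ U' <;> simp [hU, hU']
    _ = marg μ x + marg μ x - marg μ x * marg μ x := by
        have f1 : pe μ (fun U _ => if x ∈ U then 1 else 0) = marg μ x :=
          (pe_fst hμ fun U => if x ∈ U then 1 else 0).trans hc.symm
        rw [f1, (pe_swap μ fun U _ => if x ∈ U then 1 else 0).trans f1]
        congr 1
        rw [hc, Finset.sum_mul_sum]
        exact Finset.sum_congr rfl fun U _ => Finset.sum_congr rfl fun U' _ => by ring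
    _ = _ := by ring

lemma size_cap (μ : Finset X → ℝ) : size (cap μ) = ∑ x, marg μ x ^ 2 := by
  rw [size, ← pe_cap μ fun V => (V.card : ℝ)]
  have h : ∀ U U' : Finset X, ((U ∩ U').card : ℝ) =
      ∑ x, (if x ∈ U then 1 else 0) * if x ∈ U' then 1 else 0 := fun U U' => by
    simp only [ite_zero_mul_ite_zero, mul_one, Finset.sum_boole]
    congr 2
    ext x
    simp
  simp only [pe, h, Finset.mul_sum]
  rw [Finset.sum_comm]
  refine (Finset.sum_congr rfl fun U' _ => Finset.sum_comm).trans ?_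
  rw [Finset.sum_comm]
  refine Finset.sum_congr rfl fun x _ => ?_
  rw [sq, marg, Finset.sum_filter, Finset.sum_mul_sum]
  refine Finset.sum_congr rfl fun U _ => Finset.sum_congr rfl fun U' _ => ?_
  split_ifs <;> ring

lemma size_uni (hμ : Law H μ) : size (uni μ) = 2 * size μ - size (cap μ) := by
  have h1 := pe_uni μ fun W => (W.card : ℝ)
  have h2 := pe_cap μ fun V => (V.card : ℝ)
  have h3 : pe μ (fun U U' => ((U ∪ U').card : ℝ) + ((U ∩ U').card : ℝ)) =
      pe μ (fun U _ => (U.card : ℝ)) + pe μ (fun _ U' => (U'.card : ℝ)) := by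
    rw [← pe_add μ (fun U _ => (U.card : ℝ)) fun _ U' => (U'.card : ℝ)]
    refine Finset.sum_congr rfl fun U _ => Finset.sum_congr rfl fun U' _ => ?_
    dsimp only
    congr 1
    exact_mod_cast card_union_add_card_inter U U'
  have f1 : pe μ (fun U _ => (U.card : ℝ)) = size μ := pe_fst hμ _
  rw [pe_add, (pe_swap μ fun U _ => (U.card : ℝ)).trans f1, f1] at h3
  simp only [size] at *
  linarith

/-- growth of the bank at a doubling -/
lemma pow_double {m : ℝ} (h0 : 0 ≤ m) (h1 : m ≤ 1) :
    (13 / 6) * m ^ (9 / 8 : ℝ) - (9 / 4) * m ^ 2 ≤ (2 * m - m ^ 2) ^ (9 / 8 : ℝ) := by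
  have h13 : (13 / 12 : ℝ) ≤ (2 : ℝ) ^ (1 / 8 : ℝ) := by
    have e : (13 / 12 : ℝ) = ((13 / 12 : ℝ) ^ (8 : ℕ)) ^ (1 / 8 : ℝ) := by
      rw [← Real.rpow_natCast, ← Real.rpow_mul (by norm_num)]
      norm_num
    rw [e]
    exact Real.rpow_le_rpow (by positivity) (by norm_num) (by norm_num)
  have h2a : (13 / 6 : ℝ) ≤ (2 : ℝ) ^ (9 / 8 : ℝ) := by
    rw [show (9 / 8 : ℝ) = 1 + 1 / 8 by norm_num, Real.rpow_add (by norm_num), Real.rpow_one]
    linarith
  have h2b : (2 : ℝ) ^ (9 / 8 : ℝ) ≤ 4 := by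
    calc (2 : ℝ) ^ (9 / 8 : ℝ) ≤ (2 : ℝ) ^ (2 : ℝ) :=
          Real.rpow_le_rpow_of_exponent_le (by norm_num) (by norm_num)
      _ = 4 := by norm_num
  have hb := one_add_mul_self_le_rpow_one_add (show (-1 : ℝ) ≤ -(m / 2) by linarith)
    (show (1 : ℝ) ≤ 9 / 8 by norm_num)
  rw [show 2 * m - m ^ 2 = 2 * m * (1 + -(m / 2)) by ring, Real.mul_rpow (by positivity)
    (by linarith), Real.mul_rpow (by norm_num) h0]
  have hp0 : 0 ≤ m ^ (9 / 8 : ℝ) := Real.rpow_nonneg h0 _
  have hp1 : m ^ (9 / 8 : ℝ) ≤ m := Real.rpow_le_self_of_le_one h0 h1 (by norm_num)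
  have h2 : 0 ≤ (2 : ℝ) ^ (9 / 8 : ℝ) := by positivity
  have hA := mul_le_mul_of_nonneg_left hb (mul_nonneg h2 hp0)
  nlinarith [mul_le_mul_of_nonneg_right h2a hp0, mul_le_mul_of_nonneg_left hp1 h0,
    mul_le_mul_of_nonneg_right h2b (mul_nonneg hp0 h0), mul_nonneg hp0 h0]

/-- a nearly maximal potential is small -/
lemma near_max (hG : Good1 G q H) (hμ : Law H μ) {V η : ℝ} (hη0 : 0 ≤ η)
    (hV : ∀ ν, Law H ν → pot G q ν ≤ V) (hη : V - η ≤ pot G q μ) : V ≤ 5 * η := by
  classical
  set r := res G μ with hr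
  have h0 : ∀ U W, 0 ≤ r U W := hμ.res_nonneg
  have hsupp : ∀ U W, r U W ≠ 0 → W ⊆ U := fun U W h => (hμ.res_supp U W h).1
  have hsum : ∑ U, ∑ W, r U W = 1 := by
    rw [← hμ.sum]; exact Finset.sum_congr rfl fun U _ => hμ.res_fst U
  set Gt := ev r fun _ W => -Real.log (∑ U, r U W) with hGt
  have hGt0 : 0 ≤ Gt := Finset.sum_nonneg fun U _ => Finset.sum_nonneg fun W _ => by
    refine mul_nonneg (h0 U W) (neg_nonneg.2 (Real.log_nonpos
      (Finset.sum_nonneg fun U' _ => h0 U' W) ?_))
    rw [← hsum]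
    exact Finset.sum_le_sum fun U' _ => Finset.single_le_sum (fun W _ => h0 U' W) (mem_univ W)
  -- the posterior banks
  set M := bank μ + η / 8 + Gt / 8 with hM
  have hMT : ∀ T : Finset X,
      ∑ z, pZ r T z * ∑ x, marg (condZ r T z) x ^ (9 / 8 : ℝ) ≤ M := by
    intro T
    have h := bank_split hμ hV hη (fun U z => rZ r T U z) (fun U z => rZ_nonneg h0 T U z)
      fun U => (Finset.sum_fiberwise univ (fun W => W \ T) (r U)).trans (hμ.res_fst U)
    have hlab : ∑ U, ∑ z, rZ r T U z * -Real.log (∑ U', rZ r T U' z) ≤ Gt := by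
      rw [ev_rZ T fun _ z => -Real.log (∑ U', rZ r T U' z)]
      refine Finset.sum_le_sum fun U _ => Finset.sum_le_sum fun W _ => ?_
      rcases (h0 U W).eq_or_lt with h' | h'
      · simp [← h']
      · refine mul_le_mul_of_nonneg_left (neg_le_neg (Real.log_le_log ?_ ?_)) h'.le
        · exact h'.trans_le (Finset.single_le_sum (fun U' _ => h0 U' W) (mem_univ U))
        · exact Finset.sum_le_sum fun U' _ => le_rZ h0 T U' W
    change 8 * ∑ z, pZ r T z * ∑ x, marg (condZ r T z) x ^ (9 / 8 : ℝ) ≤ _ at h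
    rw [hM]
    linarith
  have hM0 : 0 ≤ M := by have := hμ.bank_nonneg; positivity
  have hcode := code_bound h0 hsupp hsum hMT hM0
  -- the three quantities of the resampled overlap
  have hev : ∀ f : Finset X → Finset X → ℝ, (∀ (g : G) U W, f (g • U) (g • W) = f U W) →
      ev r f = pe μ fun U U' => f U (U ∩ U') := by
    intro f hf
    rw [pe_inter]
    have hinv : ∀ (g : G) (y : Finset X × Finset X), f (g • y).1 (g • y).2 = f y.1 y.2 :=
      fun g y => hf g y.1 y.2
    calc ev r f = ∑ y : Finset X × Finset X, r y.1 y.2 * f y.1 y.2 :=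
          (Fintype.sum_prod_type fun y : Finset X × Finset X => r y.1 y.2 * f y.1 y.2).symm
      _ = ∑ y, av (G := G) (fun y : Finset X × Finset X => r y.1 y.2) y * f y.1 y.2 :=
          (sum_av_mul (G := G) (fun y : Finset X × Finset X => r y.1 y.2) (fun y => f y.1 y.2) hinv).symm
      _ = ∑ y, av (G := G) (ov μ) y * f y.1 y.2 := by simp only [hr, hμ.av_res]
      _ = _ := sum_av_mul (G := G) (ov μ) (fun y => f y.1 y.2) hinv
  have hE : ev r (fun U W => Real.log (∑ W', r U W') - Real.log (r U W)) = capEnt G μ := by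
    unfold capEnt
    rw [← hev (fun U W => Real.log (av (G := G) μ U) - Real.log (ovA G μ U W))
      fun g U W => by
        unfold ovA
        rw [av_smul μ g U, show (g • U, g • W) = g • (U, W) from rfl, av_smul]]
    refine Finset.sum_congr rfl fun U _ => Finset.sum_congr rfl fun W _ => ?_
    rcases (h0 U W).eq_or_lt with h | h
    · simp [← h]
    · congr 1
      have hne := h.ne'
      rw [hr, res] at hne
      obtain ⟨hne', hν⟩ := div_ne_zero_iff.1 hne
      obtain ⟨hμU, hN⟩ := mul_ne_zero_iff.1 hne'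
      dsimp only
      simp only [hr, hμ.res_fst]
      rw [res, Real.log_div (mul_ne_zero hμU hN) hν, Real.log_mul hμU hN]
      ring
  have hP : ev r (fun _ W => (W.card : ℝ)) = size (cap μ) := by
    rw [hev (fun _ W => (W.card : ℝ)) fun g U W => by simp [Finset.card_smul_finset]]
    exact pe_cap μ fun W => (W.card : ℝ)
  have hGd : Gt = defect G q (capR G μ) + slack G q μ := by
    have hs : slack G q μ = ev r fun _ W =>
        (W.card : ℝ) * Real.log q - Real.log (av (G := G) (cap μ) W) := by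
      rw [hev (fun _ W => (W.card : ℝ) * Real.log q - Real.log (av (G := G) (cap μ) W))
        fun g U W => by simp [Finset.card_smul_finset, av_smul]]
      exact (pe_cap μ fun W => (W.card : ℝ) * Real.log q - Real.log (av (G := G) (cap μ) W)).symm
    have hd : defect G q (capR G μ) = ev r fun _ W => Real.log (av (G := G) (cap μ) W) -
        Real.log (capR G μ W) - (W.card : ℝ) * Real.log q := by
      unfold ev defect
      rw [Finset.sum_comm]
      refine Finset.sum_congr rfl fun W _ => ?_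
      rw [hμ.av_capR, ← Finset.sum_mul]
      rfl
    rw [hs, hd, ← ev_add, hGt]
    congr 1
    funext U W
    simp only [capR, hr]
    ring
  have hsz : size (capR G μ) = size (cap μ) := by
    rw [← hP]
    unfold ev size capR
    rw [Finset.sum_comm]
    exact Finset.sum_congr rfl fun W _ => Finset.sum_mul _ _ _
  have hcapR := hV _ (hμ.capR_law (G := G))
  have hbR := (hμ.capR_law (G := G)).bank_nonneg
  have huni := hV _ hμ.uni_law
  have hd2 := double (G := G) (q := q) hμ
  have hs0 := slack_nonneg hG hμ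
  have hsu := size_uni hμ
  have hp0 : 0 ≤ size (cap μ) :=
    Finset.sum_nonneg fun W _ => mul_nonneg (hμ.cap_law.nonneg W) (by positivity)
  have hbank : (13 / 6) * bank μ - (9 / 4) * size (cap μ) ≤ bank (uni μ) := by
    rw [size_cap, bank, bank, Finset.mul_sum, Finset.mul_sum, ← Finset.sum_sub_distrib]
    refine Finset.sum_le_sum fun x _ => ?_
    rw [marg_uni hμ]
    exact pow_double (hμ.marg_mem x).1 (hμ.marg_mem x).2
  have hb0 := hμ.bank_nonneg
  rw [hE, hP] at hcode
  simp only [pot] at hη huni hcapR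
  rw [hsz] at hcapR
  linarith

/-- the potential of every law is at most zero -/
theorem pot_le_zero (hG : Good1 G q H) (hμ : Law H μ) : pot G q μ ≤ 0 := by
  set S := {v : ℝ | ∃ ν, Law H ν ∧ v = pot G q ν} with hS
  have hne : S.Nonempty := ⟨_, μ, hμ, rfl⟩
  have hbdd : BddAbove S :=
    ⟨_, by rintro v ⟨ν, hν, rfl⟩; exact pot_bounded hG hν⟩
  refine (le_csSup hbdd ⟨μ, hμ, rfl⟩).trans (le_of_forall_pos_le_add fun e he => ?_)
  obtain ⟨v, ⟨ν, hν, rfl⟩, hlt⟩ := exists_lt_of_lt_csSup hne (show sSup S - e / 5 < sSup S by linarith)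
  have := near_max hG hν (V := sSup S) (η := e / 5) (by linarith)
    (fun ν' hν' => le_csSup hbdd ⟨ν', hν', rfl⟩) hlt.le
  linarith

/-- at most `|G| (e^48 q)^|F|` translates of `F` lie in `H` -/
theorem cnt_le_const (hq : 0 < q) (hG : Good1 G q H) (F : Finset X) :
    (cnt (G := G) H F : ℝ) ≤ (Fintype.card G : ℝ) * (q * Real.exp 48) ^ F.card := by
  classical
  set Ω := (orbitF (G := G) F).filter fun W => W ⊆ H with hΩ
  rcases Ω.eq_empty_or_nonempty with h | h
  · have : cnt (G := G) H F = 0 := by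
      refine card_eq_zero.2 (filter_eq_empty_iff.2 fun g _ hg => ?_)
      have hm : g • F ∈ Ω := mem_filter.2 ⟨mem_orbitF.2 ⟨g, rfl⟩, hg⟩
      simp [h] at hm
    rw [this, Nat.cast_zero]
    exact mul_nonneg (Nat.cast_nonneg _) (pow_nonneg (mul_pos hq (Real.exp_pos _)).le _)
  set N : ℝ := (Ω.card : ℝ) with hN
  have hN0 : 0 < N := by rw [hN]; exact_mod_cast h.card_pos
  set μ : Finset X → ℝ := fun W => if W ∈ Ω then N⁻¹ else 0 with hμdef
  have hμ : Law H μ := by
    refine ⟨fun U => ?_, fun U hU => ?_, ?_⟩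
    · simp only [hμdef]; split_ifs <;> positivity
    · simp only [hμdef, ne_eq, ite_eq_right_iff, not_forall] at hU
      exact (mem_filter.1 hU.1).2
    · simp only [hμdef]
      rw [Finset.sum_ite_mem, univ_inter, Finset.sum_const, nsmul_eq_mul, mul_inv_cancel₀ hN0.ne']
  have hsum : ∀ f : Finset X → ℝ, ∑ U, μ U * f U = N⁻¹ * ∑ U ∈ Ω, f U := fun f => by
    simp only [hμdef, ite_mul, zero_mul]
    rw [Finset.sum_ite_mem, univ_inter, Finset.mul_sum]
  have hcard : ∀ W ∈ Ω, (W.card : ℝ) = F.card := fun W hW => by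
    obtain ⟨g, rfl⟩ := mem_orbitF.1 (mem_filter.1 hW).1
    rw [Finset.card_smul_finset]
  set P : ℝ := (cnt (G := G) H F : ℝ) / Fintype.card G with hP
  have hav : ∀ W ∈ Ω, av (G := G) μ W = P / N := by
    intro W hW
    obtain ⟨k, hk⟩ := mem_orbitF.1 (mem_filter.1 hW).1
    have h1 : ∑ g : G, μ (g • W) = (cnt (G := G) H F : ℝ) * N⁻¹ := by
      have h2 : ∀ g : G, μ (g • W) = if (g * k) • F ⊆ H then N⁻¹ else 0 := fun g => by
        simp only [hμdef, hΩ, mem_filter, ← hk, smul_smul]
        simp [mem_orbitF]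
      rw [Finset.sum_congr rfl fun g _ => h2 g, Fintype.sum_equiv (Equiv.mulRight k)
        (fun g => if (g * k) • F ⊆ H then N⁻¹ else (0 : ℝ))
        (fun g => if g • F ⊆ H then N⁻¹ else (0 : ℝ)) fun g => rfl,
        ← Finset.sum_filter, Finset.sum_const, nsmul_eq_mul]
      rfl
    rw [av, h1, hP]
    field_simp
  have hPpos : 0 < P := by
    obtain ⟨W, hW⟩ := h
    obtain ⟨k, hk⟩ := mem_orbitF.1 (mem_filter.1 hW).1
    refine div_pos (Nat.cast_pos.2 (card_pos.2 ⟨k, ?_⟩)) card_pos'
    simpa [hk] using (mem_filter.1 hW).2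
  have hd : defect G q μ = Real.log P - (F.card : ℝ) * Real.log q := by
    rw [defect, hsum, Finset.sum_congr rfl fun W hW => by
      rw [hav W hW, hcard W hW, show μ W = N⁻¹ from if_pos hW], Finset.sum_const, nsmul_eq_mul,
      Real.log_div hPpos.ne' hN0.ne', Real.log_inv, ← hN]
    field_simp
    ring
  have hs : size μ = F.card := by
    rw [size, hsum, Finset.sum_congr rfl hcard, Finset.sum_const, nsmul_eq_mul, ← hN]
    field_simp
  have h0 := pot_le_zero hG hμ
  have hb := hμ.bank_nonneg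
  simp only [pot, hd, hs] at h0
  have hlog : Real.log P ≤ Real.log ((q * Real.exp 48) ^ F.card) := by
    rw [Real.log_pow, Real.log_mul hq.ne' (Real.exp_pos 48).ne', Real.log_exp]
    linarith
  have hle := (Real.log_le_log_iff hPpos (by positivity)).1 hlog
  rw [hP, div_le_iff₀ card_pos'] at hle
  linarith

/-- the same from the hypothesis with `1/2` -/
theorem cnt_le_spread (hq : 0 < q) (hH : Good G q H) (F : Finset X) :
    (cnt (G := G) H F : ℝ) ≤ (Fintype.card G : ℝ) * (2 * Real.exp 48 * q) ^ F.card := by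
  have h : Good1 G (2 * q) H := by
    intro U hU
    rcases U.eq_empty_or_nonempty with rfl | hne
    · simp only [card_empty, pow_zero, mul_one, Nat.one_le_cast]
      exact card_pos.2 ⟨∅, mem_orbitF.2 ⟨1, one_smul _ _⟩⟩
    · have h1 := hH U hU
      have h2 : (2 : ℝ) ≤ 2 ^ U.card := by
        calc (2 : ℝ) = 2 ^ 1 := by norm_num
          _ ≤ _ := pow_le_pow_right₀ (by norm_num) hne.card_pos
      rw [mul_pow]
      have h3 := mul_le_mul_of_nonneg_left h1 (show (0 : ℝ) ≤ 2 by norm_num)
      nlinarith [mul_le_mul_of_nonneg_right h2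
        (show (0 : ℝ) ≤ ((orbitF (G := G) U).card : ℝ) * q ^ U.card by positivity)]
  have := cnt_le_const (mul_pos two_pos hq) h F
  rwa [show 2 * q * Real.exp 48 = 2 * Real.exp 48 * q by ring] at this

end Vale.Agent.P064.Spread
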